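import Vale.Agent.Lib.P021.Rec

/-!
Module A1.  Primitive of `N(v) w^(-2H) dz/z`, `v = z + 2/z`, `w = z - 2/z`.
-/

namespace Vale.Agent.P021

open Polynomial

/-- `f` has a primitive on the slit plane minus `√2` whose imaginary part at `1+i` is
`a + b π/4` and which is real at `1`. -/
def Prim (f : ℂ → ℂ) (a b : ℚ) : Prop :=
  ∃ G : ℂ → ℂ,
    (∀ z : ℂ, z ∈ Complex.slitPlane → z ^ 2 ≠ 2 → HasDerivAt G (f z) z) ∧
    (G (1 + Complex.I)).im = (a : ℝ) + (b : ℝ) * (Real.pi / 4) ∧ (G 1).im = 0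

theorem Prim.add {f g : ℂ → ℂ} {a b c d : ℚ} (hf : Prim f a b) (hg : Prim g c d) :
    Prim (fun z => f z + g z) (a + c) (b + d) := by
  obtain ⟨F, h1, h2, h3⟩ := hf
  obtain ⟨G, k1, k2, k3⟩ := hg
  refine ⟨fun z => F z + G z, fun z hz hz2 => (h1 z hz hz2).add (k1 z hz hz2), ?_, ?_⟩
  · rw [Complex.add_im, h2, k2]; push_cast; ring
  · rw [Complex.add_im, h3, k3, add_zero]

theorem Prim.smul {f : ℂ → ℂ} {a b : ℚ} (c : ℚ) (hf : Prim f a b) :
    Prim (fun z => (c : ℂ) * f z) (c * a) (c * b) := by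
  obtain ⟨F, h1, h2, h3⟩ := hf
  have e : ∀ x : ℂ, ((c : ℂ) * x).im = (c : ℝ) * x.im := by
    intro x
    have : (c : ℂ) = ((c : ℝ) : ℂ) := by simp
    rw [this, Complex.im_ofReal_mul]
  refine ⟨fun z => (c : ℂ) * F z, fun z hz hz2 => (h1 z hz hz2).const_mul _, ?_, ?_⟩
  · rw [e, h2]; push_cast; ring
  · rw [e, h3, mul_zero]

theorem Prim.congr {f g : ℂ → ℂ} {a b c d : ℚ} (hf : Prim f a b)
    (h : ∀ z : ℂ, z ≠ 0 → z ^ 2 ≠ 2 → g z = f z) (hac : c = a) (hbd : d = b) : Prim g c d := by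
  obtain ⟨F, h1, h2, h3⟩ := hf
  subst hac hbd
  refine ⟨F, fun z hz hz2 => ?_, h2, h3⟩
  rw [h z (Complex.slitPlane_ne_zero hz) hz2]
  exact h1 z hz hz2

theorem arg_one_add_I : (1 + Complex.I).arg = Real.pi / 4 := by
  have h : (1 + Complex.I) = ((Real.sqrt 2 : ℝ) : ℂ) *
      (Complex.cos ((Real.pi / 4 : ℝ) : ℂ) + Complex.sin ((Real.pi / 4 : ℝ) : ℂ) * Complex.I) := by
    rw [← Complex.ofReal_cos, ← Complex.ofReal_sin, Real.cos_pi_div_four, Real.sin_pi_div_four]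
    have h2 : Real.sqrt 2 * (Real.sqrt 2 / 2) = 1 := by
      have := Real.mul_self_sqrt (show (0:ℝ) ≤ 2 by norm_num)
      linarith
    have h3 : ((Real.sqrt 2 : ℝ) : ℂ) * ((Real.sqrt 2 / 2 : ℝ) : ℂ) = 1 := by exact_mod_cast h2
    rw [mul_add, ← mul_assoc, h3, one_mul]
  rw [h]
  apply Complex.arg_mul_cos_add_sin_mul_I
  · positivity
  · constructor <;> linarith [Real.pi_pos]

theorem prim_log : Prim (fun z => 1 / z) 0 1 := by
  refine ⟨Complex.log, fun z hz _ => ?_, ?_, ?_⟩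
  · have := Complex.hasDerivAt_log hz
    simpa using this
  · rw [Complex.log_im, arg_one_add_I]; simp
  · simp

theorem hasDeriv_v {z : ℂ} (hz : z ≠ 0) :
    HasDerivAt (fun z : ℂ => z + 2 / z) ((z - 2 / z) / z) z := by
  have h1 : HasDerivAt (fun z : ℂ => z + 2 * z⁻¹) (1 + 2 * (-(z ^ 2)⁻¹)) z :=
    (hasDerivAt_id z).add ((hasDerivAt_inv hz).const_mul 2)
  have h2 : (fun z : ℂ => z + 2 * z⁻¹) = fun z : ℂ => z + 2 / z := by
    funext z; rw [div_eq_mul_inv]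
  rw [h2] at h1
  refine h1.congr_deriv ?_
  field_simp
  ring

theorem hasDeriv_w {z : ℂ} (hz : z ≠ 0) :
    HasDerivAt (fun z : ℂ => z - 2 / z) ((z + 2 / z) / z) z := by
  have h1 : HasDerivAt (fun z : ℂ => z - 2 * z⁻¹) (1 - 2 * (-(z ^ 2)⁻¹)) z :=
    (hasDerivAt_id z).sub ((hasDerivAt_inv hz).const_mul 2)
  have h2 : (fun z : ℂ => z - 2 * z⁻¹) = fun z : ℂ => z - 2 / z := by
    funext z; rw [div_eq_mul_inv]
  rw [h2] at h1
  refine h1.congr_deriv ?_
  field_simp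
  ring

theorem w_ne_zero {z : ℂ} (hz : z ≠ 0) (hz2 : z ^ 2 ≠ 2) : z - 2 / z ≠ 0 := by
  intro h
  apply hz2
  field_simp at h
  linear_combination h

/-- derivative of a power of `w` -/
theorem hasDeriv_wpow {z : ℂ} (hz : z ≠ 0) (hz2 : z ^ 2 ≠ 2) (m : ℤ) :
    HasDerivAt (fun z : ℂ => (z - 2 / z) ^ m)
      ((m : ℂ) * (z - 2 / z) ^ (m - 1) * ((z + 2 / z) / z)) z := by
  have h1 := hasDerivAt_zpow m (z - 2 / z) (Or.inl (w_ne_zero hz hz2))
  have h2 := HasDerivAt.comp (h₂ := fun x : ℂ => x ^ m) z h1 (hasDeriv_w hz)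
  exact h2

theorem v_at : (1 + Complex.I) + 2 / (1 + Complex.I) = 2 := by
  have h : (1 + Complex.I) ≠ 0 := by
    intro h; have := congrArg Complex.re h; simp at this
  field_simp
  ring_nf
  rw [Complex.I_sq]; ring

theorem w_at : (1 + Complex.I) - 2 / (1 + Complex.I) = 2 * Complex.I := by
  have h : (1 + Complex.I) ≠ 0 := by
    intro h; have := congrArg Complex.re h; simp at this
  field_simp
  ring_nf
  rw [Complex.I_sq]; ring

/-- `(2i)^(2k+1) = 2 (-4)^k i`. -/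
theorem w_at_zpow (k : ℤ) : (2 * Complex.I) ^ (2 * k + 1) =
    (((2 * (-4 : ℚ) ^ k : ℚ) : ℝ) : ℂ) * Complex.I := by
  have h2 : (2 * Complex.I) ≠ 0 := by simp
  have h4 : (2 * Complex.I) ^ (2 : ℤ) = -4 := by
    rw [zpow_ofNat, mul_pow, Complex.I_sq]; norm_num
  rw [zpow_add₀ h2, zpow_mul, h4, zpow_one]
  push_cast
  ring

theorem one_w (m : ℤ) : ((1 : ℂ) - 2 / 1) ^ m = (((-1 : ℝ) ^ m : ℝ) : ℂ) := by
  push_cast
  norm_num

/-- `d (v w^(2k+1))`. -/
theorem prim_exact (k : ℤ) :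
    Prim (fun z => (((2 * k + 2 : ℤ) : ℂ) * (z - 2 / z) ^ (2 * (k + 1)) +
      8 * ((2 * k + 1 : ℤ) : ℂ) * (z - 2 / z) ^ (2 * k)) / z) (4 * (-4 : ℚ) ^ k) 0 := by
  refine ⟨fun z => (z + 2 / z) * (z - 2 / z) ^ (2 * k + 1), fun z hz hz2 => ?_, ?_, ?_⟩
  · have hz0 := Complex.slitPlane_ne_zero hz
    have hw := w_ne_zero hz0 hz2
    refine ((hasDeriv_v hz0).mul (hasDeriv_wpow hz0 hz2 (2 * k + 1))).congr_deriv ?_
    beta_reduce
    have e1 : (z - 2 / z) ^ (2 * (k + 1)) = (z - 2 / z) ^ (2 * k) * (z - 2 / z) ^ 2 := by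
      rw [show 2 * (k + 1) = 2 * k + 2 by ring, zpow_add₀ hw]; norm_cast
    have e2 : (z - 2 / z) ^ (2 * k + 1) = (z - 2 / z) ^ (2 * k) * (z - 2 / z) := by
      rw [zpow_add₀ hw, zpow_one]
    have e3 : (2 * k + 1 - 1 : ℤ) = 2 * k := by ring
    rw [e3, e1, e2]
    have e4 : (z + 2 / z) ^ 2 = (z - 2 / z) ^ 2 + 8 := by field_simp; ring
    have e5 : (z - 2 / z) / z * ((z - 2 / z) ^ (2 * k) * (z - 2 / z)) +
        (z + 2 / z) * (((2 * k + 1 : ℤ) : ℂ) * (z - 2 / z) ^ (2 * k) * ((z + 2 / z) / z)) =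
        (z - 2 / z) ^ (2 * k) * ((z - 2 / z) ^ 2 + ((2 * k + 1 : ℤ) : ℂ) * (z + 2 / z) ^ 2) / z := by
      ring
    rw [e5, e4]
    push_cast
    ring
  · simp only
    rw [v_at, w_at, w_at_zpow]
    have e : ∀ r : ℝ, ((2 : ℂ) * ((r : ℂ) * Complex.I)).im = 2 * r := by
      intro r; simp
    rw [e]
    push_cast
    ring
  · simp only
    rw [one_w]
    have : ((1 : ℂ) + 2 / 1) = ((3 : ℝ) : ℂ) := by push_cast; norm_num
    rw [this, ← Complex.ofReal_mul, Complex.ofReal_im]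

theorem prim_E (k : ℤ) : Prim (fun z => (z - 2 / z) ^ (2 * k) / z) (eSeq k) (epsSeq k) := by
  induction k using Int.induction_on with
  | zero =>
    refine prim_log.congr (fun z _ _ => by simp) rfl ?_
    have : epsSeq 0 = 1 := by decide
    rw [this]; norm_num
  | succ k ih =>
    have h1 := (prim_exact (k : ℤ)).add (ih.smul (-(8 * (2 * k + 1))))
    have h2 := h1.smul (1 / (2 * k + 2))
    have hk : (2 * (k : ℚ) + 2) ≠ 0 := by positivity
    have hkC : (2 * (k : ℂ) + 2) ≠ 0 := by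
      have : ((2 * k + 2 : ℕ) : ℂ) ≠ 0 := by exact_mod_cast (by omega : 2 * k + 2 ≠ 0)
      push_cast at this; exact this
    refine h2.congr (fun z hz hz2 => ?_) ?_ ?_
    · push_cast
      field_simp
      ring
    · have := eSeq_rec (k : ℤ)
      push_cast at this
      field_simp
      linear_combination this
    · have := epsSeq_rec (k : ℤ)
      have h' : (2 * ((k : ℤ) : ℚ) + 2) * (epsSeq ((k : ℤ) + 1) : ℚ) +
        8 * (2 * ((k : ℤ) : ℚ) + 1) * (epsSeq (k : ℤ) : ℚ) = 0 := by exact_mod_cast this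
      push_cast at h'
      field_simp
      linear_combination h'
  | pred k ih =>
    have h1 := (prim_exact (-(k : ℤ) - 1)).add (ih.smul (2 * k))
    have h2 := h1.smul (1 / (-(8 * (2 * k + 1))))
    have hk : (2 * (k : ℚ) + 1) ≠ 0 := by positivity
    have hkC : (2 * (k : ℂ) + 1) ≠ 0 := by
      have : ((2 * k + 1 : ℕ) : ℂ) ≠ 0 := by exact_mod_cast (by omega : 2 * k + 1 ≠ 0)
      push_cast at this; exact this
    have e1 : (-(k : ℤ) - 1) + 1 = -(k : ℤ) := by ring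
    refine h2.congr (fun z hz hz2 => ?_) ?_ ?_
    · rw [e1]
      push_cast
      field_simp
      ring
    · have := eSeq_rec (-(k : ℤ) - 1)
      rw [e1] at this
      push_cast at this
      field_simp
      linear_combination -this
    · have := epsSeq_rec (-(k : ℤ) - 1)
      rw [e1] at this
      have h' : (2 * ((-(k : ℤ) - 1 : ℤ) : ℚ) + 2) * (epsSeq (-(k : ℤ)) : ℚ) +
        8 * (2 * ((-(k : ℤ) - 1 : ℤ) : ℚ) + 1) * (epsSeq (-(k : ℤ) - 1) : ℚ) = 0 := by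
        exact_mod_cast this
      push_cast at h'
      field_simp
      linear_combination -h'

/-- `w^(2k+1)/(2k+1)`. -/
theorem prim_O (k : ℤ) : Prim (fun z => (z + 2 / z) * (z - 2 / z) ^ (2 * k) / z) (oSeq k) 0 := by
  have hk : (2 * (k : ℚ) + 1) ≠ 0 := by
    have : (2 * k + 1) ≠ 0 := by omega
    exact_mod_cast this
  have hkC : (2 * (k : ℂ) + 1) ≠ 0 := by
    have : (2 * k + 1) ≠ 0 := by omega
    exact_mod_cast this
  have hkR : (2 * (k : ℝ) + 1) ≠ 0 := by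
    have : (2 * k + 1) ≠ 0 := by omega
    exact_mod_cast this
  refine ⟨fun z => (z - 2 / z) ^ (2 * k + 1) / (2 * (k : ℂ) + 1), fun z hz hz2 => ?_, ?_, ?_⟩
  · have hz0 := Complex.slitPlane_ne_zero hz
    refine ((hasDeriv_wpow hz0 hz2 (2 * k + 1)).div_const _).congr_deriv ?_
    have e3 : (2 * k + 1 - 1 : ℤ) = 2 * k := by ring
    rw [e3]
    push_cast
    field_simp
  · beta_reduce
    rw [w_at, w_at_zpow]
    have e : ∀ r s : ℝ, (((r : ℂ) * Complex.I) / (s : ℂ)).im = r / s := by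
      intro r s
      rw [mul_div_right_comm, ← Complex.ofReal_div]; simp
    have e2 : (2 * (k : ℂ) + 1) = ((2 * (k : ℝ) + 1 : ℝ) : ℂ) := by push_cast; ring
    rw [e2, e, oSeq]
    push_cast
    ring
  · beta_reduce
    have e2 : (2 * (k : ℂ) + 1) = ((2 * (k : ℝ) + 1 : ℝ) : ℂ) := by push_cast; ring
    rw [one_w, e2, ← Complex.ofReal_div, Complex.ofReal_im]

theorem prim_mu (k : ℕ) : ∀ H : ℤ,
    Prim (fun z => (z + 2 / z) ^ k * (z - 2 / z) ^ (-2 * H) / z) (muA k H) (muB k H) := by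
  induction k using Nat.twoStepInduction with
  | zero =>
    intro H
    refine (prim_E (-H)).congr (fun z _ _ => ?_) rfl rfl
    rw [pow_zero, one_mul, show 2 * -H = -2 * H by ring]
  | one =>
    intro H
    refine (prim_O (-H)).congr (fun z _ _ => ?_) rfl (by simp [muB])
    rw [pow_one, show 2 * -H = -2 * H by ring]
  | more k ih1 _ =>
    intro H
    refine (((ih1 H).smul 8).add (ih1 (H - 1))).congr (fun z hz hz2 => ?_) rfl ?_
    · have hw := w_ne_zero hz hz2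
      have e1 : (z - 2 / z) ^ (-2 * (H - 1)) = (z - 2 / z) ^ (-2 * H) * (z - 2 / z) ^ 2 := by
        rw [show -2 * (H - 1) = -2 * H + 2 by ring, zpow_add₀ hw]; norm_cast
      have e4 : (z + 2 / z) ^ 2 = (z - 2 / z) ^ 2 + 8 := by field_simp; ring
      rw [e1, pow_add, e4]
      push_cast
      ring
    · rw [muB]; push_cast; ring

theorem prim_poly (H : ℤ) (N : ℚ[X]) :
    Prim (fun z => (N.map (algebraMap ℚ ℂ)).eval (z + 2 / z) * (z - 2 / z) ^ (-2 * H) / z)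
      (LA H N) (LB H N) := by
  induction N using Polynomial.induction_on' with
  | add p q hp hq =>
    refine (hp.add hq).congr (fun z _ _ => ?_) (map_add _ _ _) (map_add _ _ _)
    rw [Polynomial.map_add, eval_add]; ring
  | monomial k c =>
    refine ((prim_mu k H).smul c).congr (fun z _ _ => ?_) (LA_monomial _ _ _) (LB_monomial _ _ _)
    rw [Polynomial.map_monomial, eval_monomial]
    simp only [eq_ratCast]
    ring

theorem exists_primitive (H : ℤ) (N : ℚ[X]) :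
    ∃ G : ℂ → ℂ,
      (∀ z : ℂ, z ∈ Complex.slitPlane → z ^ 2 ≠ 2 →
        HasDerivAt G ((N.map (algebraMap ℚ ℂ)).eval (z + 2 / z) * (z - 2 / z) ^ (-2 * H) / z) z) ∧
      (G (1 + Complex.I)).im = (LA H N : ℝ) + (LB H N : ℝ) * (Real.pi / 4) ∧
      (G 1).im = 0 :=
  prim_poly H N

end Vale.Agent.P021
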