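import Vale.Agent.Lib.P021.Exponent

/-!
# P021: irrationality exponent, and the general deduction lemma
-/

namespace Vale.Agent.P021

open Filter Topology

/-- A bound for the approximation of `x` by all rationals with large denominator
bounds all exponents. -/
theorem exponent_le_of_lower_bound (x : ℝ) (μ c : ℝ) (hc : 0 < c) (N : ℤ)
    (h : ∀ p q : ℤ, 2 ≤ q → N ≤ q → c * (q : ℝ) ^ (-μ) ≤ |x - (p : ℝ) / (q : ℝ)|)
    (ν : ℝ) (hν : ν ∈ exponentSet x) : ν ≤ μ := by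
  by_contra hlt
  push Not at hlt
  obtain ⟨_, hinf⟩ := hν
  apply hinf
  -- bound on q
  have hd : 0 < ν - μ := by linarith
  have hlim : Tendsto (fun t : ℝ => t ^ (ν - μ)) atTop atTop := tendsto_rpow_atTop hd
  obtain ⟨T, hT⟩ := (eventually_atTop.1 (hlim.eventually_ge_atTop (1 / c)))
  -- q < max T N
  set Q : ℤ := max N ⌈T⌉ with hQ
  have key : ∀ pq ∈ {pq : ℤ × ℤ | IsCoprime pq.1 pq.2 ∧ 2 ≤ pq.2 ∧
      0 < |x - (pq.1 : ℝ) / (pq.2 : ℝ)| ∧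
      |x - (pq.1 : ℝ) / (pq.2 : ℝ)| < (pq.2 : ℝ) ^ (-ν)},
      pq ∈ Set.Icc (-(Q * (⌈|x|⌉ + 1))) (Q * (⌈|x|⌉ + 1)) ×ˢ Set.Icc (0 : ℤ) Q := by
    rintro ⟨p, q⟩ ⟨_, hq2, _, hlt2⟩
    simp only at hq2 hlt2
    have hq0 : (0 : ℝ) < (q : ℝ) := by exact_mod_cast (by omega : 0 < q)
    have hq1 : (1 : ℝ) ≤ (q : ℝ) := by exact_mod_cast (by omega : 1 ≤ q)
    have hqQ : q ≤ Q := by
      by_contra hcon
      push Not at hcon
      have h1 : N ≤ q := (le_max_left _ _).trans hcon.le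
      have h2 : T ≤ q := (Int.le_ceil T).trans (by
        exact_mod_cast (le_max_right N ⌈T⌉).trans hcon.le)
      have h3 := h p q hq2 h1
      have h4 := hT q h2
      have h5 : c * (q : ℝ) ^ (-μ) < (q : ℝ) ^ (-ν) := lt_of_le_of_lt h3 hlt2
      have h6 : (q : ℝ) ^ (-μ) = (q : ℝ) ^ (-ν) * (q : ℝ) ^ (ν - μ) := by
        rw [← Real.rpow_add hq0]; congr 1; ring
      have h7 : 0 < (q : ℝ) ^ (-ν) := Real.rpow_pos_of_pos hq0 _
      rw [h6] at h5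
      have h8 : 1 ≤ c * (q : ℝ) ^ (ν - μ) := by
        have := mul_le_mul_of_nonneg_left h4 hc.le
        rwa [mul_one_div_cancel hc.ne'] at this
      nlinarith
    have hp : |(p : ℝ)| ≤ (Q : ℝ) * (⌈|x|⌉ + 1) := by
      have hν0 : 0 < ν := by assumption
      have h1 : (q : ℝ) ^ (-ν) ≤ 1 := Real.rpow_le_one_of_one_le_of_nonpos hq1 (by linarith)
      have h2 : |x - (p : ℝ) / q| ≤ 1 := hlt2.le.trans h1
      have h3 : |(p : ℝ) / q| ≤ |x| + 1 := by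
        have := abs_sub_abs_le_abs_sub ((p : ℝ) / q) x
        rw [abs_sub_comm] at this
        linarith
      rw [abs_div, abs_of_pos hq0, div_le_iff₀ hq0] at h3
      have h4 : |x| ≤ ⌈|x|⌉ := Int.le_ceil _
      have h5 : (q : ℝ) ≤ Q := by exact_mod_cast hqQ
      have h6 : (0 : ℝ) ≤ |x| := abs_nonneg x
      calc |(p : ℝ)| ≤ (|x| + 1) * q := h3
        _ ≤ ((⌈|x|⌉ : ℝ) + 1) * Q := by
            apply mul_le_mul (by linarith) h5 hq0.le (by linarith)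
        _ = _ := by ring
    have hp' : |p| ≤ Q * (⌈|x|⌉ + 1) := by exact_mod_cast hp
    rw [abs_le] at hp'
    exact ⟨⟨hp'.1, hp'.2⟩, ⟨by simp only; omega, hqQ⟩⟩
  exact Set.Finite.subset ((Set.finite_Icc _ _).prod (Set.finite_Icc _ _)) key

theorem irrationalityExponent_le_of_forall (x μ : ℝ) (h : ∀ ν ∈ exponentSet x, ν ≤ μ) :
    irrationalityExponent x ≤ (μ : EReal) := by
  unfold irrationalityExponent
  apply sSup_le
  rintro _ ⟨ν, hν, rfl⟩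
  exact EReal.coe_le_coe_iff.2 (h ν hν)

/-- General deduction lemma. -/
theorem lower_bound_of_forms (x a b : ℝ) (ha : 0 < a) (hb : 0 ≤ b) (A B : ℕ → ℕ → ℚ)
    (D : ℕ → ℕ)
    (hD : ∀ n, 0 < D n)
    (hA : ∀ n, ∀ j ≤ 2, ∃ z : ℤ, (D n : ℚ) * A n j = z)
    (hB : ∀ n, ∀ j ≤ 2, ∃ z : ℤ, (D n : ℚ) * B n j = z)
    (hsmall : ∀ᶠ n in atTop, ∀ j ≤ 2, (D n : ℝ) * |(A n j : ℝ) + (B n j : ℝ) * x|
      ≤ Real.exp (-(a * n)))
    (hbig : ∀ᶠ n in atTop, ∀ j ≤ 2, (D n : ℝ) * |(B n j : ℝ)| ≤ Real.exp (b * n))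
    (hnz : ∀ (n : ℕ) (r : ℚ), ∃ j ≤ 2, A n j + B n j * r ≠ 0) :
    ∃ c : ℝ, 0 < c ∧ ∃ N : ℤ, ∀ p q : ℤ, 2 ≤ q → N ≤ q →
      c * (q : ℝ) ^ (-(1 + b / a)) ≤ |x - (p : ℝ) / (q : ℝ)| := by
  obtain ⟨n0, hn0⟩ := eventually_atTop.1 (hsmall.and hbig)
  -- choose N so that n ≥ n0
  obtain ⟨N, hN⟩ : ∃ N : ℤ, ∀ q : ℤ, N ≤ q → 2 ≤ q → (n0 : ℝ) ≤ Real.log (2 * q) / a := by
    have h1 : Tendsto (fun t : ℝ => Real.log (2 * t) / a) atTop atTop :=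
      (Real.tendsto_log_atTop.comp (tendsto_id.const_mul_atTop (by norm_num : (0:ℝ) < 2))).atTop_div_const ha
    obtain ⟨T, hT⟩ := eventually_atTop.1 (h1.eventually_ge_atTop (n0 : ℝ))
    refine ⟨⌈T⌉, fun q hq _ => hT q ?_⟩
    exact (Int.le_ceil T).trans (by exact_mod_cast hq)
  refine ⟨(2 * Real.exp b * (2 : ℝ) ^ (b / a))⁻¹, by positivity, N, ?_⟩
  intro p q hq2 hNq
  have hq0 : (0 : ℝ) < (q : ℝ) := by exact_mod_cast (by omega : 0 < q)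
  have h2q : (1 : ℝ) ≤ 2 * q := by
    have : (2 : ℝ) ≤ q := by exact_mod_cast hq2
    linarith
  set n : ℕ := ⌈Real.log (2 * q) / a⌉₊ with hn
  have hlog0 : 0 ≤ Real.log (2 * q) / a := div_nonneg (Real.log_nonneg h2q) ha.le
  have hn_ge : Real.log (2 * q) / a ≤ n := Nat.le_ceil _
  have hn_lt : (n : ℝ) < Real.log (2 * q) / a + 1 := Nat.ceil_lt_add_one hlog0
  have hnn0 : n0 ≤ n := by
    have : (n0 : ℝ) ≤ n := (hN q hNq hq2).trans hn_ge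
    exact_mod_cast this
  obtain ⟨hs, hb'⟩ := hn0 n hnn0
  obtain ⟨j, hj, hne⟩ := hnz n ((p : ℚ) / q)
  have hs := hs j hj
  have hb' := hb' j hj
  obtain ⟨zA, hzA⟩ := hA n j hj
  obtain ⟨zB, hzB⟩ := hB n j hj
  have hDpos : (0 : ℝ) < D n := by exact_mod_cast hD n
  -- the integer
  have hqne : (q : ℚ) ≠ 0 := by exact_mod_cast (by omega : q ≠ 0)
  have hDne : (D n : ℚ) ≠ 0 := by exact_mod_cast (hD n).ne'
  have hint : (D n : ℚ) * q * (A n j + B n j * ((p : ℚ) / q)) = ((zA * q + zB * p : ℤ) : ℚ) := by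
    push_cast
    rw [← hzA, ← hzB]
    field_simp
  have hintne : (zA * q + zB * p : ℤ) ≠ 0 := by
    intro h0
    rw [h0] at hint
    have : (D n : ℚ) * q * (A n j + B n j * ((p : ℚ) / q)) ≠ 0 :=
      mul_ne_zero (mul_ne_zero hDne hqne) hne
    exact this (by rw [hint]; simp)
  have h1 : (1 : ℝ) ≤ |((zA * q + zB * p : ℤ) : ℝ)| := by
    have : (1 : ℤ) ≤ |zA * q + zB * p| := Int.one_le_abs hintne
    exact_mod_cast this
  have hintR : (D n : ℝ) * q * ((A n j : ℝ) + (B n j : ℝ) * ((p : ℝ) / q)) =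
      ((zA * q + zB * p : ℤ) : ℝ) := by
    have := congrArg (fun t : ℚ => (t : ℝ)) hint
    push_cast at this ⊢
    exact this
  rw [← hintR] at h1
  have hsplit : (A n j : ℝ) + (B n j : ℝ) * ((p : ℝ) / q) =
      ((A n j : ℝ) + (B n j : ℝ) * x) - (B n j : ℝ) * (x - (p : ℝ) / q) := by ring
  rw [hsplit] at h1
  have h2 : |(D n : ℝ) * q * (((A n j : ℝ) + (B n j : ℝ) * x) - (B n j : ℝ) * (x - (p : ℝ) / q))|
      ≤ q * ((D n : ℝ) * |(A n j : ℝ) + (B n j : ℝ) * x|) +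
        q * ((D n : ℝ) * |(B n j : ℝ)|) * |x - (p : ℝ) / q| := by
    rw [abs_mul, abs_of_pos (mul_pos hDpos hq0)]
    calc (D n : ℝ) * q * |((A n j : ℝ) + (B n j : ℝ) * x) - (B n j : ℝ) * (x - (p : ℝ) / q)|
        ≤ (D n : ℝ) * q * (|(A n j : ℝ) + (B n j : ℝ) * x| + |(B n j : ℝ) * (x - (p : ℝ) / q)|) := by
          apply mul_le_mul_of_nonneg_left (abs_sub _ _) (by positivity)
      _ = _ := by rw [abs_mul]; ring
  have h3 : q * ((D n : ℝ) * |(A n j : ℝ) + (B n j : ℝ) * x|) ≤ 1 / 2 := by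
    have e1 : Real.exp (-(a * n)) ≤ (2 * (q : ℝ))⁻¹ := by
      have : Real.log (2 * q) ≤ a * n := by
        rw [div_le_iff₀ ha] at hn_ge; linarith
      calc Real.exp (-(a * n)) ≤ Real.exp (-(Real.log (2 * q))) := Real.exp_le_exp.2 (by linarith)
        _ = (2 * (q : ℝ))⁻¹ := by rw [Real.exp_neg, Real.exp_log (by linarith)]
    calc q * ((D n : ℝ) * |(A n j : ℝ) + (B n j : ℝ) * x|) ≤ q * (2 * (q : ℝ))⁻¹ :=
          mul_le_mul_of_nonneg_left (hs.trans e1) hq0.le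
      _ = 1 / 2 := by field_simp
  have h4 : 1 / 2 ≤ q * ((D n : ℝ) * |(B n j : ℝ)|) * |x - (p : ℝ) / q| := by linarith
  have h5 : Real.exp (b * n) ≤ Real.exp b * (2 * (q : ℝ)) ^ (b / a) := by
    rw [Real.rpow_def_of_pos (by linarith), ← Real.exp_add]
    apply Real.exp_le_exp.2
    have : b * n ≤ b * (Real.log (2 * q) / a + 1) := mul_le_mul_of_nonneg_left hn_lt.le hb
    calc b * n ≤ b * (Real.log (2 * q) / a + 1) := this
      _ = b + Real.log (2 * q) * (b / a) := by ring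
  have h6 : 1 / 2 ≤ q * (Real.exp b * (2 * (q : ℝ)) ^ (b / a)) * |x - (p : ℝ) / q| := by
    refine h4.trans ?_
    apply mul_le_mul_of_nonneg_right _ (abs_nonneg _)
    apply mul_le_mul_of_nonneg_left (hb'.trans h5) hq0.le
  have h7 : (2 * (q : ℝ)) ^ (b / a) = (2 : ℝ) ^ (b / a) * (q : ℝ) ^ (b / a) :=
    Real.mul_rpow (by norm_num) hq0.le
  have h8 : (q : ℝ) ^ (-(1 + b / a)) = ((q : ℝ) * (q : ℝ) ^ (b / a))⁻¹ := by
    rw [Real.rpow_neg hq0.le, Real.rpow_add hq0, Real.rpow_one]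
  rw [h8, ← mul_inv, inv_le_iff_one_le_mul₀ (by positivity)]
  rw [h7] at h6
  linarith

/-- Exponent bound from forms. -/
theorem exponent_le_of_forms (x a b : ℝ) (ha : 0 < a) (hb : 0 ≤ b) (A B : ℕ → ℕ → ℚ)
    (D : ℕ → ℕ)
    (hD : ∀ n, 0 < D n)
    (hA : ∀ n, ∀ j ≤ 2, ∃ z : ℤ, (D n : ℚ) * A n j = z)
    (hB : ∀ n, ∀ j ≤ 2, ∃ z : ℤ, (D n : ℚ) * B n j = z)
    (hsmall : ∀ᶠ n in atTop, ∀ j ≤ 2, (D n : ℝ) * |(A n j : ℝ) + (B n j : ℝ) * x|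
      ≤ Real.exp (-(a * n)))
    (hbig : ∀ᶠ n in atTop, ∀ j ≤ 2, (D n : ℝ) * |(B n j : ℝ)| ≤ Real.exp (b * n))
    (hnz : ∀ (n : ℕ) (r : ℚ), ∃ j ≤ 2, A n j + B n j * r ≠ 0) :
    irrationalityExponent x ≤ ((1 + b / a : ℝ) : EReal) := by
  obtain ⟨c, hc, N, hN⟩ := lower_bound_of_forms x a b ha hb A B D hD hA hB hsmall hbig hnz
  exact irrationalityExponent_le_of_forall x _ fun ν hν =>
    exponent_le_of_lower_bound x _ c hc N hN ν hν

end Vale.Agent.P021
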