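import Mathlib

/-!
# P021: denominators from p-adic norms
-/

namespace Vale.Agent.P021

open Filter Topology

theorem exists_int_of_padicNorm_le_one (x : ℚ) (h : ∀ p : ℕ, p.Prime → padicNorm p x ≤ 1) :
    ∃ z : ℤ, x = z := by
  by_cases hd : x.den = 1
  · exact ⟨x.num, (Rat.den_eq_one_iff x).1 hd |>.symm⟩
  · exfalso
    have hp := Nat.minFac_prime hd
    set p := x.den.minFac with hpdef
    have : Fact p.Prime := ⟨hp⟩
    have hpd : p ∣ x.den := Nat.minFac_dvd _
    have hx := h p hp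
    have hcop := x.reduced
    have hnum : ¬ (p : ℤ) ∣ x.num := by
      intro hdiv
      have h1 : p ∣ x.num.natAbs := Int.natCast_dvd.1 hdiv
      have := Nat.dvd_gcd h1 hpd
      rw [Nat.Coprime] at hcop
      rw [hcop] at this
      exact hp.one_lt.ne' (Nat.dvd_one.1 this)
    have h1 : padicNorm p x = padicNorm p (x.num : ℚ) / padicNorm p (x.den : ℚ) := by
      conv_lhs => rw [← Rat.num_div_den x]
      rw [padicNorm.div]
    have h2 : padicNorm p (x.num : ℚ) = 1 := (padicNorm.int_eq_one_iff _).2 hnum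
    have h3 : padicNorm p ((x.den : ℕ) : ℚ) < 1 := (padicNorm.nat_lt_one_iff _).2 hpd
    have h4 : 0 < padicNorm p ((x.den : ℕ) : ℚ) := by
      have h5 : ((x.den : ℕ) : ℚ) ≠ 0 := by exact_mod_cast x.den_nz
      exact lt_of_le_of_ne (padicNorm.nonneg _) (padicNorm.nonzero h5).symm
    rw [h1, h2, div_le_one h4] at hx
    exact absurd h3 (not_lt.2 hx)

theorem padicNorm_pow (p : ℕ) [Fact p.Prime] (x : ℚ) (n : ℕ) :
    padicNorm p (x ^ n) = padicNorm p x ^ n := by
  induction n with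
  | zero => simp
  | succ n ih => rw [pow_succ, padicNorm.mul, ih, pow_succ]

theorem denom_int {x : ℚ} {L s : ℕ} {S : Finset ℕ} (hL : L ≠ 0)
    (hS : ∀ p ∈ S, p.Prime ∧ p ≠ 2 ∧ p ∣ L)
    (hSx : ∀ p ∈ S, padicNorm p x ≤ 1)
    (h1 : ∃ t : ℕ, ∃ z : ℤ, (2 : ℚ) ^ t * (L : ℚ) * x = z) (h2 : padicNorm 2 x ≤ 2 ^ s) :
    ∃ z : ℤ, ((2 ^ s * (L / ∏ p ∈ S, p) : ℕ) : ℚ) * x = z := by
  have hprod : ∏ p ∈ S, p ∣ L := by
    apply Finset.prod_primes_dvd
    · intro p hp; exact Nat.Prime.prime (hS p hp).1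
    · intro p hp; exact (hS p hp).2.2
  have hprod0 : ∏ p ∈ S, p ≠ 0 := fun h0 => hL (by
    rw [h0] at hprod; exact Nat.eq_zero_of_zero_dvd hprod)
  obtain ⟨M, hM⟩ := hprod
  have hLM : L / ∏ p ∈ S, p = M := by
    rw [hM]; exact Nat.mul_div_cancel_left _ (Nat.pos_of_ne_zero hprod0)
  rw [hLM]
  apply exists_int_of_padicNorm_le_one
  intro p hp
  have : Fact p.Prime := ⟨hp⟩
  have hMle : padicNorm p (M : ℚ) ≤ 1 := padicNorm.of_nat M
  have h2le : padicNorm p ((2 : ℚ) ^ s) ≤ 1 := by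
    have := padicNorm.of_nat (p := p) (2 ^ s)
    push_cast at this
    exact this
  have hn := padicNorm.nonneg (p := p)
  push_cast
  rw [padicNorm.mul, padicNorm.mul]
  by_cases hp2 : p = 2
  · subst hp2
    have e0 : padicNorm 2 (2 : ℚ) = (2 : ℚ)⁻¹ := by
      have := padicNorm.padicNorm_p_of_prime (p := 2)
      exact_mod_cast this
    have e1 : padicNorm 2 ((2 : ℚ) ^ s) = ((2 : ℚ) ^ s)⁻¹ := by
      rw [padicNorm_pow, e0, inv_pow]
    rw [e1]
    have e2 : padicNorm 2 (M : ℚ) * padicNorm 2 x ≤ 1 * 2 ^ s :=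
      mul_le_mul hMle h2 (hn _) zero_le_one
    have e3 : (0 : ℚ) < 2 ^ s := by positivity
    rw [mul_assoc, inv_mul_le_iff₀ e3]
    linarith
  · by_cases hpS : p ∈ S
    · have := hSx p hpS
      calc padicNorm p ((2 : ℚ) ^ s) * padicNorm p (M : ℚ) * padicNorm p x ≤ 1 * 1 * 1 := by
            gcongr
            · exact hn _
            · exact hn _
        _ = 1 := by norm_num
    · obtain ⟨t, z, hz⟩ := h1
      have hone : padicNorm p ((∏ q ∈ S, q : ℕ) : ℚ) = 1 := by
        rw [padicNorm.nat_eq_one_iff]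
        intro hdvd
        rw [Prime.dvd_finsetProd_iff (Nat.Prime.prime hp)] at hdvd
        obtain ⟨q, hq, hpq⟩ := hdvd
        have := (Nat.prime_dvd_prime_iff_eq hp (hS q hq).1).1 hpq
        exact hpS (this ▸ hq)
      have h2one : ∀ t : ℕ, padicNorm p ((2 : ℚ) ^ t) = 1 := by
        intro t
        have h2' : padicNorm p ((2 : ℕ) : ℚ) = 1 := by
          rw [padicNorm.nat_eq_one_iff]
          intro hdvd
          exact hp2 ((Nat.prime_dvd_prime_iff_eq hp Nat.prime_two).1 hdvd)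
        rw [padicNorm_pow]
        push_cast at h2'
        rw [h2', one_pow]
      have hz2 : padicNorm p ((2 : ℚ) ^ t * (L : ℚ) * x) ≤ 1 := by
        rw [hz]; exact padicNorm.of_int z
      rw [padicNorm.mul, padicNorm.mul, h2one t, hM, Nat.cast_mul, padicNorm.mul, hone] at hz2
      rw [h2one s]
      simpa using hz2

end Vale.Agent.P021
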