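import Vale.Agent.Lib.P021.Rec

/-!
Module C1.  Nonvanishing.

Let `Λ = LA H + c • LB H` (linear functional on `ℚ[X]`), `N₀ = (X-2)^α (X-3)^β`.
Suppose `Λ (N₀ X^j) = 0` for `j = 0,1,2`.
(a) `exNum H (X^k (X-2)^(α+1) (X-3)^(β+1)) = N₀ * Q_k`, `Q_k` of degree exactly `k+3` with leading
coefficient `α+β+k+3-2H ≠ 0`; `Λ` kills it by `LA_exact`, `LB_exact` (value at 2 is 0).
Hence by induction on degree `Λ (N₀ * P) = 0` for all `P`.
(b) There is `h` with `h.eval 2 ≠ 0` and `N₀ ∣ exNum H h`: take `h = (X-3)^(β+1) * s`, then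
`exNum H h = (X-3)^β * (p0 * s' + p1 * s)`, `p0 = (X-3)(X²-8)`, `p0(2) ≠ 0`, and an easy induction
on `α` gives `s` with `s(2) = 1` and `(X-2)^α ∣ p0 s' + p1 s`.
(c) `Λ (exNum H h) = 2 h(2) (-4)^(-H) ≠ 0`, contradiction.
-/

namespace Vale.Agent.P021

open Polynomial

/-- `Λ = LA H + c • LB H` vanishes on exact forms of polynomials vanishing at 2. -/
theorem lam_exact (H : ℤ) (c : ℚ) (g : ℚ[X]) :
    (LA H + c • LB H) (exNum H g) = 2 * g.eval 2 * (-4 : ℚ) ^ (-H) := by
  rw [LinearMap.add_apply, LinearMap.smul_apply, LA_exact, LB_exact, smul_zero, add_zero]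

theorem exNum_special (α β k : ℕ) (H : ℤ) :
    exNum H (X ^ k * ((X - C 2) ^ (α + 1) * (X - C 3) ^ (β + 1))) =
      ((k : ℚ) + α + β + 3 - 2 * H) • ((X - C 2) ^ α * (X - C 3) ^ β * X ^ (k + 3))
      + (-5 * (k : ℚ) - 3 * (α + 1) - 2 * (β + 1) - 5 * (1 - 2 * H)) •
          ((X - C 2) ^ α * (X - C 3) ^ β * X ^ (k + 2))
      + (-2 * (k : ℚ) - 8 * (α + 1) - 8 * (β + 1) + 6 * (1 - 2 * H)) •
          ((X - C 2) ^ α * (X - C 3) ^ β * X ^ (k + 1))
      + (40 * (k : ℚ) + 24 * (α + 1) + 16 * (β + 1)) •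
          ((X - C 2) ^ α * (X - C 3) ^ β * X ^ k)
      + (-48 * (k : ℚ)) • ((X - C 2) ^ α * (X - C 3) ^ β * X ^ (k - 1)) := by
  have h2 : (C (2 : ℚ)) = 2 := rfl
  have h3 : (C (3 : ℚ)) = 3 := rfl
  have h8 : (C (8 : ℚ)) = 8 := rfl
  have hd2 : derivative (2 : ℚ[X]) = 0 := by rw [← h2]; exact derivative_C
  have hd3 : derivative (3 : ℚ[X]) = 0 := by rw [← h3]; exact derivative_C
  have hsm : ∀ (r : ℚ) (p : ℚ[X]), r • p = C r * p := fun r p => smul_eq_C_mul r
  cases k with
  | zero =>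
    simp only [exNum, hsm, derivative_mul, derivative_pow, derivative_sub, derivative_X,
      derivative_C, h2, h3, h8, hd2, hd3, C_mul, C_add, C_sub, C_neg, Nat.add_sub_cancel, Nat.cast_add,
      Nat.cast_one, Nat.cast_zero, map_natCast, map_intCast, map_ofNat, map_one, map_zero,
      pow_zero, sub_zero, mul_one, one_mul, zero_mul, zero_add, derivative_one]
    ring
  | succ k =>
    simp only [exNum, hsm, derivative_mul, derivative_pow, derivative_sub, derivative_X,
      derivative_C, h2, h3, h8, hd2, hd3, C_mul, C_add, C_sub, C_neg, Nat.add_sub_cancel, Nat.cast_add,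
      Nat.cast_one, map_natCast, map_intCast, map_ofNat, map_one,
      sub_zero, mul_one, one_mul]
    ring

theorem lam_all_zero (α β : ℕ) (H : ℤ) (hH : 2 * H < α + β + 3) (c : ℚ)
    (h : ∀ j ≤ 2, (LA H + c • LB H) (NQ α β j) = 0) (n : ℕ) :
    (LA H + c • LB H) (NQ α β n) = 0 := by
  induction n using Nat.strong_induction_on with
  | _ n ih =>
    rcases le_or_gt n 2 with hn | hn
    · exact h n hn
    · obtain ⟨k, rfl⟩ : ∃ k, n = k + 3 := ⟨n - 3, by omega⟩
      have h1 := lam_exact H c (X ^ k * ((X - C 2) ^ (α + 1) * (X - C 3) ^ (β + 1)))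
      have hev : (X ^ k * ((X - C 2) ^ (α + 1) * (X - C 3) ^ (β + 1)) : ℚ[X]).eval 2 = 0 := by
        simp
      rw [hev, mul_zero, zero_mul, exNum_special] at h1
      have e0 := ih k (by omega)
      have e1 := ih (k + 1) (by omega)
      have e2 := ih (k + 2) (by omega)
      have em := ih (k - 1) (by omega)
      unfold NQ at e0 e1 e2 em
      rw [map_add, map_add, map_add, map_add, map_smul, map_smul, map_smul, map_smul, map_smul,
        e0, e1, e2, em] at h1
      simp only [mul_zero, add_zero, smul_eq_mul] at h1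
      rcases mul_eq_zero.1 h1 with h2 | h2
      · exfalso
        have h3 : (2 * (H : ℚ)) < α + β + 3 := by exact_mod_cast hH
        have h4 : (0 : ℚ) ≤ k := Nat.cast_nonneg k
        linarith
      · exact h2

theorem lam_mul_zero (α β : ℕ) (H : ℤ) (hH : 2 * H < α + β + 3) (c : ℚ)
    (h : ∀ j ≤ 2, (LA H + c • LB H) (NQ α β j) = 0) (P : ℚ[X]) :
    (LA H + c • LB H) ((X - C 2) ^ α * (X - C 3) ^ β * P) = 0 := by
  induction P using Polynomial.induction_on' with
  | add p q hp hq => rw [mul_add, map_add, hp, hq, add_zero]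
  | monomial k a =>
    have h1 := lam_all_zero α β H hH c h k
    unfold NQ at h1
    have : (X - C 2) ^ α * (X - C 3) ^ β * monomial k a
        = a • ((X - C 2) ^ α * (X - C 3) ^ β * X ^ k : ℚ[X]) := by
      rw [← C_mul_X_pow_eq_monomial, smul_eq_C_mul]
      ring
    rw [this, map_smul, h1, smul_zero]

/-- local solution of the differential equation at `2`. -/
theorem exists_local_sol (p0 p1 : ℚ[X]) (hp : p0.eval 2 ≠ 0) (α : ℕ) :
    ∃ s : ℚ[X], s.eval 2 = 1 ∧ (X - C 2) ^ α ∣ p0 * derivative s + p1 * s := by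
  induction α with
  | zero => exact ⟨1, by simp, by simp⟩
  | succ α ih =>
    obtain ⟨s, hs, r, hr⟩ := ih
    set c : ℚ := -(r.eval 2) / ((α + 1) * p0.eval 2) with hc
    refine ⟨s + C c * (X - C 2) ^ (α + 1), ?_, ?_⟩
    · simp [hs]
    · have h1 : p0 * derivative (s + C c * (X - C 2) ^ (α + 1)) + p1 * (s + C c * (X - C 2) ^ (α + 1))
          = (X - C 2) ^ α * (r + C (c * (α + 1)) * p0 + C c * p1 * (X - C 2)) := by
        have hd : derivative (s + C c * (X - C 2) ^ (α + 1))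
            = derivative s + C (c * (α + 1)) * (X - C 2) ^ α := by
          rw [derivative_add, derivative_C_mul, derivative_X_sub_C_pow]
          simp only [Nat.add_sub_cancel, Nat.cast_add, Nat.cast_one, C_mul, C_add, C_1]
          rw [map_natCast]
          ring
        rw [hd]
        calc _ = (p0 * derivative s + p1 * s) + (C (c * (α + 1)) * p0 * (X - C 2) ^ α
              + C c * p1 * (X - C 2) ^ (α + 1)) := by ring
          _ = _ := by rw [hr]; ring
      rw [h1, pow_succ]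
      refine mul_dvd_mul_left _ ?_
      rw [dvd_iff_isRoot, IsRoot.def]
      simp only [eval_add, eval_mul, eval_C, eval_sub, eval_X, sub_self, mul_zero, add_zero]
      rw [hc]
      have : ((α : ℚ) + 1) ≠ 0 := by positivity
      field_simp
      ring

theorem nonvanishing (α β : ℕ) (H : ℤ) (hH : 2 * H < α + β + 3) (c : ℚ) :
    ∃ j ≤ 2, LA H (NQ α β j) + c * LB H (NQ α β j) ≠ 0 := by
  by_contra hcon
  push Not at hcon
  have h : ∀ j ≤ 2, (LA H + c • LB H) (NQ α β j) = 0 := fun j hj => by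
    rw [LinearMap.add_apply, LinearMap.smul_apply, smul_eq_mul]
    exact hcon j hj
  obtain ⟨s, hs, r, hr⟩ := exists_local_sol ((X - C 3) * (X ^ 2 - C 8))
    (C ((β : ℚ) + 1) * (X ^ 2 - C 8) + C (1 - 2 * (H : ℚ)) * (X * (X - C 3))) (by simp; norm_num) α
  have h1 : exNum H ((X - C 3) ^ (β + 1) * s) = (X - C 2) ^ α * (X - C 3) ^ β * r := by
    have hd : derivative ((X - C 3) ^ (β + 1) * s : ℚ[X])
        = C ((β : ℚ) + 1) * (X - C 3) ^ β * s + (X - C 3) ^ (β + 1) * derivative s := by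
      rw [derivative_mul, derivative_X_sub_C_pow]
      simp only [Nat.add_sub_cancel, Nat.cast_add, Nat.cast_one, C_add, C_1]
    unfold exNum
    rw [hd]
    calc _ = (X - C 3) ^ β * ((X - C 3) * (X ^ 2 - C 8) * derivative s +
          (C ((β : ℚ) + 1) * (X ^ 2 - C 8) + C (1 - 2 * (H : ℚ)) * (X * (X - C 3))) * s) := by ring
      _ = _ := by rw [hr]; ring
  have h2 := lam_exact H c ((X - C 3) ^ (β + 1) * s)
  rw [h1, lam_mul_zero α β H hH c h r] at h2
  have h3 : ((X - C 3) ^ (β + 1) * s : ℚ[X]).eval 2 = (-1) ^ (β + 1) := by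
    simp only [eval_mul, eval_pow, eval_sub, eval_X, eval_C, hs, mul_one]
    norm_num
  rw [h3] at h2
  have h4 : (2 * (-1 : ℚ) ^ (β + 1) * (-4 : ℚ) ^ (-H)) ≠ 0 := by
    refine mul_ne_zero (mul_ne_zero two_ne_zero (pow_ne_zero _ (by norm_num))) ?_
    exact zpow_ne_zero _ (by norm_num)
  exact h4 h2.symm

end Vale.Agent.P021
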