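import Vale.Agent.Lib.P021.Rec

/-!
Module B1.  Denominator of `LA` away from 2.

Plan: solve the recursion: for `k ≥ 0`, with `c_k = (-2)^k C(2k,k)`,
`e_k = ∑_{j=1}^{k} (c_k/c_j) * 2 (-4)^(j-1) / j`, and for `κ ≥ 1`
`e_{-κ} = ∑_{j=1}^{κ} ± 2^{..} * C(2j-2,j-1) / (κ C(2κ,κ))`
(homogeneous solution `h_{-κ} = (-1)^(κ-1) 2^κ / (4^(κ-1) κ C(2κ,κ))`).
Since `j * C(2j,j) ∣ lcm(1..2j)` (p-adic valuation, or beta integral), all is in
`ℤ[1/2] / lcm(1..2|k|)`.  Odd moments: `2 (-4)^k / (2k+1)`.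
Then `N = ∑ (a_m + b_m v) W^m` with `a_m, b_m ∈ ℤ`, `m ≤ deg N / 2` (repeated division by the
monic `X^2 - 8`), use `LA_W_pow`, `LA_X_mul_W_pow`.
-/

namespace Vale.Agent.P021

open Polynomial

theorem mul_centralBinom_dvd_lcmUpto (j : ℕ) (hj : 1 ≤ j) :
    j * j.centralBinom ∣ Nat.lcmUpto (2 * j) := by
  have hj0 : j ≠ 0 := by omega
  have hc0 : j.centralBinom ≠ 0 := Nat.centralBinom_ne_zero j
  rw [← Nat.factorization_prime_le_iff_dvd (mul_ne_zero hj0 hc0) (Nat.lcmUpto_ne_zero _)]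
  intro p hp
  rw [Nat.factorization_lcmUpto _ hp, Nat.factorization_mul hj0 hc0, Finsupp.coe_add,
    Pi.add_apply, Nat.centralBinom]
  have hlt : 2 * j < p ^ (Nat.log p (2 * j) + 1) :=
    Nat.lt_pow_succ_log_self hp.one_lt _
  have hj' : j < p ^ (Nat.log p (2 * j) + 1) := by omega
  rw [Nat.factorization_choose (b := Nat.log p (2 * j) + 1) hp (by omega) (Nat.lt_succ_self _),
    Nat.factorization_eq_card_pow_dvd_of_lt hp (by omega) hj']
  have hdisj : Disjoint
      (Finset.filter (fun i => p ^ i ∣ j) (Finset.Ico 1 (Nat.log p (2 * j) + 1)))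
      (Finset.filter (fun i => p ^ i ≤ j % p ^ i + (2 * j - j) % p ^ i)
        (Finset.Ico 1 (Nat.log p (2 * j) + 1))) := by
    rw [Finset.disjoint_left]
    intro i hi hi'
    rw [Finset.mem_filter] at hi hi'
    have h1 : j % p ^ i = 0 := Nat.mod_eq_zero_of_dvd hi.2
    have h2 : 2 * j - j = j := by omega
    have h3 := hi'.2
    rw [h2, h1] at h3
    have h4 : 0 < p ^ i := pow_pos hp.pos _
    omega
  rw [← Finset.card_union_of_disjoint hdisj, ← Finset.filter_or]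
  refine (Finset.card_filter_le _ _).trans ?_
  simp

/-- `x` has denominator dividing `2 ^ s * L`. -/
def Good (L : ℕ) (x : ℚ) : Prop := ∃ s : ℕ, ∃ z : ℤ, (2 : ℚ) ^ s * (L : ℚ) * x = z

theorem Good.add {L : ℕ} {x y : ℚ} (hx : Good L x) (hy : Good L y) : Good L (x + y) := by
  obtain ⟨s, z, h⟩ := hx
  obtain ⟨s', z', h'⟩ := hy
  refine ⟨s + s', 2 ^ s' * z + 2 ^ s * z', ?_⟩
  push_cast
  rw [← h, ← h', pow_add]
  ring

theorem Good.zero (L : ℕ) : Good L 0 := ⟨0, 0, by simp⟩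

theorem Good.int_mul {L : ℕ} {x : ℚ} (a : ℤ) (hx : Good L x) : Good L (a * x) := by
  obtain ⟨s, z, h⟩ := hx
  refine ⟨s, a * z, ?_⟩
  push_cast
  rw [← h]
  ring

theorem Good.div_two_pow {L : ℕ} {x : ℚ} (n : ℕ) (hx : Good L x) : Good L (x / 2 ^ n) := by
  obtain ⟨s, z, h⟩ := hx
  refine ⟨s + n, z, ?_⟩
  rw [← h, pow_add]
  field_simp

theorem Good.neg {L : ℕ} {x : ℚ} (hx : Good L x) : Good L (-x) := by
  have := hx.int_mul (-1)
  simpa using this

theorem Good.int (L : ℕ) (a : ℤ) : Good L a := ⟨0, L * a, by push_cast; ring⟩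

theorem Good.sum {ι : Type*} {L : ℕ} (s : Finset ι) (f : ι → ℚ) (h : ∀ i ∈ s, Good L (f i)) :
    Good L (∑ i ∈ s, f i) := by
  classical
  induction s using Finset.induction_on with
  | empty => simpa using Good.zero L
  | insert a s ha ih =>
    rw [Finset.sum_insert ha]
    exact (h a (Finset.mem_insert_self _ _)).add
      (ih fun i hi => h i (Finset.mem_insert_of_mem hi))

theorem centralBinom_succ_rat (k : ℕ) :
    ((k : ℚ) + 1) * ((k + 1).centralBinom : ℚ) = 2 * (2 * k + 1) * (k.centralBinom : ℚ) := by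
  have h := Nat.succ_mul_centralBinom_succ k
  exact_mod_cast h

theorem good_ePos (L k : ℕ) (h : ∀ j, 1 ≤ j → j ≤ k → j * j.centralBinom ∣ L) :
    Good L (ePos k) := by
  have key : ∀ k : ℕ, (∀ j, 1 ≤ j → j ≤ k → j * j.centralBinom ∣ L) →
      ∃ f : ℚ, Good L f ∧ ePos k = ((-2) ^ k * (k.centralBinom : ℤ) : ℤ) * f := by
    intro k
    induction k with
    | zero =>
      intro _
      exact ⟨0, Good.zero L, by simp [ePos]⟩
    | succ k ih =>
      intro h
      obtain ⟨f, hf, hk⟩ := ih fun j h1 h2 => h j h1 (by omega)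
      obtain ⟨q, hq⟩ := h (k + 1) (by omega) le_rfl
      have hc := centralBinom_succ_rat k
      have hne : ((k + 1).centralBinom : ℚ) ≠ 0 := by
        exact_mod_cast Nat.centralBinom_ne_zero (k + 1)
      have hk1 : ((k : ℚ) + 1) ≠ 0 := by positivity
      refine ⟨f + 2 * (-4) ^ k / (((k : ℚ) + 1) * ((-2) ^ (k + 1) * ((k + 1).centralBinom : ℚ))),
        hf.add ?_, ?_⟩
      · refine ⟨0, -(q * 2 ^ k), ?_⟩
        rw [hq]
        push_cast
        have h4 : (-4 : ℚ) ^ k = 2 ^ k * (-2) ^ k := by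
          rw [← mul_pow]; norm_num
        rw [h4, pow_succ]
        field_simp
      · rw [ePos, hk]
        have h2 : ((-2 : ℚ)) ^ (k + 1) ≠ 0 := pow_ne_zero _ (by norm_num)
        have h2' : ((-2 : ℚ)) ^ k ≠ 0 := pow_ne_zero _ (by norm_num)
        push_cast
        have e1 : (-2 : ℚ) ^ (k + 1) * ((k + 1).centralBinom : ℚ) *
            (2 * (-4) ^ k / (((k : ℚ) + 1) * ((-2) ^ (k + 1) * ((k + 1).centralBinom : ℚ)))) =
            2 * (-4) ^ k / ((k : ℚ) + 1) := by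
          field_simp
        have e2 : ((k + 1).centralBinom : ℚ) = 2 * (2 * k + 1) * (k.centralBinom : ℚ) / (k + 1) := by
          rw [← hc]; field_simp
        have e3 : (-2 : ℚ) ^ (k + 1) * ((k + 1).centralBinom : ℚ) * (f +
            2 * (-4) ^ k / (((k : ℚ) + 1) * ((-2) ^ (k + 1) * ((k + 1).centralBinom : ℚ)))) =
            (-2 : ℚ) ^ (k + 1) * ((k + 1).centralBinom : ℚ) * f + 2 * (-4) ^ k / ((k : ℚ) + 1) := by
          rw [mul_add, e1]
        rw [e3, e2, pow_succ]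
        field_simp
        ring
  obtain ⟨f, hf, hk⟩ := key k h
  rw [hk]
  exact hf.int_mul _

theorem good_eNeg_aux (m : ℕ) : Good 1 ((m : ℚ) * (m.centralBinom : ℚ) * eNeg m) := by
  induction m with
  | zero => simpa using Good.zero 1
  | succ m ih =>
    have hc := centralBinom_succ_rat m
    have h1 : (2 * (m : ℚ) + 1) ≠ 0 := by positivity
    have e : (((m + 1 : ℕ) : ℚ) * ((m + 1).centralBinom : ℚ) * eNeg (m + 1)) =
        -(((-1) ^ (m + 1) * (m.centralBinom : ℤ) : ℤ) / 2 ^ (2 * (m + 1))) +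
          -(((m : ℚ) * (m.centralBinom : ℚ) * eNeg m) / 2 ^ 1) := by
      have h4 : ((-4 : ℚ) ^ (m + 1))⁻¹ = (-1) ^ (m + 1) / 2 ^ (2 * (m + 1)) := by
        rw [pow_mul, eq_div_iff (by positivity), inv_mul_eq_div,
          div_eq_iff (pow_ne_zero _ (by norm_num)), ← mul_pow]
        norm_num
      push_cast
      rw [hc, eNeg, h4]
      field_simp
      ring
    rw [e]
    exact ((Good.int 1 _).div_two_pow _).neg.add (ih.div_two_pow 1).neg

theorem good_eNeg (L m : ℕ) (h : 1 ≤ m → m * m.centralBinom ∣ L) : Good L (eNeg m) := by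
  rcases Nat.eq_zero_or_pos m with rfl | hm
  · exact Good.zero L
  · obtain ⟨q, hq⟩ := h hm
    obtain ⟨s, z, hz⟩ := good_eNeg_aux m
    refine ⟨s, q * z, ?_⟩
    push_cast
    rw [← hz, hq]
    push_cast
    ring

theorem good_oSeq (L : ℕ) (k : ℤ) (h : (2 * k + 1).natAbs ∣ L) : Good L (oSeq k) := by
  have h' : (2 * k + 1) ∣ (L : ℤ) := by
    rw [← Int.natAbs_dvd]
    exact_mod_cast h
  obtain ⟨q, hq⟩ := h'
  have hne : (2 * (k : ℚ) + 1) ≠ 0 := by
    have : (2 * k + 1) ≠ 0 := by omega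
    exact_mod_cast this
  have hL : (L : ℚ) = (2 * k + 1) * q := by exact_mod_cast hq
  obtain ⟨n, rfl | rfl⟩ := k.eq_nat_or_neg
  · refine ⟨0, 2 * (-4) ^ n * q, ?_⟩
    rw [hL, oSeq, zpow_natCast]
    push_cast at hne ⊢
    field_simp
  · refine ⟨2 * n, 2 * (-1) ^ n * q, ?_⟩
    rw [hL, oSeq, zpow_neg, zpow_natCast]
    have h4 : (-4 : ℚ) ^ n = (-1) ^ n * 2 ^ (2 * n) := by
      rw [pow_mul, ← mul_pow]; norm_num
    have h1 : ((-1 : ℚ) ^ n) * (-1) ^ n = 1 := by
      rw [← mul_pow]; norm_num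
    have h2 : ((-1 : ℚ) ^ n) ≠ 0 := pow_ne_zero _ (by norm_num)
    rw [h4]
    push_cast at hne ⊢
    generalize (2 * -(n : ℚ) + 1) = d at hne
    have h5 : (2 : ℚ) ^ (2 * n) * (d * q) * (2 * ((-1) ^ n * 2 ^ (2 * n))⁻¹ / d) =
        2 * ((-1) ^ n)⁻¹ * q := by
      field_simp
    rw [h5, inv_eq_of_mul_eq_one_left h1]

theorem good_muA (L : ℕ) (H D : ℕ) (he : ∀ m : ℕ, 2 * m ≤ D → Good L (eSeq (m - H)))
    (ho : ∀ m : ℕ, 2 * m + 1 ≤ D → Good L (oSeq (m - H))) :
    ∀ k m : ℕ, k + 2 * m ≤ D → Good L (muA k (H - m)) := by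
  intro k
  induction k using Nat.strong_induction_on with
  | _ k ih =>
    intro m hm
    match k, ih with
    | 0, _ =>
      rw [muA]
      have : -((H : ℤ) - m) = m - H := by ring
      rw [this]
      exact he m (by omega)
    | 1, _ =>
      rw [muA]
      have : -((H : ℤ) - m) = m - H := by ring
      rw [this]
      exact ho m (by omega)
    | (k + 2), ih =>
      rw [muA]
      have h1 := ih k (by omega) m (by omega)
      have h2 := ih k (by omega) (m + 1) (by omega)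
      have e : (H : ℤ) - m - 1 = H - ((m + 1 : ℕ) : ℤ) := by push_cast; ring
      rw [e]
      have h8 := h1.int_mul 8
      push_cast at h8
      push_cast at h2 ⊢
      exact h8.add h2

theorem lcmUpto_dvd_lcmUpto {a b : ℕ} (h : a ≤ b) : Nat.lcmUpto a ∣ Nat.lcmUpto b := by
  unfold Nat.lcmUpto
  exact Finset.lcm_mono (Finset.Icc_subset_Icc le_rfl h)

/-- odd part of the denominator -/
theorem LA_odd_denom (H K : ℕ) (N : ℤ[X]) (h1 : 2 * H ≤ K) (h2 : N.natDegree ≤ K + 2 * H) :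
    ∃ s : ℕ, ∃ z : ℤ,
      (2 : ℚ) ^ s * (Nat.lcmUpto K : ℚ) * LA H (N.map (Int.castRingHom ℚ)) = z := by
  have hdvd : ∀ j, 1 ≤ j → 2 * j ≤ K → j * j.centralBinom ∣ Nat.lcmUpto K := fun j h3 h4 =>
    (mul_centralBinom_dvd_lcmUpto j h3).trans (lcmUpto_dvd_lcmUpto h4)
  have he : ∀ m : ℕ, 2 * m ≤ K + 2 * H → Good (Nat.lcmUpto K) (eSeq (m - H)) := by
    intro m hm
    rcases le_total H m with h | h
    · have : (m : ℤ) - H = ((m - H : ℕ) : ℤ) := by omega
      rw [this, eSeq_natCast]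
      exact good_ePos _ _ fun j h3 h4 => hdvd j h3 (by omega)
    · have : (m : ℤ) - H = -((H - m : ℕ) : ℤ) := by omega
      rw [this, eSeq_neg_natCast]
      exact good_eNeg _ _ fun h3 => hdvd _ h3 (by omega)
  have ho : ∀ m : ℕ, 2 * m + 1 ≤ K + 2 * H → Good (Nat.lcmUpto K) (oSeq (m - H)) := by
    intro m hm
    refine good_oSeq _ _ ?_
    unfold Nat.lcmUpto
    have hmem : (2 * ((m : ℤ) - H) + 1).natAbs ∈ Finset.Icc 1 K := by
      rw [Finset.mem_Icc]
      omega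
    exact Finset.dvd_lcm (f := id) hmem
  have hmu := good_muA (Nat.lcmUpto K) H (K + 2 * H) he ho
  have : Good (Nat.lcmUpto K) (LA H (N.map (Int.castRingHom ℚ))) := by
    rw [N.as_sum_range, Polynomial.map_sum, map_sum]
    refine Good.sum _ _ fun i hi => ?_
    rw [Polynomial.map_monomial, LA_monomial]
    have h3 := hmu i 0 (by rw [Finset.mem_range] at hi; omega)
    have e : (H : ℤ) - ((0 : ℕ) : ℤ) = H := by simp
    rw [e] at h3
    exact h3.int_mul _
  exact this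

end Vale.Agent.P021
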