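import Vale.Agent.Lib.P021.Two
import Vale.Agent.Lib.P021.Odd
import Vale.Agent.Lib.P021.Nonvanish
import Vale.Agent.Lib.P021.Deduction
import Vale.Agent.Lib.P021.Denom

/-!
# P021: assembly
-/

namespace Vale.Agent.P021

open Polynomial Filter Topology

/-- `m_n r^n` is eventually at most one. -/
theorem eventually_lin_mul_pow_le (r K c a : ℝ) (hr0 : 0 ≤ r) (hr : r < 1) :
    ∀ᶠ n : ℕ in atTop, K * (c * (a * n + 1) + 1) * r ^ n ≤ 1 := by
  have h1 : Tendsto (fun n : ℕ => (n : ℝ) * r ^ n) atTop (𝓝 0) :=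
    tendsto_self_mul_const_pow_of_lt_one hr0 hr
  have h2 : Tendsto (fun n : ℕ => r ^ n) atTop (𝓝 0) := tendsto_pow_atTop_nhds_zero_of_lt_one hr0 hr
  have h3 : Tendsto (fun n : ℕ => (K * c * a) * ((n : ℝ) * r ^ n) + (K * c + K) * r ^ n) atTop
      (𝓝 ((K * c * a) * 0 + (K * c + K) * 0)) := (h1.const_mul _).add (h2.const_mul _)
  simp only [mul_zero, add_zero] at h3
  have h4 := h3.eventually_le_const (u := 1) zero_lt_one
  filter_upwards [h4] with n hn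
  calc K * (c * (a * n + 1) + 1) * r ^ n
      = (K * c * a) * ((n : ℝ) * r ^ n) + (K * c + K) * r ^ n := by ring
    _ ≤ 1 := hn

theorem NQ_eq_map (α β j : ℕ) :
    NQ α β j = ((((X : ℤ[X]) - C 2) ^ α * ((X - C 3) ^ β * X ^ j))).map (Int.castRingHom ℚ) := by
  rw [NQ, Polynomial.map_mul, Polynomial.map_mul, Polynomial.map_pow, Polynomial.map_pow,
    Polynomial.map_pow, Polynomial.map_sub, Polynomial.map_sub, map_X, map_C, map_C, mul_assoc]
  congr 3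

theorem natDegree_int_NQ (α β j : ℕ) :
    ((((X : ℤ[X]) - C 2) ^ α * ((X - C 3) ^ β * X ^ j))).natDegree ≤ α + β + j := by
  have h1 : (((X : ℤ[X]) - C 2) ^ α).natDegree ≤ α := by
    refine natDegree_pow_le.trans ?_
    rw [natDegree_X_sub_C, mul_one]
  have h2 : (((X : ℤ[X]) - C 3) ^ β).natDegree ≤ β := by
    refine natDegree_pow_le.trans ?_
    rw [natDegree_X_sub_C, mul_one]
  have h3 : ((X : ℤ[X]) ^ j).natDegree ≤ j := by simp
  calc _ ≤ _ := natDegree_mul_le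
    _ ≤ α + (β + j) := by
        gcongr
        exact natDegree_mul_le.trans (by gcongr)
    _ = _ := by ring

theorem exponent_le_general (a b h k : ℕ) (h1 : 4 * h ≤ 3 * a) (h2 : 2 * h ≤ k)
    (h3 : a + b ≤ k + 2 * h) (h4 : 2 * h ≤ a + b)
    (ρ σ κ L1 L2 : ℝ) (hρ : 0 < ρ) (hσ : 0 < σ)
    (hform : ∃ c : ℝ, 0 < c ∧ ∀ n j : ℕ, j ≤ 2 →
      |(LA ((h * n : ℕ) : ℤ) (NQ (a * n) (b * n) j) : ℝ) +
        (LB ((h * n : ℕ) : ℤ) (NQ (a * n) (b * n) j) : ℝ) * (Real.pi / 4)| ≤ c * ρ ^ n)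
    (hLB : ∃ c : ℝ, 0 < c ∧ ∀ n j : ℕ, j ≤ 2 →
      |(LB ((h * n : ℕ) : ℤ) (NQ (a * n) (b * n) j) : ℝ)| ≤ c * σ ^ n)
    (S : ℕ → Finset ℕ)
    (hS : ∀ n, ∀ p ∈ S n, p.Prime ∧ p ≠ 2 ∧ p ∣ Nat.lcmUpto (k * n + 2))
    (hSx : ∀ n, ∀ p ∈ S n, ∀ j ≤ 2,
      padicNorm p (LA ((h * n : ℕ) : ℤ) (NQ (a * n) (b * n) j)) ≤ 1)
    (hκ : ∀ᶠ n : ℕ in atTop,
      Real.log (Nat.lcmUpto (k * n + 2)) - ∑ p ∈ S n, Real.log p ≤ κ * n)
    (hL1 : σ < Real.exp L1) (hL2 : ρ < Real.exp (-L2)) (hκ2 : κ < L2) (hκ1 : 0 ≤ L1 + κ) :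
    irrationalityExponent Real.pi ≤ ((1 + (L1 + κ) / (L2 - κ) : ℝ) : EReal) := by
  obtain ⟨c2, hc2⟩ := LA_two_adic
  obtain ⟨c3, hc3, hform⟩ := hform
  obtain ⟨c4, hc4, hLB⟩ := hLB
  set m : ℕ → ℕ := fun n => c2 * (a * n + 1) + 1 with hm
  set s : ℕ → ℕ := fun n => Nat.log 2 (m n) + 1 with hs
  have hs1 : ∀ n, m n ≤ 2 ^ s n := fun n => (Nat.lt_pow_succ_log_self (by norm_num) _).le
  have hs2 : ∀ n, 2 ^ s n ≤ 2 * m n := by
    intro n
    have : 2 ^ Nat.log 2 (m n) ≤ m n := Nat.pow_log_le_self 2 (by simp [hm])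
    simp only [hs, pow_succ]
    omega
  set D : ℕ → ℕ := fun n => 2 ^ s n * (Nat.lcmUpto (k * n + 2) / ∏ p ∈ S n, p) with hDdef
  have hprod : ∀ n, ∏ p ∈ S n, p ∣ Nat.lcmUpto (k * n + 2) := by
    intro n
    apply Finset.prod_primes_dvd
    · intro p hp; exact Nat.Prime.prime (hS n p hp).1
    · intro p hp; exact (hS n p hp).2.2
  have hprodpos : ∀ n, 0 < ∏ p ∈ S n, p := by
    intro n
    apply Finset.prod_pos
    intro p hp
    exact (hS n p hp).1.pos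
  have hDpos : ∀ n, 0 < D n := by
    intro n
    simp only [hDdef]
    apply Nat.mul_pos (by positivity)
    exact Nat.div_pos (Nat.le_of_dvd (Nat.lcmUpto_pos _) (hprod n)) (hprodpos n)
  -- size of D
  have hDsize : ∀ᶠ n : ℕ in atTop, (D n : ℝ) ≤ 2 * (c2 * (a * n + 1) + 1) * Real.exp (κ * n) := by
    filter_upwards [hκ] with n hn
    have e1 : ((Nat.lcmUpto (k * n + 2) / ∏ p ∈ S n, p : ℕ) : ℝ) =
        Real.exp (Real.log (Nat.lcmUpto (k * n + 2)) - ∑ p ∈ S n, Real.log p) := by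
      rw [Nat.cast_div (hprod n) (by exact_mod_cast (hprodpos n).ne'), Real.exp_sub,
        Real.exp_log (by exact_mod_cast Nat.lcmUpto_pos _), Real.exp_sum]
      congr 1
      push_cast
      apply Finset.prod_congr rfl
      intro p hp
      rw [Real.exp_log]
      exact_mod_cast (hS n p hp).1.pos
    have e2 : ((2 ^ s n : ℕ) : ℝ) ≤ 2 * (c2 * (a * n + 1) + 1) := by
      have := hs2 n
      have h' : ((2 ^ s n : ℕ) : ℝ) ≤ ((2 * m n : ℕ) : ℝ) := by exact_mod_cast this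
      refine h'.trans (le_of_eq ?_)
      simp only [hm]
      push_cast
      ring
    simp only [hDdef]
    rw [Nat.cast_mul, e1]
    exact mul_le_mul e2 (Real.exp_le_exp.2 hn) (Real.exp_pos _).le (by positivity)
  apply exponent_le_of_forms Real.pi (L2 - κ) (L1 + κ) (by linarith) hκ1
    (fun n j => 4 * LA ((h * n : ℕ) : ℤ) (NQ (a * n) (b * n) j))
    (fun n j => LB ((h * n : ℕ) : ℤ) (NQ (a * n) (b * n) j)) D hDpos
  · intro n j hj
    have key : ∃ z : ℤ, (D n : ℚ) * LA ((h * n : ℕ) : ℤ) (NQ (a * n) (b * n) j) = z := by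
      apply denom_int (Nat.lcmUpto_ne_zero _) (hS n) (fun p hp => hSx n p hp j hj)
      · rw [NQ_eq_map]
        apply LA_odd_denom (h * n) (k * n + 2)
        · nlinarith
        · refine (natDegree_int_NQ _ _ _).trans ?_
          nlinarith
      · rw [NQ_eq_map]
        refine (hc2 (a * n) (h * n) _ (by nlinarith)).trans ?_
        have : ((m n : ℕ) : ℚ) ≤ ((2 ^ s n : ℕ) : ℚ) := by exact_mod_cast hs1 n
        simp only [hm] at this
        push_cast at this ⊢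
        linarith
    obtain ⟨z, hz⟩ := key
    refine ⟨4 * z, ?_⟩
    rw [Int.cast_mul, ← hz, Int.cast_ofNat]
    ring
  · intro n j _
    obtain ⟨z, hz⟩ := LB_int ((h * n : ℕ) : ℤ)
      ((((X : ℤ[X]) - C 2) ^ (a * n) * ((X - C 3) ^ (b * n) * X ^ j)))
    rw [← NQ_eq_map] at hz
    refine ⟨D n * z, ?_⟩
    rw [Int.cast_mul, ← hz, Int.cast_natCast]
  · -- small
    have hr : ρ * Real.exp L2 < 1 := by
      have := mul_lt_mul_of_pos_right hL2 (Real.exp_pos L2)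
      rwa [← Real.exp_add, neg_add_cancel, Real.exp_zero] at this
    filter_upwards [hDsize, eventually_lin_mul_pow_le (ρ * Real.exp L2) (8 * c3) c2 a
      (by positivity) hr] with n hn1 hn2 j hj
    have e1 : |((4 * LA ((h * n : ℕ) : ℤ) (NQ (a * n) (b * n) j) : ℚ) : ℝ) +
        (LB ((h * n : ℕ) : ℤ) (NQ (a * n) (b * n) j) : ℝ) * Real.pi| ≤ 4 * (c3 * ρ ^ n) := by
      have := hform n j hj
      have e : ((4 * LA ((h * n : ℕ) : ℤ) (NQ (a * n) (b * n) j) : ℚ) : ℝ) +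
        (LB ((h * n : ℕ) : ℤ) (NQ (a * n) (b * n) j) : ℝ) * Real.pi =
        4 * ((LA ((h * n : ℕ) : ℤ) (NQ (a * n) (b * n) j) : ℝ) +
          (LB ((h * n : ℕ) : ℤ) (NQ (a * n) (b * n) j) : ℝ) * (Real.pi / 4)) := by
        push_cast; ring
      rw [e, abs_mul, abs_of_pos (by norm_num : (0:ℝ) < 4)]
      linarith
    have e2 : Real.exp (-((L2 - κ) * n)) = Real.exp (κ * n) * (Real.exp L2 ^ n)⁻¹ := by
      rw [← Real.exp_nat_mul, ← Real.exp_neg, ← Real.exp_add]; congr 1; ring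
    rw [e2]
    have e3 : 0 < Real.exp L2 ^ n := by positivity
    calc (D n : ℝ) * |((4 * LA ((h * n : ℕ) : ℤ) (NQ (a * n) (b * n) j) : ℚ) : ℝ) +
        (LB ((h * n : ℕ) : ℤ) (NQ (a * n) (b * n) j) : ℝ) * Real.pi|
        ≤ (2 * (c2 * (a * n + 1) + 1) * Real.exp (κ * n)) * (4 * (c3 * ρ ^ n)) :=
          mul_le_mul hn1 e1 (abs_nonneg _) (by positivity)
      _ = Real.exp (κ * n) * (Real.exp L2 ^ n)⁻¹ *
          (8 * c3 * (c2 * (a * n + 1) + 1) * (ρ * Real.exp L2) ^ n) := by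
          rw [mul_pow]; field_simp; ring
      _ ≤ Real.exp (κ * n) * (Real.exp L2 ^ n)⁻¹ * 1 := by
          apply mul_le_mul_of_nonneg_left hn2 (by positivity)
      _ = _ := by ring
  · -- big
    have hr : σ * (Real.exp L1)⁻¹ < 1 := by
      rw [← div_eq_mul_inv, div_lt_one (Real.exp_pos _)]; exact hL1
    filter_upwards [hDsize, eventually_lin_mul_pow_le (σ * (Real.exp L1)⁻¹) (2 * c4) c2 a
      (by positivity) hr] with n hn1 hn2 j hj
    have e1 := hLB n j hj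
    have e2 : Real.exp ((L1 + κ) * n) = Real.exp (κ * n) * (Real.exp L1 ^ n) := by
      rw [← Real.exp_nat_mul, ← Real.exp_add]; congr 1; ring
    rw [e2]
    have e3 : 0 < Real.exp L1 ^ n := by positivity
    calc (D n : ℝ) * |(LB ((h * n : ℕ) : ℤ) (NQ (a * n) (b * n) j) : ℝ)|
        ≤ (2 * (c2 * (a * n + 1) + 1) * Real.exp (κ * n)) * (c4 * σ ^ n) :=
          mul_le_mul hn1 e1 (abs_nonneg _) (by positivity)
      _ = Real.exp (κ * n) * (Real.exp L1 ^ n) *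
          (2 * c4 * (c2 * (a * n + 1) + 1) * (σ * (Real.exp L1)⁻¹) ^ n) := by
          rw [mul_pow, inv_pow]; field_simp
      _ ≤ Real.exp (κ * n) * (Real.exp L1 ^ n) * 1 := by
          apply mul_le_mul_of_nonneg_left hn2 (by positivity)
      _ = _ := by ring
  · intro n r
    obtain ⟨j, hj, hne⟩ := nonvanishing (a * n) (b * n) ((h * n : ℕ) : ℤ)
      (by push_cast; nlinarith) (r / 4)
    refine ⟨j, hj, fun h0 => hne ?_⟩
    have : LA ((h * n : ℕ) : ℤ) (NQ (a * n) (b * n) j) +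
      r / 4 * LB ((h * n : ℕ) : ℤ) (NQ (a * n) (b * n) j) =
      (4 * LA ((h * n : ℕ) : ℤ) (NQ (a * n) (b * n) j) +
      LB ((h * n : ℕ) : ℤ) (NQ (a * n) (b * n) j) * r) / 4 := by ring
    rw [this, h0, zero_div]

end Vale.Agent.P021
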