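import Vale.Agent.Lib.Common.PNT.PNT

/-!
# P021: asymptotics of lcm, from the prime number theorem
-/

namespace Vale.Agent.P021

open Filter Topology

theorem tendsto_log_lcmUpto (k : ℕ) :
    Tendsto (fun n : ℕ => Real.log (Nat.lcmUpto (k * n + 2)) / n) atTop (𝓝 k) := by
  rcases Nat.eq_zero_or_pos k with rfl | hk
  · simp only [zero_mul, zero_add, Nat.cast_zero]
    exact tendsto_const_nhds.div_atTop tendsto_natCast_atTop_atTop
  have h0 : Tendsto (fun n : ℕ => k * n + 2) atTop atTop := by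
    apply tendsto_atTop_mono (f := fun n : ℕ => n) _ tendsto_id
    intro n
    show n ≤ k * n + 2
    nlinarith
  have h1 := Vale.Agent.Lib.Common.PNT.psi_nat_tendsto.comp h0
  have h2 : Tendsto (fun n : ℕ => ((k * n + 2 : ℕ) : ℝ) / n) atTop (𝓝 k) := by
    have h3 : Tendsto (fun n : ℕ => (k : ℝ) + 2 / n) atTop (𝓝 (k + 0)) :=
      tendsto_const_nhds.add (tendsto_const_nhds.div_atTop tendsto_natCast_atTop_atTop)
    rw [add_zero] at h3
    refine h3.congr' ?_
    filter_upwards [eventually_gt_atTop 0] with n hn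
    have : (n : ℝ) ≠ 0 := by exact_mod_cast hn.ne'
    push_cast
    field_simp
  have h4 := h1.mul h2
  rw [one_mul] at h4
  refine h4.congr' ?_
  filter_upwards [eventually_gt_atTop 0] with n hn
  have h5 : (n : ℝ) ≠ 0 := by exact_mod_cast hn.ne'
  have h6 : ((k * n + 2 : ℕ) : ℝ) ≠ 0 := by positivity
  simp only [Function.comp]
  rw [← Chebyshev.psi_eq_log_lcmUpto]
  field_simp

theorem log_lcmUpto_le (k : ℕ) (κ : ℝ) (h : (k : ℝ) < κ) :
    ∀ᶠ n : ℕ in atTop, Real.log (Nat.lcmUpto (k * n + 2)) ≤ κ * n := by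
  have h1 := (tendsto_log_lcmUpto k).eventually_le_const h
  filter_upwards [h1, eventually_gt_atTop 0] with n hn hn0
  have : (0 : ℝ) < n := by exact_mod_cast hn0
  rwa [div_le_iff₀ this] at hn

end Vale.Agent.P021
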