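import Vale.Agent.Lib.P021.Analytic
import Vale.Agent.Lib.P021.Cert

/-!
Module A2.  Upper bounds.

`form_bound`: the primitive from `exists_primitive` and the mean value inequality on the polygon
`1, 6/5 + i/2, 1 + i`; the bound of the integrand on the two segments is certified in `Cert.lean`
(Bernstein coefficients).

`LB_bound`: induction on `k`: `|muB k H| ≤ v^k * w^(-2H)` whenever `v, w > 0`,
`v^2 = w^2 + 8`, `w^2 ≥ 8`, then sum over coefficients.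
-/

namespace Vale.Agent.P021

open Polynomial

/-- rate constant -/
noncomputable def M2 : ℝ := 1462 / 1000000

/-! ### the linear form -/

/-- Mean value inequality along a segment. -/
theorem norm_sub_le_segment {F G : ℂ → ℂ} {a b : ℂ} {M : ℝ}
    (hF : ∀ z ∈ segment ℝ a b, HasDerivAt F (G z) z)
    (hG : ∀ z ∈ segment ℝ a b, ‖G z‖ ≤ M) : ‖F b - F a‖ ≤ M * ‖b - a‖ := by
  apply Convex.norm_image_sub_le_of_norm_hasDerivWithin_le (f := F) (f' := G)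
    (s := segment ℝ a b) (𝕜 := ℂ)
  · intro x hx
    exact (hF x hx).hasDerivWithinAt
  · exact hG
  · exact convex_segment a b
  · exact left_mem_segment ℝ a b
  · exact right_mem_segment ℝ a b

/-- General upper bound for the form by the sup of the integrand along the polygon
`1, S, 1 + i`. -/
theorem form_le (H : ℤ) (N : ℚ[X]) (S : ℂ) (M : ℝ)
    (h : ∀ z : ℂ, z ∈ segment ℝ 1 S ∨ z ∈ segment ℝ S (1 + Complex.I) →
      0 < z.re ∧ z ^ 2 ≠ 2 ∧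
      ‖(N.map (algebraMap ℚ ℂ)).eval (z + 2 / z) * (z - 2 / z) ^ (-2 * H) / z‖ ≤ M) :
    |(LA H N : ℝ) + (LB H N : ℝ) * (Real.pi / 4)| ≤ M * (‖S - 1‖ + ‖1 + Complex.I - S‖) := by
  obtain ⟨G, h1, h2, h3⟩ := exists_primitive H N
  have hs : ∀ z : ℂ, 0 < z.re → z ∈ Complex.slitPlane := fun z hz => Or.inl hz
  have e1 := norm_sub_le_segment (F := G) (a := 1) (b := S) (M := M)
    (fun z hz => h1 z (hs z (h z (Or.inl hz)).1) (h z (Or.inl hz)).2.1)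
    (fun z hz => (h z (Or.inl hz)).2.2)
  have e2 := norm_sub_le_segment (F := G) (a := S) (b := 1 + Complex.I) (M := M)
    (fun z hz => h1 z (hs z (h z (Or.inr hz)).1) (h z (Or.inr hz)).2.1)
    (fun z hz => (h z (Or.inr hz)).2.2)
  have e3 : (LA H N : ℝ) + (LB H N : ℝ) * (Real.pi / 4) = (G (1 + Complex.I) - G 1).im := by
    rw [Complex.sub_im, h2, h3, sub_zero]
  rw [e3]
  calc |(G (1 + Complex.I) - G 1).im| ≤ ‖G (1 + Complex.I) - G 1‖ := Complex.abs_im_le_norm _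
    _ = ‖(G (1 + Complex.I) - G S) + (G S - G 1)‖ := by congr 1; ring
    _ ≤ ‖G (1 + Complex.I) - G S‖ + ‖G S - G 1‖ := norm_add_le _ _
    _ ≤ M * (‖S - 1‖ + ‖1 + Complex.I - S‖) := by linarith

theorem integrand_eq (a b h n j : ℕ) {z : ℂ} (hz : z ≠ 0) (hz2 : z ^ 2 ≠ 2) :
    ‖((NQ (a * n) (b * n) j).map (algebraMap ℚ ℂ)).eval (z + 2 / z) *
        (z - 2 / z) ^ (-2 * ((h * n : ℕ) : ℤ)) / z‖ =
      (‖z + 2 / z - 2‖ ^ a * ‖z + 2 / z - 3‖ ^ b / ‖z - 2 / z‖ ^ (2 * h)) ^ n *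
        (‖z + 2 / z‖ ^ j / ‖z‖) := by
  have hw := w_ne_zero hz hz2
  have e1 : ((NQ (a * n) (b * n) j).map (algebraMap ℚ ℂ)).eval (z + 2 / z) =
      (z + 2 / z - 2) ^ (a * n) * (z + 2 / z - 3) ^ (b * n) * (z + 2 / z) ^ j := by
    simp [NQ]
  have e2 : (z - 2 / z) ^ (-2 * ((h * n : ℕ) : ℤ)) = ((z - 2 / z) ^ (2 * h * n))⁻¹ := by
    rw [← zpow_natCast, ← zpow_neg]
    congr 1
    push_cast
    ring
  rw [e1, e2]
  simp only [norm_div, norm_mul, norm_pow, norm_inv]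
  rw [div_pow, mul_pow, ← pow_mul, ← pow_mul, ← pow_mul]
  ring

/-- certified constant -/
noncomputable def kap : ℝ := 1391/952436

theorem kap_pos : 0 < kap := by unfold kap; norm_num

theorem kap_le : kap ≤ M2 := by unfold kap M2; norm_num

theorem nsqP1 (x y : ℝ) : Complex.normSq ((⟨x, y⟩ : ℂ)^2 - 2*⟨x, y⟩ + 2) =
    (x^2 - y^2 - 2*x + 2)^2 + (2*x*y - 2*y)^2 := by
  simp [Complex.normSq_apply, pow_two]
  ring

theorem nsqP2 (x y : ℝ) : Complex.normSq (((⟨x, y⟩ : ℂ) - 1) * (⟨x, y⟩ - 2)) =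
    ((x-1)^2 + y^2) * ((x-2)^2 + y^2) := by
  simp [Complex.normSq_apply, pow_two]
  ring

theorem nsqX (x y : ℝ) : Complex.normSq (⟨x, y⟩ : ℂ) = x^2 + y^2 := by
  simp [Complex.normSq_apply, pow_two]

theorem nsqP4 (x y : ℝ) : Complex.normSq ((⟨x, y⟩ : ℂ)^2 - 2) = (x^2 - y^2 - 2)^2 + (2*x*y)^2 := by
  simp [Complex.normSq_apply, pow_two]
  ring

theorem segA_key (t y : ℝ) (ht : 0 ≤ t) (ht1 : t ≤ 1) (hy : y^2 = (t/2)^2) (z : ℂ)
    (hz : z = ⟨1 + t/5, y⟩) :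
    Complex.normSq (z^2 - 2*z + 2)^3 * Complex.normSq ((z-1)*(z-2))^5 ≤
      kap^2 * (Complex.normSq z^4 * Complex.normSq (z^2-2)^4) := by
  have h := certA t ht ht1
  have e1 : Complex.normSq (z^2 - 2*z + 2) =
      ((1+t/5)^2 - y^2 - 2*(1+t/5) + 2)^2 + 4*(t/5)^2*y^2 := by
    rw [hz, nsqP1]; ring
  have e2 : Complex.normSq ((z-1)*(z-2)) = ((t/5)^2 + y^2) * ((t/5-1)^2 + y^2) := by
    rw [hz, nsqP2]; ring
  have e3 : Complex.normSq z = (1+t/5)^2 + y^2 := by rw [hz, nsqX]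
  have e4 : Complex.normSq (z^2 - 2) = ((1+t/5)^2 - y^2 - 2)^2 + 4*(1+t/5)^2*y^2 := by
    rw [hz, nsqP4]; ring
  rw [e1, e2, e3, e4, hy]
  refine le_of_eq_of_le ?_ (h.trans_eq ?_)
  · congr 1 <;> congr 1 <;> ring
  · congr 1; congr 1 <;> congr 1 <;> ring

theorem segB_key (t y : ℝ) (ht : 0 ≤ t) (ht1 : t ≤ 1) (hy : y^2 = (1/2+t/2)^2) (z : ℂ)
    (hz : z = ⟨6/5 - t/5, y⟩) :
    Complex.normSq (z^2 - 2*z + 2)^3 * Complex.normSq ((z-1)*(z-2))^5 ≤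
      kap^2 * (Complex.normSq z^4 * Complex.normSq (z^2-2)^4) := by
  have h := certB t ht ht1
  have e1 : Complex.normSq (z^2 - 2*z + 2) =
      ((6/5-t/5)^2 - y^2 - 2*(6/5-t/5) + 2)^2 + 4*(1/5-t/5)^2*y^2 := by
    rw [hz, nsqP1]; ring
  have e2 : Complex.normSq ((z-1)*(z-2)) = ((1/5-t/5)^2 + y^2) * ((-4/5-t/5)^2 + y^2) := by
    rw [hz, nsqP2]; ring
  have e3 : Complex.normSq z = (6/5-t/5)^2 + y^2 := by rw [hz, nsqX]
  have e4 : Complex.normSq (z^2 - 2) = ((6/5-t/5)^2 - y^2 - 2)^2 + 4*(6/5-t/5)^2*y^2 := by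
    rw [hz, nsqP4]; ring
  rw [e1, e2, e3, e4, hy]
  refine le_of_eq_of_le ?_ (h.trans_eq ?_)
  · congr 1 <;> congr 1 <;> ring
  · congr 1; congr 1 <;> congr 1 <;> ring

theorem key_div {z : ℂ} (hz : z ≠ 0) (hz2 : z ^ 2 ≠ 2)
    (h : Complex.normSq (z^2 - 2*z + 2)^3 * Complex.normSq ((z-1)*(z-2))^5 ≤
      kap^2 * (Complex.normSq z^4 * Complex.normSq (z^2-2)^4)) :
    ‖z + 2 / z - 2‖ ^ 3 * ‖z + 2 / z - 3‖ ^ 5 / ‖z - 2 / z‖ ^ (2 * 2) ≤ kap := by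
  have hw := w_ne_zero hz hz2
  have hz' : 0 < ‖z‖ := norm_pos_iff.mpr hz
  have hz2' : z ^ 2 - 2 ≠ 0 := sub_ne_zero.mpr hz2
  have hw' : 0 < ‖z ^ 2 - 2‖ := norm_pos_iff.mpr hz2'
  have e1 : ‖z + 2 / z - 2‖ = ‖z^2 - 2*z + 2‖ / ‖z‖ := by
    rw [← norm_div]; congr 1; field_simp; ring
  have e2 : ‖z + 2 / z - 3‖ = ‖(z-1)*(z-2)‖ / ‖z‖ := by
    rw [← norm_div]; congr 1; field_simp; ring
  have e3 : ‖z - 2 / z‖ = ‖z^2 - 2‖ / ‖z‖ := by
    rw [← norm_div]; congr 1; field_simp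
  rw [e1, e2, e3]
  have h1 : ‖z^2 - 2*z + 2‖^3 * ‖(z-1)*(z-2)‖^5 / (‖z‖^4 * ‖z^2-2‖^4) ≤ kap := by
    have hp : 0 < ‖z‖^4 * ‖z^2-2‖^4 := by positivity
    have hk := kap_pos
    rw [div_le_iff₀ hp]
    refine le_of_sq_le_sq ?_ (by positivity)
    simp only [Complex.normSq_eq_norm_sq] at h
    calc (‖z^2 - 2*z + 2‖^3 * ‖(z-1)*(z-2)‖^5)^2 =
          (‖z^2 - 2*z + 2‖^2)^3 * (‖(z-1)*(z-2)‖^2)^5 := by ring
      _ ≤ _ := h
      _ = (kap * (‖z‖^4 * ‖z^2-2‖^4))^2 := by ring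
  refine le_of_eq_of_le ?_ h1
  generalize ‖z^2 - 2*z + 2‖ = A
  generalize ‖(z-1)*(z-2)‖ = B
  generalize ‖z ^ 2 - 2‖ = D at hw'
  generalize ‖z‖ = E at hz'
  norm_num only
  field_simp

theorem extra_bound (j : ℕ) (hj : j ≤ 2) (z : ℂ) (h1 : 1 ≤ z.re) (h2 : z.re ≤ 2)
    (h3 : |z.im| ≤ 1) : ‖z + 2 / z‖ ^ j / ‖z‖ ≤ 25 := by
  have hz1 : 1 ≤ ‖z‖ := h1.trans ((le_abs_self _).trans (Complex.abs_re_le_norm z))
  have hz3 : ‖z‖ ≤ 3 := by
    have h := Complex.norm_le_abs_re_add_abs_im z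
    have : |z.re| ≤ 2 := by rw [abs_le]; constructor <;> linarith
    linarith
  have hz2 : ‖z + 2 / z‖ ≤ 5 := by
    calc ‖z + 2 / z‖ ≤ ‖z‖ + ‖2 / z‖ := norm_add_le _ _
      _ = ‖z‖ + 2 / ‖z‖ := by rw [norm_div]; simp
      _ ≤ 3 + 2 / 1 := by gcongr
      _ = 5 := by norm_num
  have h4 : ‖z + 2 / z‖ ^ j ≤ 25 := by
    calc ‖z + 2 / z‖ ^ j ≤ 5^j := pow_le_pow_left₀ (norm_nonneg _) hz2 j
      _ ≤ 5^2 := pow_le_pow_right₀ (by norm_num) hj
      _ = 25 := by norm_num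
  rw [div_le_iff₀ (by linarith)]
  nlinarith

theorem sq_ne_two {z : ℂ} (h1 : 0 < z.re) (h : z.im = 0 → z.re = 1) : z^2 ≠ 2 := by
  intro h0
  have him : (z^2).im = 0 := by rw [h0]; rfl
  have hre : (z^2).re = 2 := by rw [h0]; rfl
  simp [pow_two] at him hre
  have : z.im = 0 := by
    have : z.re * z.im = 0 := by linarith
    rcases mul_eq_zero.mp this with h | h
    · exact absurd h h1.ne'
    · exact h
  rw [h this, this] at hre
  norm_num at hre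

theorem segment_form {a b z : ℂ} (hz : z ∈ segment ℝ a b) :
    ∃ t : ℝ, 0 ≤ t ∧ t ≤ 1 ∧
      z = ⟨a.re + t * (b.re - a.re), a.im + t * (b.im - a.im)⟩ := by
  rw [segment_eq_image'] at hz
  obtain ⟨t, ht, rfl⟩ := hz
  refine ⟨t, ht.1, ht.2, ?_⟩
  apply Complex.ext <;> simp

theorem form_bound : ∃ C : ℝ, 0 < C ∧ ∀ n j : ℕ, j ≤ 2 →
    |(LA (2 * n) (NQ (3 * n) (5 * n) j) : ℝ) + (LB (2 * n) (NQ (3 * n) (5 * n) j) : ℝ) * (Real.pi / 4)|
      ≤ C * M2 ^ n := by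
  set S : ℂ := ⟨6/5, 1/2⟩ with hS
  refine ⟨25 * (‖S - 1‖ + ‖1 + Complex.I - S‖) + 1, by positivity, fun n j hj => ?_⟩
  have hint : ∀ z : ℂ, z ≠ 0 → z ^ 2 ≠ 2 →
      Complex.normSq (z^2 - 2*z + 2)^3 * Complex.normSq ((z-1)*(z-2))^5 ≤
        kap^2 * (Complex.normSq z^4 * Complex.normSq (z^2-2)^4) →
      ‖z + 2 / z‖ ^ j / ‖z‖ ≤ 25 →
      ‖((NQ (3 * n) (5 * n) j).map (algebraMap ℚ ℂ)).eval (z + 2 / z) *
        (z - 2 / z) ^ (-2 * (2 * (n : ℤ))) / z‖ ≤ kap ^ n * 25 := by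
    intro z hz hz2 h h25
    have e := integrand_eq 3 5 2 n j hz hz2
    push_cast at e
    rw [e]
    have h1 := key_div hz hz2 h
    exact mul_le_mul (pow_le_pow_left₀ (by positivity) h1 n) h25 (by positivity)
      (pow_nonneg kap_pos.le n)
  have hmain := form_le (2 * (n : ℤ)) (NQ (3 * n) (5 * n) j) S (kap ^ n * 25) (by
    rintro z (hz | hz)
    · obtain ⟨t, ht, ht1, hzt⟩ := segment_form hz
      have hre : z.re = 1 + t / 5 := by rw [hzt]; simp [hS]; ring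
      have him : z.im = t / 2 := by rw [hzt]; simp [hS]; ring
      have hpos : 0 < z.re := by rw [hre]; positivity
      have h2 : z ^ 2 ≠ 2 := by
        apply sq_ne_two hpos
        intro h
        have : t = 0 := by linarith
        rw [hre, this]; norm_num
      refine ⟨hpos, h2, hint z (by rintro rfl; simp at hpos) h2 ?_ ?_⟩
      · exact segA_key t z.im ht ht1 (by rw [him]) z (by rw [← hre])
      · apply extra_bound j hj
        · rw [hre]; linarith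
        · rw [hre]; linarith
        · rw [him, abs_le]; constructor <;> linarith
    · obtain ⟨t, ht, ht1, hzt⟩ := segment_form hz
      have hre : z.re = 6/5 - t / 5 := by rw [hzt]; simp [hS]; ring
      have him : z.im = 1/2 + t / 2 := by rw [hzt]; simp [hS]; ring
      have hpos : 0 < z.re := by rw [hre]; linarith
      have h2 : z ^ 2 ≠ 2 := by
        apply sq_ne_two hpos
        intro h
        exfalso
        linarith
      refine ⟨hpos, h2, hint z (by rintro rfl; simp at hpos) h2 ?_ ?_⟩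
      · exact segB_key t z.im ht ht1 (by rw [him]) z (by rw [← hre])
      · apply extra_bound j hj
        · rw [hre]; linarith
        · rw [hre]; linarith
        · rw [him, abs_le]; constructor <;> linarith)
  have hk : kap ^ n ≤ M2 ^ n := pow_le_pow_left₀ kap_pos.le kap_le n
  have hk0 : 0 ≤ kap ^ n := pow_nonneg kap_pos.le n
  have hL : 0 ≤ ‖S - 1‖ + ‖1 + Complex.I - S‖ := by positivity
  calc _ ≤ kap ^ n * 25 * (‖S - 1‖ + ‖1 + Complex.I - S‖) := hmain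
    _ = 25 * (‖S - 1‖ + ‖1 + Complex.I - S‖) * kap ^ n := by ring
    _ ≤ (25 * (‖S - 1‖ + ‖1 + Complex.I - S‖) + 1) * M2 ^ n := by
      apply mul_le_mul (by linarith) hk hk0 (by positivity)

/-! ### the logarithmic part -/

theorem abs_epsSeq_le (w : ℝ) (hw : 0 < w) (hw8 : 8 ≤ w ^ 2) (k : ℤ) :
    |(epsSeq k : ℝ)| ≤ w ^ (2 * k) := by
  obtain ⟨n, rfl | rfl⟩ := k.eq_nat_or_neg
  · rw [epsSeq_natCast]
    have h1 : (n.centralBinom : ℝ) ≤ 4 ^ n := by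
      have : n.centralBinom ≤ 4 ^ n := by
        rw [Nat.centralBinom]
        calc (2 * n).choose n ≤ 2 ^ (2 * n) := Nat.choose_le_two_pow _ _
          _ = 4 ^ n := by rw [pow_mul]; norm_num
      exact_mod_cast this
    have h2 : w ^ (2 * (n : ℤ)) = (w ^ 2) ^ n := by
      rw [← pow_mul]; norm_cast
    rw [h2]
    push_cast
    rw [abs_mul, abs_pow, abs_neg, abs_of_pos (by norm_num : (0:ℝ) < 2),
      abs_of_nonneg (by positivity : (0:ℝ) ≤ (n.centralBinom : ℝ))]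
    calc (2:ℝ) ^ n * (n.centralBinom : ℝ) ≤ 2 ^ n * 4 ^ n := by gcongr
      _ = 8 ^ n := by rw [← mul_pow]; norm_num
      _ ≤ (w ^ 2) ^ n := pow_le_pow_left₀ (by norm_num) hw8 n
  · cases n with
    | zero =>
      have : epsSeq (-((0 : ℕ) : ℤ)) = 1 := by decide
      rw [this]; simp
    | succ n =>
      have h2 : epsSeq (-((n + 1 : ℕ) : ℤ)) = 0 := by
        have := epsSeq_neg_succ n; push_cast; exact this
      rw [h2]
      simp only [Int.cast_zero, abs_zero]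
      positivity

theorem abs_muB_le (v w : ℝ) (hv : 0 < v) (hw : 0 < w) (hvw : v ^ 2 = w ^ 2 + 8)
    (hw8 : 8 ≤ w ^ 2) (k : ℕ) (H : ℤ) : |(muB k H : ℝ)| ≤ v ^ k * w ^ (-2 * H) := by
  induction k using Nat.twoStepInduction generalizing H with
  | zero =>
    have := abs_epsSeq_le w hw hw8 (-H)
    rw [pow_zero, one_mul, show -2 * H = 2 * -H by ring]
    exact this
  | one =>
    simp only [muB, Int.cast_zero, abs_zero]
    positivity
  | more k ih _ =>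
    have e1 := ih H
    have e2 := ih (H - 1)
    have e3 : w ^ (-2 * (H - 1)) = w ^ (-2 * H) * w ^ 2 := by
      rw [show -2 * (H - 1) = -2 * H + 2 by ring, zpow_add₀ hw.ne']; norm_cast
    rw [e3] at e2
    rw [muB]
    push_cast
    calc |8 * (muB k H : ℝ) + (muB k (H - 1) : ℝ)|
        ≤ |8 * (muB k H : ℝ)| + |(muB k (H - 1) : ℝ)| := abs_add_le _ _
      _ = 8 * |(muB k H : ℝ)| + |(muB k (H - 1) : ℝ)| := by
        rw [abs_mul, abs_of_pos (by norm_num : (0:ℝ) < 8)]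
      _ ≤ 8 * (v ^ k * w ^ (-2 * H)) + v ^ k * (w ^ (-2 * H) * w ^ 2) := by gcongr
      _ = v ^ k * w ^ (-2 * H) * (w ^ 2 + 8) := by ring
      _ = v ^ (k + 2) * w ^ (-2 * H) := by rw [← hvw]; ring

/-- `c` majorizes the polynomial `N` for the purpose of bounding `LB`. -/
def LBMaj (v w : ℝ) (N : ℚ[X]) (c : ℝ) : Prop :=
  ∀ (H : ℤ) (k : ℕ), |(LB H (N * X ^ k) : ℝ)| ≤ c * v ^ k * w ^ (-2 * H)

theorem LBMaj.one (v w : ℝ) (hv : 0 < v) (hw : 0 < w) (hvw : v ^ 2 = w ^ 2 + 8)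
    (hw8 : 8 ≤ w ^ 2) : LBMaj v w 1 1 := by
  intro H k
  rw [one_mul, LB_X_pow, one_mul]
  push_cast
  exact abs_muB_le v w hv hw hvw hw8 k H

/-- multiplication by `X - a`, `a ≥ 0`. -/
theorem LBMaj.mul_X_sub {v w : ℝ} {N : ℚ[X]} {c : ℝ} (h : LBMaj v w N c) (a : ℚ) :
    LBMaj v w (N * (X - C a)) (c * (v + |(a : ℝ)|)) := by
  intro H k
  have e : N * (X - C a) * X ^ k = N * X ^ (k + 1) - C a * (N * X ^ k) := by ring
  rw [e, map_sub, ← smul_eq_C_mul, map_smul, smul_eq_mul]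
  push_cast
  have h1 := h H (k + 1)
  have h2 := h H k
  calc |(LB H (N * X ^ (k + 1)) : ℝ) - (a : ℝ) * (LB H (N * X ^ k) : ℝ)|
      ≤ |(LB H (N * X ^ (k + 1)) : ℝ)| + |(a : ℝ) * (LB H (N * X ^ k) : ℝ)| := abs_sub _ _
    _ = |(LB H (N * X ^ (k + 1)) : ℝ)| + |(a : ℝ)| * |(LB H (N * X ^ k) : ℝ)| := by rw [abs_mul]
    _ ≤ c * v ^ (k + 1) * w ^ (-2 * H) + |(a : ℝ)| * (c * v ^ k * w ^ (-2 * H)) := by gcongr
    _ = c * (v + |(a : ℝ)|) * v ^ k * w ^ (-2 * H) := by ring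

theorem LBMaj.mul_X_sub_pow {v w : ℝ} {N : ℚ[X]} {c : ℝ} (h : LBMaj v w N c) (a : ℚ) (m : ℕ) :
    LBMaj v w (N * (X - C a) ^ m) (c * (v + |(a : ℝ)|) ^ m) := by
  induction m with
  | zero => simpa using h
  | succ m ih =>
    have := ih.mul_X_sub a
    rw [pow_succ, pow_succ, ← mul_assoc, ← mul_assoc]
    exact this

theorem LBMaj.mul_X_pow {v w : ℝ} {N : ℚ[X]} {c : ℝ} (h : LBMaj v w N c) (m : ℕ) :
    LBMaj v w (N * X ^ m) (c * v ^ m) := by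
  intro H k
  have := h H (m + k)
  rw [mul_assoc, ← pow_add]
  refine this.trans_eq ?_
  rw [pow_add]; ring

/-- majorant for the logarithmic part -/
theorem LB_bound (v w : ℝ) (hv : 0 < v) (hw : 0 < w) (hvw : v ^ 2 = w ^ 2 + 8)
    (hw8 : 8 ≤ w ^ 2) (α β j : ℕ) (H : ℤ) :
    |(LB H (NQ α β j) : ℝ)| ≤ (v + 2) ^ α * (v + 3) ^ β * v ^ j * w ^ (-2 * H) := by
  have h := ((((LBMaj.one v w hv hw hvw hw8).mul_X_sub_pow 2 α).mul_X_sub_pow 3 β).mul_X_pow j) H 0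
  have e : (1 : ℚ[X]) * (X - C 2) ^ α * (X - C 3) ^ β * X ^ j * X ^ 0 = NQ α β j := by
    rw [NQ]; ring
  rw [e] at h
  have h2 : |((2 : ℚ) : ℝ)| = 2 := by norm_num
  have h3 : |((3 : ℚ) : ℝ)| = 3 := by norm_num
  rw [h2, h3] at h
  refine h.trans_eq ?_
  ring

end Vale.Agent.P021
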