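import Mathlib

/-!
# P021, algebraic functionals

Notation (informal): `v = z + 2/z`, `w = z - 2/z`, `W = w^2 = v^2 - 8`.
For a polynomial `N` in `v` and an integer `H` we consider the form
`N(v) * w^(-2H) dz / z`.  Its primitive is (rational function of z) + `LB H N` * log z.
`LA H N` is the imaginary part of the rational part at `z = 1 + i`
(there `v = 2`, `w = 2i`, `W = -4`).
-/

namespace Vale.Agent.P021

open Polynomial

/-- `e_k` for `k ≥ 0` : `(2k+2) e_{k+1} + 8(2k+1) e_k = 4 (-4)^k`, `e_0 = 0`. -/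
def ePos : ℕ → ℚ
  | 0 => 0
  | (k + 1) => (4 * (-4 : ℚ) ^ k - 8 * (2 * k + 1) * ePos k) / (2 * k + 2)

/-- `eNeg m = e_{-m}`, same recursion read backwards. -/
def eNeg : ℕ → ℚ
  | 0 => 0
  | (m + 1) => (4 * ((-4 : ℚ) ^ (m + 1))⁻¹ + 2 * m * eNeg m) / (-(8 * (2 * m + 1)))

/-- `e_k`, `k ∈ ℤ`. -/
def eSeq : ℤ → ℚ
  | Int.ofNat n => ePos n
  | Int.negSucc n => eNeg (n + 1)

/-- coefficient of the logarithm in the primitive of `w^(2k) dz / z`. -/
def epsSeq : ℤ → ℤ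
  | Int.ofNat n => (-2) ^ n * (n.centralBinom : ℤ)
  | Int.negSucc _ => 0

/-- imaginary part at `1+i` of `w^(2k+1)/(2k+1)`. -/
def oSeq (k : ℤ) : ℚ := 2 * (-4 : ℚ) ^ k / (2 * k + 1)

/-- `muA k H = LA H (v^k)`. -/
def muA : ℕ → ℤ → ℚ
  | 0, H => eSeq (-H)
  | 1, H => oSeq (-H)
  | (k + 2), H => 8 * muA k H + muA k (H - 1)

/-- `muB k H = LB H (v^k)`. -/
def muB : ℕ → ℤ → ℤ
  | 0, H => epsSeq (-H)
  | 1, _ => 0
  | (k + 2), H => 8 * muB k H + muB k (H - 1)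

/-- rational part functional. -/
noncomputable def LA (H : ℤ) : ℚ[X] →ₗ[ℚ] ℚ :=
  Polynomial.lsum fun k => LinearMap.toSpanSingleton ℚ ℚ (muA k H)

/-- logarithmic part functional. -/
noncomputable def LB (H : ℤ) : ℚ[X] →ₗ[ℚ] ℚ :=
  Polynomial.lsum fun k => LinearMap.toSpanSingleton ℚ ℚ (muB k H : ℚ)

/-- the special numerators `(v-2)^α (v-3)^β v^j`, over `ℚ`. -/
noncomputable def NQ (α β j : ℕ) : ℚ[X] := (X - C 2) ^ α * (X - C 3) ^ β * X ^ j

end Vale.Agent.P021
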