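import Mathlib

/-!
# P021: definition of the irrationality exponent
-/

namespace Vale.Agent.P021

/-- The set of admissible exponents in the definition of the irrationality exponent of `x`:
all `ν > 0` such that `0 < |x - p/q| < q^(-ν)` for infinitely many coprime pairs of integers
`(p, q)` with `q ≥ 2`. -/
def exponentSet (x : ℝ) : Set ℝ :=
  {ν : ℝ | 0 < ν ∧ {pq : ℤ × ℤ | IsCoprime pq.1 pq.2 ∧ 2 ≤ pq.2 ∧
    0 < |x - (pq.1 : ℝ) / (pq.2 : ℝ)| ∧
    |x - (pq.1 : ℝ) / (pq.2 : ℝ)| < (pq.2 : ℝ) ^ (-ν)}.Infinite}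

/-- The irrationality exponent of `x`: the supremum of `exponentSet x`, taken in the extended
real numbers (so it would be `⊤` for a Liouville number). -/
noncomputable def irrationalityExponent (x : ℝ) : EReal :=
  sSup ((fun ν : ℝ => (ν : EReal)) '' exponentSet x)

end Vale.Agent.P021
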