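import Mathlib

/-!
# P021: numerical exponentials
-/

namespace Vale.Agent.P021

/-- lower bound for `exp (m + t)` -/
theorem exp_lower (m n : ℕ) (t : ℝ) (ht : 0 ≤ t) :
    (2.7182818283 : ℝ) ^ m * ∑ i ∈ Finset.range n, t ^ i / (Nat.factorial i : ℝ)
      ≤ Real.exp (m + t) := by
  rw [Real.exp_add]
  have h1 : Real.exp (m : ℝ) = Real.exp 1 ^ m := by rw [← Real.exp_nat_mul, mul_one]
  rw [h1]
  exact mul_le_mul (pow_le_pow_left₀ (by norm_num) Real.exp_one_gt_d9.le _)
    (Real.sum_le_exp_of_nonneg ht n)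
    (Finset.sum_nonneg fun i _ => by positivity) (by positivity)

/-- lower bound for `exp (-m + t)` -/
theorem exp_neg_lower (m n : ℕ) (t : ℝ) (ht : 0 ≤ t) :
    ((2.7182818286 : ℝ) ^ m)⁻¹ * ∑ i ∈ Finset.range n, t ^ i / (Nat.factorial i : ℝ)
      ≤ Real.exp (-m + t) := by
  rw [Real.exp_add, Real.exp_neg]
  have h1 : Real.exp (m : ℝ) = Real.exp 1 ^ m := by rw [← Real.exp_nat_mul, mul_one]
  rw [h1]
  refine mul_le_mul ?_ (Real.sum_le_exp_of_nonneg ht n)
    (Finset.sum_nonneg fun i _ => by positivity) (by positivity)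
  rw [inv_le_inv₀ (by positivity) (by positivity)]
  exact pow_le_pow_left₀ (by positivity) Real.exp_one_lt_d9.le _

theorem M1_lt : ((37 / 5 : ℝ) ^ 3 * (42 / 5) ^ 5 * (23 / 5) ^ (-4 : ℤ)) < Real.exp (105414 / 10000) := by
  have h := exp_lower 10 8 (5414 / 10000) (by norm_num)
  have e : ((10 : ℕ) : ℝ) + 5414 / 10000 = 105414 / 10000 := by norm_num
  rw [e] at h
  refine lt_of_lt_of_le ?_ h
  norm_num [Finset.sum_range_succ, Nat.factorial]

theorem M2_lt : (146 / 100000 : ℝ) < Real.exp (-(65293 / 10000)) := by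
  have h := exp_neg_lower 7 8 (4707 / 10000) (by norm_num)
  have e : -((7 : ℕ) : ℝ) + 4707 / 10000 = -(65293 / 10000) := by norm_num
  rw [e] at h
  refine lt_of_lt_of_le ?_ h
  norm_num [Finset.sum_range_succ, Nat.factorial]

end Vale.Agent.P021
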