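import Vale.Agent.Lib.P021.Savings
import Vale.Agent.Lib.P021.Asymp

/-!
# P021: the set of saved primes and its logarithmic size
-/

namespace Vale.Agent.P021

open Filter Topology Polynomial

/-- number of periods used. -/
@[irreducible] def MM : ℕ := 100000

/-- Savings primes of type I. -/
def SI (n : ℕ) : Finset ℕ :=
  (Finset.range (4 * n + 3)).filter (fun p => p.Prime ∧ 4 * n + 2 * p + 2 < p ^ 2 ∧
    4 * n + 6 < p ^ 2 ∧ 4 * n + 3 ≤ p * (4 * (n / p) + 3) ∧ p * (3 * (n / p) + 2) ≤ 3 * n ∧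
    n / p < MM)

/-- Savings primes of type II. -/
def SII (n : ℕ) : Finset ℕ :=
  (Finset.range (4 * n + 3)).filter (fun p => p.Prime ∧ 4 * n + 2 * p + 2 < p ^ 2 ∧
    4 * n + 6 < p ^ 2 ∧ 4 * n + 3 ≤ p * (4 * (n / p) + 1) ∧ p * (5 * (n / p) + 1) ≤ 5 * n ∧
    n / p < MM + 1)

theorem SI_disj_SII (n : ℕ) : Disjoint (SI n) (SII n) := by
  rw [Finset.disjoint_left]
  intro p h1 h2
  simp only [SI, SII, Finset.mem_filter] at h1 h2
  have hp : 0 < p := h1.2.1.pos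
  have e1 := h1.2.2.2.2.2.1
  have e2 := h2.2.2.2.2.1
  set m := n / p
  have : 4 * (p * (3 * m + 2)) ≤ 12 * n := by omega
  have : 3 * (4 * n + 3) ≤ 3 * (p * (4 * m + 1)) := by omega
  nlinarith

theorem dvd_lcmUpto {p N : ℕ} (h1 : 1 ≤ p) (h2 : p ≤ N) : p ∣ Nat.lcmUpto N := by
  unfold Nat.lcmUpto
  exact Finset.dvd_lcm (f := id) (Finset.mem_Icc.2 ⟨h1, h2⟩)

/-- Type I savings. -/
theorem savings_I (n p : ℕ) (hp : p.Prime) (h1 : 4 * n + 2 * p + 2 < p ^ 2)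
    (h2 : 4 * n + 6 < p ^ 2) (h3 : 4 * n + 3 ≤ p * (4 * (n / p) + 3))
    (h4 : p * (3 * (n / p) + 2) ≤ 3 * n) (j : ℕ) (hj : j ≤ 2) :
    padicNorm p (LA ((2 * n : ℕ) : ℤ) (NQ (3 * n) (5 * n) j)) ≤ 1 := by
  have : Fact p.Prime := ⟨hp⟩
  set m := n / p with hm
  have hp3 : 3 ≤ p := by
    by_contra hlt
    have : p ≤ 2 := by omega
    have : p ^ 2 ≤ 2 ^ 2 := Nat.pow_le_pow_left this 2
    omega
  have hodd : p % 2 = 1 := (hp.eq_two_or_odd).resolve_left (by omega)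
  obtain ⟨r₁, hr₁⟩ : ∃ r₁, 3 * n = p * (3 * m + 2) + r₁ := ⟨3 * n - p * (3 * m + 2), by omega⟩
  have h5 : p * (5 * m + 3) ≤ 5 * n := by
    have : 5 * (p * (3 * m + 2)) ≤ 15 * n := by omega
    nlinarith
  obtain ⟨r₂, hr₂⟩ : ∃ r₂, 5 * n = p * (5 * m + 3) + r₂ := ⟨5 * n - p * (5 * m + 3), by omega⟩
  have hpar : (p * (4 * m + 3)) % 2 = 1 := by
    rw [Nat.mul_mod, hodd]; omega
  obtain ⟨r₃, hr₃⟩ : ∃ r₃, 4 * n + 2 * r₃ + 1 = p * (4 * m + 3) :=
    ⟨(p * (4 * m + 3) - 4 * n - 1) / 2, by omega⟩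
  have hkey := savings p (by omega) (3 * m + 2) (5 * m + 3) r₁ r₂ r₃ (2 * m + 1) (2 * n) j
    (by
      have : p * (2 * (2 * m + 1) + 1) = p * (4 * m + 3) := by ring
      rw [this, ← hr₃]; ring)
    (by nlinarith) (by omega) (by
      rw [← hr₁, ← hr₂]; omega)
  rw [← hr₁, ← hr₂] at hkey
  exact hkey

/-- Type II savings. -/
theorem savings_II (n p : ℕ) (hp : p.Prime) (h1 : 4 * n + 2 * p + 2 < p ^ 2)
    (h2 : 4 * n + 6 < p ^ 2) (h3 : 4 * n + 3 ≤ p * (4 * (n / p) + 1))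
    (h4 : p * (5 * (n / p) + 1) ≤ 5 * n) (j : ℕ) (hj : j ≤ 2) :
    padicNorm p (LA ((2 * n : ℕ) : ℤ) (NQ (3 * n) (5 * n) j)) ≤ 1 := by
  have : Fact p.Prime := ⟨hp⟩
  set m := n / p with hm
  have hp3 : 3 ≤ p := by
    by_contra hlt
    have : p ≤ 2 := by omega
    have : p ^ 2 ≤ 2 ^ 2 := Nat.pow_le_pow_left this 2
    omega
  have hodd : p % 2 = 1 := (hp.eq_two_or_odd).resolve_left (by omega)
  have h5 : p * (3 * m) ≤ 3 * n := by
    have : p * m ≤ n := by rw [hm]; exact Nat.mul_div_le n p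
    nlinarith
  obtain ⟨r₁, hr₁⟩ : ∃ r₁, 3 * n = p * (3 * m) + r₁ := ⟨3 * n - p * (3 * m), by omega⟩
  obtain ⟨r₂, hr₂⟩ : ∃ r₂, 5 * n = p * (5 * m + 1) + r₂ := ⟨5 * n - p * (5 * m + 1), by omega⟩
  have hpar : (p * (4 * m + 1)) % 2 = 1 := by
    rw [Nat.mul_mod, hodd]; omega
  obtain ⟨r₃, hr₃⟩ : ∃ r₃, 4 * n + 2 * r₃ + 1 = p * (4 * m + 1) :=
    ⟨(p * (4 * m + 1) - 4 * n - 1) / 2, by omega⟩
  have hkey := savings p (by omega) (3 * m) (5 * m + 1) r₁ r₂ r₃ (2 * m) (2 * n) j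
    (by
      have : p * (2 * (2 * m) + 1) = p * (4 * m + 1) := by ring
      rw [this, ← hr₃]; ring)
    (by nlinarith) (by omega) (by
      rw [← hr₁, ← hr₂]; omega)
  rw [← hr₁, ← hr₂] at hkey
  exact hkey

/-! ### logarithmic size -/

theorem theta_sub_le (x y : ℝ) (T : Finset ℕ)
    (hT : ∀ p : ℕ, p.Prime → y < p → (p : ℝ) ≤ x → p ∈ T) :
    Chebyshev.theta x - Chebyshev.theta y ≤ ∑ p ∈ T, Real.log p := by
  unfold Chebyshev.theta
  have hnn : ∀ p : ℕ, 0 ≤ Real.log p := fun p => Real.log_natCast_nonneg p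
  have h1 : ∑ p ∈ (Finset.Ioc 0 ⌊x⌋₊).filter Nat.Prime, Real.log p
      ≤ ∑ p ∈ ((Finset.Ioc 0 ⌊y⌋₊).filter Nat.Prime) ∪ T, Real.log p := by
    refine Finset.sum_le_sum_of_subset_of_nonneg ?_ fun p _ _ => hnn p
    intro p hp
    rw [Finset.mem_filter, Finset.mem_Ioc] at hp
    obtain ⟨⟨hp0, hpx⟩, hpp⟩ := hp
    have hpx' : (p : ℝ) ≤ x := (Nat.le_floor_iff' hp0.ne').1 hpx
    rw [Finset.mem_union, Finset.mem_filter, Finset.mem_Ioc]
    by_cases hy : y < p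
    · exact Or.inr (hT p hpp hy hpx')
    · exact Or.inl ⟨⟨hp0, (Nat.le_floor_iff' hp0.ne').2 (not_lt.1 hy)⟩, hpp⟩
  have h2 := Finset.sum_union_inter (s₁ := (Finset.Ioc 0 ⌊y⌋₊).filter Nat.Prime) (s₂ := T)
    (f := fun p : ℕ => Real.log p)
  have h3 : 0 ≤ ∑ p ∈ ((Finset.Ioc 0 ⌊y⌋₊).filter Nat.Prime) ∩ T, Real.log (p : ℝ) :=
    Finset.sum_nonneg fun p _ => hnn p
  linarith

theorem theta_affine_tendsto {a : ℝ} (b : ℝ) (ha : 0 < a) :
    Tendsto (fun n : ℕ => Chebyshev.theta (a * n + b) / n) atTop (𝓝 a) := by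
  have h0 : Tendsto (fun n : ℕ => a * (n : ℝ) + b) atTop atTop :=
    tendsto_atTop_add_const_right _ _ (tendsto_natCast_atTop_atTop.const_mul_atTop ha)
  have h1 := Vale.Agent.Lib.Common.PNT.theta_tendsto.comp h0
  have h2 : Tendsto (fun n : ℕ => (a * (n : ℝ) + b) / n) atTop (𝓝 a) := by
    have h3 : Tendsto (fun n : ℕ => a + b / n) atTop (𝓝 (a + 0)) :=
      tendsto_const_nhds.add (tendsto_const_nhds.div_atTop tendsto_natCast_atTop_atTop)
    rw [add_zero] at h3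
    refine h3.congr' ?_
    filter_upwards [eventually_gt_atTop 0] with n hn
    have : (n : ℝ) ≠ 0 := by exact_mod_cast hn.ne'
    field_simp
  have h4 := h1.mul h2
  rw [one_mul] at h4
  refine h4.congr' ?_
  filter_upwards [eventually_gt_atTop 0, h0.eventually (eventually_gt_atTop 0)] with n hn hn2
  have h5 : (n : ℝ) ≠ 0 := by exact_mod_cast hn.ne'
  have h6 : (a * (n : ℝ) + b) ≠ 0 := hn2.ne'
  simp only [Function.comp]
  field_simp

theorem fiber_I (m : ℕ) (hm : m < MM) (n : ℕ) (hn : (4 * MM + 5) ^ 2 ≤ n) (p : ℕ) (hp : p.Prime)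
    (h1 : (4 / (4 * (m : ℝ) + 3)) * n + 3 / (4 * (m : ℝ) + 3) < p)
    (h2 : (p : ℝ) ≤ (3 / (3 * (m : ℝ) + 2)) * n + 0) :
    p ∈ (SI n).filter (fun p => n / p = m) := by
  have hp0 : 0 < p := hp.pos
  have e1 : 4 * n + 3 < p * (4 * m + 3) := by
    have h3 : (0 : ℝ) < 4 * (m : ℝ) + 3 := by positivity
    have h4 : (4 * (n : ℝ) + 3) / (4 * (m : ℝ) + 3) < p := by
      calc _ = (4 / (4 * (m : ℝ) + 3)) * n + 3 / (4 * (m : ℝ) + 3) := by field_simp
        _ < p := h1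
    rw [div_lt_iff₀ h3] at h4
    exact_mod_cast h4
  have e2 : p * (3 * m + 2) ≤ 3 * n := by
    have h3 : (0 : ℝ) < 3 * (m : ℝ) + 2 := by positivity
    have h4 : (p : ℝ) ≤ (3 * (n : ℝ)) / (3 * (m : ℝ) + 2) := by
      calc (p : ℝ) ≤ (3 / (3 * (m : ℝ) + 2)) * n + 0 := h2
        _ = _ := by field_simp; ring
    rw [le_div_iff₀ h3] at h4
    exact_mod_cast h4
  have hdiv : n / p = m := by
    apply Nat.div_eq_of_lt_le
    · nlinarith
    · nlinarith
  have hpM : 4 * MM + 5 ≤ p := by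
    by_contra hlt
    have h5 : p * (4 * m + 3) ≤ (4 * MM + 5) * (4 * MM + 5) := by
      apply Nat.mul_le_mul <;> omega
    have h6 : (4 * MM + 5) * (4 * MM + 5) ≤ n := by rw [← sq]; exact hn
    omega
  have hsq : 4 * n + 2 * p + 3 < p ^ 2 := by
    have h5 : p * (4 * m + 3) ≤ p * (p - 2) := Nat.mul_le_mul_left _ (by omega)
    obtain ⟨q, rfl⟩ : ∃ q, p = q + 2 := ⟨p - 2, by omega⟩
    rw [Nat.add_sub_cancel] at h5
    nlinarith
  rw [Finset.mem_filter]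
  refine ⟨?_, hdiv⟩
  unfold SI
  rw [Finset.mem_filter, Finset.mem_range]
  rw [hdiv]
  refine ⟨?_, hp, by omega, by omega, e1.le, e2, hm⟩
  nlinarith

theorem fiber_II (m : ℕ) (hm : m < MM) (n : ℕ) (hn : (4 * MM + 5) ^ 2 ≤ n) (p : ℕ) (hp : p.Prime)
    (h1 : (4 / (4 * (m : ℝ) + 5)) * n + 3 / (4 * (m : ℝ) + 5) < p)
    (h2 : (p : ℝ) ≤ (5 / (5 * (m : ℝ) + 6)) * n + 0) :
    p ∈ (SII n).filter (fun p => n / p = m + 1) := by
  have hp0 : 0 < p := hp.pos
  have e1 : 4 * n + 3 < p * (4 * m + 5) := by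
    have h3 : (0 : ℝ) < 4 * (m : ℝ) + 5 := by positivity
    have h4 : (4 * (n : ℝ) + 3) / (4 * (m : ℝ) + 5) < p := by
      calc _ = (4 / (4 * (m : ℝ) + 5)) * n + 3 / (4 * (m : ℝ) + 5) := by field_simp
        _ < p := h1
    rw [div_lt_iff₀ h3] at h4
    exact_mod_cast h4
  have e2 : p * (5 * m + 6) ≤ 5 * n := by
    have h3 : (0 : ℝ) < 5 * (m : ℝ) + 6 := by positivity
    have h4 : (p : ℝ) ≤ (5 * (n : ℝ)) / (5 * (m : ℝ) + 6) := by
      calc (p : ℝ) ≤ (5 / (5 * (m : ℝ) + 6)) * n + 0 := h2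
        _ = _ := by field_simp; ring
    rw [le_div_iff₀ h3] at h4
    exact_mod_cast h4
  have hdiv : n / p = m + 1 := by
    apply Nat.div_eq_of_lt_le
    · nlinarith
    · nlinarith
  have hpM : 4 * MM + 5 ≤ p := by
    by_contra hlt
    have h5 : p * (4 * m + 5) ≤ (4 * MM + 5) * (4 * MM + 5) := by
      apply Nat.mul_le_mul <;> omega
    have h6 : (4 * MM + 5) * (4 * MM + 5) ≤ n := by rw [← sq]; exact hn
    omega
  have hsq : 4 * n + 2 * p + 3 < p ^ 2 := by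
    have h5 : p * (4 * m + 5) ≤ p * (p - 2) := Nat.mul_le_mul_left _ (by omega)
    obtain ⟨q, rfl⟩ : ∃ q, p = q + 2 := ⟨p - 2, by omega⟩
    rw [Nat.add_sub_cancel] at h5
    nlinarith
  rw [Finset.mem_filter]
  refine ⟨?_, hdiv⟩
  unfold SII
  rw [Finset.mem_filter, Finset.mem_range]
  rw [hdiv]
  refine ⟨?_, hp, by omega, by omega, ?_, ?_, by omega⟩
  · nlinarith
  · have : p * (4 * (m + 1) + 1) = p * (4 * m + 5) := by ring
    omega
  · have : p * (5 * (m + 1) + 1) = p * (5 * m + 6) := by ring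
    omega

/-- density sums -/
theorem sum_dens_I (M : ℕ) (hM : 10 ≤ M) :
    (2323468 : ℝ) / 10000000 - 1 / (12 * M) ≤
      ∑ m ∈ Finset.range M, (3 / (3 * (m : ℝ) + 2) - 4 / (4 * (m : ℝ) + 3)) := by
  have key : (2323468 : ℝ) / 10000000 - 1 / (12 * ((M : ℝ) + 1 / 4)) ≤
      ∑ m ∈ Finset.range M, (3 / (3 * (m : ℝ) + 2) - 4 / (4 * (m : ℝ) + 3)) := by
    induction M, hM using Nat.le_induction with
    | base =>
      simp only [Finset.sum_range_succ, Finset.sum_range_zero]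
      norm_num
    | succ M hM ih =>
      rw [Finset.sum_range_succ]
      have hM' : (10 : ℝ) ≤ M := by exact_mod_cast hM
      have h1 : 1 / (12 * ((M : ℝ) + 1 / 4)) - 1 / (12 * (((M + 1 : ℕ) : ℝ) + 1 / 4))
          ≤ 3 / (3 * (M : ℝ) + 2) - 4 / (4 * (M : ℝ) + 3) := by
        push_cast
        rw [div_sub_div _ _ (by positivity) (by positivity),
          div_sub_div _ _ (by positivity) (by positivity),
          div_le_div_iff₀ (by positivity) (by positivity)]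
        nlinarith
      linarith
  have h2 : (10 : ℝ) ≤ M := by exact_mod_cast hM
  have h3 : 1 / (12 * ((M : ℝ) + 1 / 4)) ≤ 1 / (12 * M) := by
    apply one_div_le_one_div_of_le <;> linarith
  linarith

theorem sum_dens_II (M : ℕ) (hM : 10 ≤ M) :
    (615788 : ℝ) / 10000000 - 1 / (20 * M) ≤
      ∑ m ∈ Finset.range M, (5 / (5 * (m : ℝ) + 6) - 4 / (4 * (m : ℝ) + 5)) := by
  have key : (615788 : ℝ) / 10000000 - 1 / (20 * ((M : ℝ) + 3 / 4)) ≤
      ∑ m ∈ Finset.range M, (5 / (5 * (m : ℝ) + 6) - 4 / (4 * (m : ℝ) + 5)) := by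
    induction M, hM using Nat.le_induction with
    | base =>
      simp only [Finset.sum_range_succ, Finset.sum_range_zero]
      norm_num
    | succ M hM ih =>
      rw [Finset.sum_range_succ]
      have hM' : (10 : ℝ) ≤ M := by exact_mod_cast hM
      have h1 : 1 / (20 * ((M : ℝ) + 3 / 4)) - 1 / (20 * (((M + 1 : ℕ) : ℝ) + 3 / 4))
          ≤ 5 / (5 * (M : ℝ) + 6) - 4 / (4 * (M : ℝ) + 5) := by
        push_cast
        rw [div_sub_div _ _ (by positivity) (by positivity),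
          div_sub_div _ _ (by positivity) (by positivity),
          div_le_div_iff₀ (by positivity) (by positivity)]
        nlinarith
      linarith
  have h2 : (10 : ℝ) ≤ M := by exact_mod_cast hM
  have h3 : 1 / (20 * ((M : ℝ) + 3 / 4)) ≤ 1 / (20 * M) := by
    apply one_div_le_one_div_of_le <;> linarith
  linarith

theorem sum_SI_ge (n : ℕ) (hn : (4 * MM + 5) ^ 2 ≤ n) :
    ∑ m ∈ Finset.range MM, (Chebyshev.theta ((3 / (3 * (m : ℝ) + 2)) * n + 0)
      - Chebyshev.theta ((4 / (4 * (m : ℝ) + 3)) * n + 3 / (4 * (m : ℝ) + 3)))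
      ≤ ∑ p ∈ SI n, Real.log p := by
  rw [← Finset.sum_fiberwise_of_maps_to (s := SI n) (t := Finset.range MM) (g := fun p => n / p)]
  · refine Finset.sum_le_sum fun m hm => ?_
    refine theta_sub_le _ _ _ fun p hp h1 h2 => ?_
    exact fiber_I m (Finset.mem_range.1 hm) n hn p hp h1 h2
  · intro p hp
    simp only [SI, Finset.mem_filter] at hp
    exact Finset.mem_range.2 hp.2.2.2.2.2.2

theorem sum_SII_ge (n : ℕ) (hn : (4 * MM + 5) ^ 2 ≤ n) :
    ∑ m ∈ Finset.range MM, (Chebyshev.theta ((5 / (5 * (m : ℝ) + 6)) * n + 0)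
      - Chebyshev.theta ((4 / (4 * (m : ℝ) + 5)) * n + 3 / (4 * (m : ℝ) + 5)))
      ≤ ∑ p ∈ SII n, Real.log p := by
  have h0 : ∑ m ∈ Finset.range MM, ∑ p ∈ (SII n).filter (fun p => n / p = m + 1), Real.log (p : ℝ)
      ≤ ∑ p ∈ SII n, Real.log p := by
    have h1 : ∑ p ∈ SII n, Real.log (p : ℝ)
        = ∑ m ∈ Finset.range (MM + 1), ∑ p ∈ (SII n).filter (fun p => n / p = m), Real.log (p : ℝ) := by
      rw [Finset.sum_fiberwise_of_maps_to (s := SII n) (t := Finset.range (MM + 1)) (g := fun p => n / p)]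
      intro p hp
      simp only [SII, Finset.mem_filter] at hp
      exact Finset.mem_range.2 hp.2.2.2.2.2.2
    rw [h1, Finset.sum_range_succ']
    have : 0 ≤ ∑ p ∈ (SII n).filter (fun p => n / p = 0), Real.log (p : ℝ) :=
      Finset.sum_nonneg fun p _ => Real.log_natCast_nonneg p
    linarith
  refine le_trans ?_ h0
  refine Finset.sum_le_sum fun m hm => ?_
  refine theta_sub_le _ _ _ fun p hp h1 h2 => ?_
  exact fiber_II m (Finset.mem_range.1 hm) n hn p hp h1 h2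

theorem exists_savings_set : ∃ S : ℕ → Finset ℕ,
    (∀ n, ∀ p ∈ S n, p.Prime ∧ p ≠ 2 ∧ p ∣ Nat.lcmUpto (4 * n + 2)) ∧
    (∀ n, ∀ p ∈ S n, ∀ j ≤ 2,
      padicNorm p (LA ((2 * n : ℕ) : ℤ) (NQ (3 * n) (5 * n) j)) ≤ 1) ∧
    (∀ᶠ n : ℕ in atTop, Real.log (Nat.lcmUpto (4 * n + 2)) - ∑ p ∈ S n, Real.log p
      ≤ (37062 / 10000) * n) := by
  refine ⟨fun n => SI n ∪ SII n, ?_, ?_, ?_⟩
  · intro n p hp
    rw [Finset.mem_union] at hp
    have h : p.Prime ∧ 4 * n + 6 < p ^ 2 ∧ p < 4 * n + 3 := by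
      rcases hp with hp | hp
      · simp only [SI, Finset.mem_filter, Finset.mem_range] at hp
        exact ⟨hp.2.1, hp.2.2.2.1, hp.1⟩
      · simp only [SII, Finset.mem_filter, Finset.mem_range] at hp
        exact ⟨hp.2.1, hp.2.2.2.1, hp.1⟩
    refine ⟨h.1, ?_, dvd_lcmUpto h.1.one_lt.le (by omega)⟩
    rintro rfl
    omega
  · intro n p hp j hj
    rw [Finset.mem_union] at hp
    rcases hp with hp | hp
    · simp only [SI, Finset.mem_filter, Finset.mem_range] at hp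
      exact savings_I n p hp.2.1 hp.2.2.1 hp.2.2.2.1 hp.2.2.2.2.1 hp.2.2.2.2.2.1 j hj
    · simp only [SII, Finset.mem_filter, Finset.mem_range] at hp
      exact savings_II n p hp.2.1 hp.2.2.1 hp.2.2.2.1 hp.2.2.2.2.1 hp.2.2.2.2.2.1 j hj
  · have hL := tendsto_log_lcmUpto 4
    have hI : Tendsto (fun n : ℕ => ∑ m ∈ Finset.range MM,
        (Chebyshev.theta ((3 / (3 * (m : ℝ) + 2)) * n + 0) / n
        - Chebyshev.theta ((4 / (4 * (m : ℝ) + 3)) * n + 3 / (4 * (m : ℝ) + 3)) / n)) atTop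
        (𝓝 (∑ m ∈ Finset.range MM, (3 / (3 * (m : ℝ) + 2) - 4 / (4 * (m : ℝ) + 3)))) := by
      refine tendsto_finsetSum _ fun m _ => ?_
      exact (theta_affine_tendsto _ (by positivity)).sub (theta_affine_tendsto _ (by positivity))
    have hII : Tendsto (fun n : ℕ => ∑ m ∈ Finset.range MM,
        (Chebyshev.theta ((5 / (5 * (m : ℝ) + 6)) * n + 0) / n
        - Chebyshev.theta ((4 / (4 * (m : ℝ) + 5)) * n + 3 / (4 * (m : ℝ) + 5)) / n)) atTop
        (𝓝 (∑ m ∈ Finset.range MM, (5 / (5 * (m : ℝ) + 6) - 4 / (4 * (m : ℝ) + 5)))) := by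
      refine tendsto_finsetSum _ fun m _ => ?_
      exact (theta_affine_tendsto _ (by positivity)).sub (theta_affine_tendsto _ (by positivity))
    have h1 := (hL.sub hI).sub hII
    have h2 := sum_dens_I MM (by unfold MM; norm_num)
    have h3 := sum_dens_II MM (by unfold MM; norm_num)
    have h4 : ((4 : ℕ) : ℝ) - (∑ m ∈ Finset.range MM, (3 / (3 * (m : ℝ) + 2) - 4 / (4 * (m : ℝ) + 3)))
        - (∑ m ∈ Finset.range MM, (5 / (5 * (m : ℝ) + 6) - 4 / (4 * (m : ℝ) + 5)))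
        < 37062 / 10000 := by
      have hMM : (MM : ℝ) = 100000 := by unfold MM; norm_num
      rw [hMM] at h2 h3
      push_cast
      linarith
    filter_upwards [h1.eventually_lt_const h4, eventually_ge_atTop ((4 * MM + 5) ^ 2),
      eventually_gt_atTop 0] with n hn1 hn2 hn0
    have hnpos : (0 : ℝ) < n := by exact_mod_cast hn0
    have h5 := sum_SI_ge n hn2
    have h6 := sum_SII_ge n hn2
    rw [Finset.sum_union (SI_disj_SII n)]
    have h7 : (∑ m ∈ Finset.range MM,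
        (Chebyshev.theta ((3 / (3 * (m : ℝ) + 2)) * n + 0) / n
        - Chebyshev.theta ((4 / (4 * (m : ℝ) + 3)) * n + 3 / (4 * (m : ℝ) + 3)) / n)) * n
        ≤ ∑ p ∈ SI n, Real.log p := by
      refine le_trans (le_of_eq ?_) h5
      rw [Finset.sum_mul]
      refine Finset.sum_congr rfl fun m _ => ?_
      field_simp
    have h8 : (∑ m ∈ Finset.range MM,
        (Chebyshev.theta ((5 / (5 * (m : ℝ) + 6)) * n + 0) / n
        - Chebyshev.theta ((4 / (4 * (m : ℝ) + 5)) * n + 3 / (4 * (m : ℝ) + 5)) / n)) * n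
        ≤ ∑ p ∈ SII n, Real.log p := by
      refine le_trans (le_of_eq ?_) h6
      rw [Finset.sum_mul]
      refine Finset.sum_congr rfl fun m _ => ?_
      field_simp
    have h9 := mul_lt_mul_of_pos_right hn1 hnpos
    have h10 : (Real.log (Nat.lcmUpto (4 * n + 2)) / n) * n = Real.log (Nat.lcmUpto (4 * n + 2)) := by
      field_simp
    rw [sub_mul, sub_mul, h10] at h9
    linarith

end Vale.Agent.P021
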