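import Vale.Agent.Lib.P021.Assembly
import Vale.Agent.Lib.P021.Bound
import Vale.Agent.Lib.P021.SavingsSet
import Vale.Agent.Lib.P021.Asymp
import Vale.Agent.Lib.P021.Numerics

/-!
# P021: the irrationality exponent of pi is at most 6.05
-/

namespace Vale.Agent.P021

open Polynomial Filter Topology

theorem M2_lt' : (1462 / 1000000 : ℝ) < Real.exp (-(65279 / 10000)) := by
  have h := exp_neg_lower 7 8 (4721 / 10000) (by norm_num)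
  have e : -((7 : ℕ) : ℝ) + 4721 / 10000 = -(65279 / 10000) := by norm_num
  rw [e] at h
  refine lt_of_lt_of_le ?_ h
  norm_num [Finset.sum_range_succ, Nat.factorial]

theorem form_bound_nat : ∃ c : ℝ, 0 < c ∧ ∀ n j : ℕ, j ≤ 2 →
    |(LA ((2 * n : ℕ) : ℤ) (NQ (3 * n) (5 * n) j) : ℝ) +
      (LB ((2 * n : ℕ) : ℤ) (NQ (3 * n) (5 * n) j) : ℝ) * (Real.pi / 4)|
      ≤ c * (1462 / 1000000) ^ n := by
  obtain ⟨c, hc, h⟩ := form_bound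
  refine ⟨c, hc, fun n j hj => ?_⟩
  have := h n j hj
  simp only [M2] at this
  exact_mod_cast this

theorem LB_bound_nat : ∃ c : ℝ, 0 < c ∧ ∀ n j : ℕ, j ≤ 2 →
    |(LB ((2 * n : ℕ) : ℤ) (NQ (3 * n) (5 * n) j) : ℝ)|
      ≤ c * ((37 / 5 : ℝ) ^ 3 * (42 / 5) ^ 5 * (23 / 5) ^ (-4 : ℤ)) ^ n := by
  refine ⟨(27 / 5) ^ 2, by norm_num, fun n j hj => ?_⟩
  have h := LB_bound (27 / 5) (23 / 5) (by norm_num) (by norm_num) (by norm_num) (by norm_num)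
    (3 * n) (5 * n) j ((2 * n : ℕ) : ℤ)
  refine h.trans ?_
  have e1 : ((27 / 5 : ℝ) + 2) = 37 / 5 := by norm_num
  have e2 : ((27 / 5 : ℝ) + 3) = 42 / 5 := by norm_num
  have e3 : ((23 / 5 : ℝ)) ^ (-2 * ((2 * n : ℕ) : ℤ)) = ((23 / 5 : ℝ) ^ (-4 : ℤ)) ^ n := by
    rw [← zpow_natCast, ← zpow_mul]
    congr 1
    push_cast
    ring
  have e4 : ((27 / 5 : ℝ)) ^ j ≤ (27 / 5) ^ 2 := pow_le_pow_right₀ (by norm_num) hj
  rw [e1, e2, e3, pow_mul, pow_mul, mul_pow, mul_pow]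
  have e5 : 0 ≤ ((37 / 5 : ℝ) ^ 3) ^ n * ((42 / 5) ^ 5) ^ n := by positivity
  have e6 : 0 ≤ ((23 / 5 : ℝ) ^ (-4 : ℤ)) ^ n := by positivity
  calc ((37 / 5 : ℝ) ^ 3) ^ n * ((42 / 5) ^ 5) ^ n * (27 / 5) ^ j * ((23 / 5 : ℝ) ^ (-4 : ℤ)) ^ n
      ≤ ((37 / 5 : ℝ) ^ 3) ^ n * ((42 / 5) ^ 5) ^ n * (27 / 5) ^ 2 * ((23 / 5 : ℝ) ^ (-4 : ℤ)) ^ n := by
        gcongr
    _ = _ := by ring

theorem irrationalityExponent_pi_le : irrationalityExponent Real.pi ≤ ((121 / 20 : ℝ) : EReal) := by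
  obtain ⟨S, hS1, hS2, hS3⟩ := exists_savings_set
  have h := exponent_le_general 3 5 2 4 (by norm_num) (by norm_num) (by norm_num) (by norm_num)
    (1462 / 1000000) ((37 / 5 : ℝ) ^ 3 * (42 / 5) ^ 5 * (23 / 5) ^ (-4 : ℤ))
    (37062 / 10000) (105414 / 10000) (65279 / 10000) (by norm_num) (by positivity)
    form_bound_nat LB_bound_nat S hS1 hS2 hS3 M1_lt M2_lt' (by norm_num) (by norm_num)
  refine h.trans (EReal.coe_le_coe_iff.2 ?_)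
  norm_num

end Vale.Agent.P021
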