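import Vale.Agent.Lib.P021.Bound

/-!
General upper bound for the form with numerator exponents `a n`, `b n` and denominator exponent
`h n`, by monotonicity of the modulus of the integrand along the two segments of the polygon
`1, S, 1 + i`.
-/

namespace Vale.Agent.P021

open Polynomial

/-- A quotient of powers of polynomials is monotone when the numerator of its logarithmic
derivative is nonnegative. -/
theorem mono_of_num {A B C E dA dB dC dE : ℝ → ℝ} (a b c e : ℕ)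
    (hA : ∀ t, HasDerivAt A (dA t) t) (hB : ∀ t, HasDerivAt B (dB t) t)
    (hC : ∀ t, HasDerivAt C (dC t) t) (hE : ∀ t, HasDerivAt E (dE t) t)
    (pA : ∀ t, 0 ≤ t → t ≤ 1 → 0 ≤ A t) (pB : ∀ t, 0 ≤ t → t ≤ 1 → 0 ≤ B t)
    (pC : ∀ t, 0 ≤ t → t ≤ 1 → 0 < C t) (pE : ∀ t, 0 ≤ t → t ≤ 1 → 0 < E t)
    (hnum : ∀ t, 0 ≤ t → t ≤ 1 → 0 ≤ ((a : ℝ) + 1) * dA t * B t * C t * E t +
      ((b : ℝ) + 1) * A t * dB t * C t * E t - ((c : ℝ) + 1) * A t * B t * dC t * E t -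
      ((e : ℝ) + 1) * A t * B t * C t * dE t) (t : ℝ) (ht : 0 ≤ t) (ht1 : t ≤ 1) :
    A t ^ (a + 1) * B t ^ (b + 1) / (C t ^ (c + 1) * E t ^ (e + 1)) ≤
      A 1 ^ (a + 1) * B 1 ^ (b + 1) / (C 1 ^ (c + 1) * E 1 ^ (e + 1)) := by
  set f : ℝ → ℝ := fun t => A t ^ (a + 1) * B t ^ (b + 1) / (C t ^ (c + 1) * E t ^ (e + 1)) with hf
  have hd : ∀ t, 0 ≤ t → t ≤ 1 → HasDerivAt f (A t ^ a * B t ^ b / (C t ^ (c + 2) * E t ^ (e + 2)) *
      (((a : ℝ) + 1) * dA t * B t * C t * E t +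
      ((b : ℝ) + 1) * A t * dB t * C t * E t - ((c : ℝ) + 1) * A t * B t * dC t * E t -
      ((e : ℝ) + 1) * A t * B t * C t * dE t)) t := by
    intro t h0 h1
    have hc := pC t h0 h1
    have he := pE t h0 h1
    have k1 := ((hA t).fun_pow (a + 1)).fun_mul ((hB t).fun_pow (b + 1))
    have k2 := ((hC t).fun_pow (c + 1)).fun_mul ((hE t).fun_pow (e + 1))
    have k3 := k1.fun_div k2 (by positivity)
    refine k3.congr_deriv ?_
    simp only [Nat.add_sub_cancel, Nat.cast_add, Nat.cast_one]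
    have hc' := hc.ne'
    have he' := he.ne'
    rw [div_mul_eq_mul_div, div_eq_div_iff (by positivity) (by positivity)]
    ring
  have hm : MonotoneOn f (Set.Icc 0 1) := by
    apply monotoneOn_of_deriv_nonneg (convex_Icc 0 1)
    · intro x hx
      exact (hd x hx.1 hx.2).continuousAt.continuousWithinAt
    · intro x hx
      rw [interior_Icc] at hx
      exact (hd x hx.1.le hx.2.le).differentiableAt.differentiableWithinAt
    · intro x hx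
      rw [interior_Icc] at hx
      rw [(hd x hx.1.le hx.2.le).deriv]
      have h1 := pA x hx.1.le hx.2.le
      have h2 := pB x hx.1.le hx.2.le
      have h3 := pC x hx.1.le hx.2.le
      have h4 := pE x hx.1.le hx.2.le
      exact mul_nonneg (by positivity) (hnum x hx.1.le hx.2.le)
  exact hm ⟨ht, ht1⟩ ⟨zero_le_one, le_rfl⟩ ht1

/-- derivative of an explicit quartic -/
theorem hasDeriv_quartic (c0 c1 c2 c3 c4 t : ℝ) :
    HasDerivAt (fun t : ℝ => c0 + c1 * t + c2 * t ^ 2 + c3 * t ^ 3 + c4 * t ^ 4)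
      (c1 + 2 * c2 * t + 3 * c3 * t ^ 2 + 4 * c4 * t ^ 3) t := by
  have h0 : HasDerivAt (fun _ : ℝ => c0) 0 t := hasDerivAt_const t c0
  have h1 : HasDerivAt (fun t : ℝ => c1 * t) (c1 * 1) t := (hasDerivAt_id t).const_mul c1
  have h2 : HasDerivAt (fun t : ℝ => c2 * t ^ 2) (c2 * (2 * t)) t := by
    have := (hasDerivAt_pow 2 t).const_mul c2
    simpa using this
  have h3 : HasDerivAt (fun t : ℝ => c3 * t ^ 3) (c3 * (3 * t ^ 2)) t := by
    have := (hasDerivAt_pow 3 t).const_mul c3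
    simpa using this
  have h4 : HasDerivAt (fun t : ℝ => c4 * t ^ 4) (c4 * (4 * t ^ 3)) t := by
    have := (hasDerivAt_pow 4 t).const_mul c4
    simpa using this
  have := (((h0.fun_add h1).fun_add h2).fun_add h3).fun_add h4
  refine this.congr_deriv ?_
  ring

/-- The values on a segment of the four basic quadratic forms, as quartics in the parameter. -/
structure SegPoly (x0 y0 dx dy : ℝ) (A B C E : Fin 5 → ℝ) : Prop where
  hA : ∀ t : ℝ, Complex.normSq ((⟨x0 + t * dx, y0 + t * dy⟩ : ℂ) ^ 2 -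
      2 * ⟨x0 + t * dx, y0 + t * dy⟩ + 2) =
    A 0 + A 1 * t + A 2 * t ^ 2 + A 3 * t ^ 3 + A 4 * t ^ 4
  hB : ∀ t : ℝ, Complex.normSq (((⟨x0 + t * dx, y0 + t * dy⟩ : ℂ) - 1) *
      (⟨x0 + t * dx, y0 + t * dy⟩ - 2)) =
    B 0 + B 1 * t + B 2 * t ^ 2 + B 3 * t ^ 3 + B 4 * t ^ 4
  hC : ∀ t : ℝ, Complex.normSq ((⟨x0 + t * dx, y0 + t * dy⟩ : ℂ) ^ 2 - 2) =
    C 0 + C 1 * t + C 2 * t ^ 2 + C 3 * t ^ 3 + C 4 * t ^ 4
  hE : ∀ t : ℝ, Complex.normSq (⟨x0 + t * dx, y0 + t * dy⟩ : ℂ) =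
    E 0 + E 1 * t + E 2 * t ^ 2 + E 3 * t ^ 3 + E 4 * t ^ 4

/-- quartic with coefficients `A` -/
def qv (A : Fin 5 → ℝ) (t : ℝ) : ℝ := A 0 + A 1 * t + A 2 * t ^ 2 + A 3 * t ^ 3 + A 4 * t ^ 4

/-- its derivative -/
def qd (A : Fin 5 → ℝ) (t : ℝ) : ℝ := A 1 + 2 * A 2 * t + 3 * A 3 * t ^ 2 + 4 * A 4 * t ^ 3

/-- modulus bound along one segment -/
theorem seg_bound {x0 y0 dx dy : ℝ} {A B C E : Fin 5 → ℝ} (hS : SegPoly x0 y0 dx dy A B C E)
    (a b c e : ℕ)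
    (hne : ∀ t : ℝ, 0 ≤ t → t ≤ 1 → (⟨x0 + t * dx, y0 + t * dy⟩ : ℂ) ≠ 0 ∧
      (⟨x0 + t * dx, y0 + t * dy⟩ : ℂ) ^ 2 ≠ 2)
    (hnum : ∀ t, 0 ≤ t → t ≤ 1 → 0 ≤
      ((a : ℝ) + 1) * qd A t * qv B t * qv C t * qv E t +
      ((b : ℝ) + 1) * qv A t * qd B t * qv C t * qv E t -
      ((c : ℝ) + 1) * qv A t * qv B t * qd C t * qv E t -
      ((e : ℝ) + 1) * qv A t * qv B t * qv C t * qd E t)
    (κ : ℝ) (hκ : 0 ≤ κ)
    (hval : qv A 1 ^ (a + 1) * qv B 1 ^ (b + 1) ≤ κ ^ 2 * (qv C 1 ^ (c + 1) * qv E 1 ^ (e + 1)))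
    (hexp : (a + 1) + (b + 1) = (c + 1) + (e + 1)) (t : ℝ) (ht : 0 ≤ t) (ht1 : t ≤ 1)
    (z : ℂ) (hz : z = ⟨x0 + t * dx, y0 + t * dy⟩) :
    ‖z + 2 / z - 2‖ ^ (a + 1) * ‖z + 2 / z - 3‖ ^ (b + 1) / ‖z - 2 / z‖ ^ (c + 1) ≤ κ := by
  have pC : ∀ t, 0 ≤ t → t ≤ 1 → 0 < qv C t := by
    intro t h0 h1
    have h := hS.hC t
    rw [qv, ← h]
    exact Complex.normSq_pos.mpr (sub_ne_zero.mpr (hne t h0 h1).2)
  have pE : ∀ t, 0 ≤ t → t ≤ 1 → 0 < qv E t := by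
    intro t h0 h1
    have h := hS.hE t
    rw [qv, ← h]
    exact Complex.normSq_pos.mpr (hne t h0 h1).1
  have hm := mono_of_num (A := qv A) (B := qv B) (C := qv C) (E := qv E) (dA := qd A) (dB := qd B)
    (dC := qd C) (dE := qd E) a b c e
    (fun t => hasDeriv_quartic _ _ _ _ _ t) (fun t => hasDeriv_quartic _ _ _ _ _ t)
    (fun t => hasDeriv_quartic _ _ _ _ _ t) (fun t => hasDeriv_quartic _ _ _ _ _ t)
    (fun t _ _ => by rw [qv, ← hS.hA t]; exact Complex.normSq_nonneg _)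
    (fun t _ _ => by rw [qv, ← hS.hB t]; exact Complex.normSq_nonneg _)
    pC pE hnum t ht ht1
  have p1 : 0 < qv C 1 ^ (c + 1) * qv E 1 ^ (e + 1) :=
    mul_pos (pow_pos (pC 1 zero_le_one le_rfl) _) (pow_pos (pE 1 zero_le_one le_rfl) _)
  have hle : qv A 1 ^ (a + 1) * qv B 1 ^ (b + 1) / (qv C 1 ^ (c + 1) * qv E 1 ^ (e + 1)) ≤ κ ^ 2 := by
    rw [div_le_iff₀ p1]; exact hval
  have h2 := hm.trans hle
  have hz0 : z ≠ 0 := by rw [hz]; exact (hne t ht ht1).1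
  have hz2 : z ^ 2 ≠ 2 := by rw [hz]; exact (hne t ht ht1).2
  have eA : qv A t = ‖z ^ 2 - 2 * z + 2‖ ^ 2 := by
    rw [← Complex.normSq_eq_norm_sq, hz, hS.hA t, qv]
  have eB : qv B t = ‖(z - 1) * (z - 2)‖ ^ 2 := by
    rw [← Complex.normSq_eq_norm_sq, hz, hS.hB t, qv]
  have eC : qv C t = ‖z ^ 2 - 2‖ ^ 2 := by
    rw [← Complex.normSq_eq_norm_sq, hz, hS.hC t, qv]
  have eE : qv E t = ‖z‖ ^ 2 := by
    rw [← Complex.normSq_eq_norm_sq, hz, hS.hE t, qv]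
  rw [eA, eB, eC, eE] at h2
  have hz' : 0 < ‖z‖ := norm_pos_iff.mpr hz0
  have hw' : 0 < ‖z ^ 2 - 2‖ := norm_pos_iff.mpr (sub_ne_zero.mpr hz2)
  have e1 : ‖z + 2 / z - 2‖ = ‖z^2 - 2*z + 2‖ / ‖z‖ := by
    rw [← norm_div]; congr 1; field_simp; ring
  have e2 : ‖z + 2 / z - 3‖ = ‖(z-1)*(z-2)‖ / ‖z‖ := by
    rw [← norm_div]; congr 1; field_simp; ring
  have e3 : ‖z - 2 / z‖ = ‖z^2 - 2‖ / ‖z‖ := by
    rw [← norm_div]; congr 1; field_simp
  rw [e1, e2, e3]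
  refine le_of_sq_le_sq (le_of_eq_of_le ?_ h2) hκ
  generalize ‖z^2 - 2*z + 2‖ = P
  generalize ‖(z-1)*(z-2)‖ = Q
  generalize ‖z ^ 2 - 2‖ = D at hw'
  generalize ‖z‖ = T at hz'
  rw [div_pow, div_pow, div_pow, div_mul_div_comm, ← pow_add, hexp]
  simp only [div_pow, mul_pow]
  rw [div_div_eq_mul_div, div_mul_eq_mul_div, div_div, div_eq_div_iff (by positivity) (by positivity)]
  ring

theorem qv_vec (a b c d e t : ℝ) :
    qv ![a, b, c, d, e] t = a + b * t + c * t ^ 2 + d * t ^ 3 + e * t ^ 4 := rfl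

theorem qd_vec (a b c d e t : ℝ) :
    qd ![a, b, c, d, e] t = b + 2 * c * t + 3 * d * t ^ 2 + 4 * e * t ^ 3 := rfl

/-- General form bound: polygon `1, S, 1 + i` with `S = sx + i sy`. -/
theorem form_bound_gen (a b h : ℕ) (κ : ℝ) (hκ : 0 ≤ κ) (sx sy : ℝ) (h1 : 1 ≤ sx) (h2 : sx ≤ 2)
    (h3 : 0 < sy) (h4 : sy ≤ 1)
    (hA : ∀ t : ℝ, 0 ≤ t → t ≤ 1 → ∀ z : ℂ, z = ⟨1 + t * (sx - 1), 0 + t * sy⟩ →
      ‖z + 2 / z - 2‖ ^ a * ‖z + 2 / z - 3‖ ^ b / ‖z - 2 / z‖ ^ (2 * h) ≤ κ)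
    (hB : ∀ t : ℝ, 0 ≤ t → t ≤ 1 → ∀ z : ℂ, z = ⟨1 + t * (sx - 1), 1 + t * (sy - 1)⟩ →
      ‖z + 2 / z - 2‖ ^ a * ‖z + 2 / z - 3‖ ^ b / ‖z - 2 / z‖ ^ (2 * h) ≤ κ) :
    ∃ c : ℝ, 0 < c ∧ ∀ n j : ℕ, j ≤ 2 →
      |(LA ((h * n : ℕ) : ℤ) (NQ (a * n) (b * n) j) : ℝ) +
        (LB ((h * n : ℕ) : ℤ) (NQ (a * n) (b * n) j) : ℝ) * (Real.pi / 4)| ≤ c * κ ^ n := by
  set S : ℂ := ⟨sx, sy⟩ with hS
  refine ⟨25 * (‖S - 1‖ + ‖1 + Complex.I - S‖) + 1, by positivity, fun n j hj => ?_⟩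
  have hint : ∀ z : ℂ, z ≠ 0 → z ^ 2 ≠ 2 →
      ‖z + 2 / z - 2‖ ^ a * ‖z + 2 / z - 3‖ ^ b / ‖z - 2 / z‖ ^ (2 * h) ≤ κ →
      ‖z + 2 / z‖ ^ j / ‖z‖ ≤ 25 →
      ‖((NQ (a * n) (b * n) j).map (algebraMap ℚ ℂ)).eval (z + 2 / z) *
        (z - 2 / z) ^ (-2 * ((h * n : ℕ) : ℤ)) / z‖ ≤ κ ^ n * 25 := by
    intro z hz hz2 hle h25
    rw [integrand_eq a b h n j hz hz2]
    exact mul_le_mul (pow_le_pow_left₀ (by positivity) hle n) h25 (by positivity)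
      (pow_nonneg hκ n)
  have hmain := form_le ((h * n : ℕ) : ℤ) (NQ (a * n) (b * n) j) S (κ ^ n * 25) (by
    rintro z (hz | hz)
    · obtain ⟨t, ht, ht1, hzt⟩ := segment_form hz
      have hre : z.re = 1 + t * (sx - 1) := by rw [hzt]; simp [hS]
      have him : z.im = 0 + t * sy := by rw [hzt]; simp [hS]
      have hpr : 0 ≤ t * (sx - 1) := mul_nonneg ht (by linarith)
      have hpr2 : t * (sx - 1) ≤ 1 := by nlinarith
      have hpr3 : 0 ≤ t * sy := mul_nonneg ht h3.le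
      have hpr4 : t * sy ≤ 1 := by nlinarith
      have hpos : 0 < z.re := by rw [hre]; linarith
      have h2' : z ^ 2 ≠ 2 := by
        apply sq_ne_two hpos
        intro h0
        have : t = 0 := by
          rw [him, zero_add] at h0
          rcases mul_eq_zero.mp h0 with h | h
          · exact h
          · exact absurd h h3.ne'
        rw [hre, this]; norm_num
      refine ⟨hpos, h2', hint z (by rintro rfl; simp at hpos) h2' ?_ ?_⟩
      · exact hA t ht ht1 z (Complex.ext hre him)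
      · apply extra_bound j hj
        · rw [hre]; linarith
        · rw [hre]; linarith
        · rw [him, abs_le]; constructor <;> linarith
    · rw [segment_symm] at hz
      obtain ⟨t, ht, ht1, hzt⟩ := segment_form hz
      have hre : z.re = 1 + t * (sx - 1) := by rw [hzt]; simp [hS]
      have him : z.im = 1 + t * (sy - 1) := by rw [hzt]; simp [hS]
      have hpr : 0 ≤ t * (sx - 1) := mul_nonneg ht (by linarith)
      have hpr2 : t * (sx - 1) ≤ 1 := by nlinarith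
      have hpr3 : 0 < 1 + t * (sy - 1) := by nlinarith
      have hpr4 : 1 + t * (sy - 1) ≤ 1 := by nlinarith
      have hpos : 0 < z.re := by rw [hre]; linarith
      have h2' : z ^ 2 ≠ 2 := by
        apply sq_ne_two hpos
        intro h0
        rw [him] at h0
        exact absurd h0 hpr3.ne'
      refine ⟨hpos, h2', hint z (by rintro rfl; simp at hpos) h2' ?_ ?_⟩
      · exact hB t ht ht1 z (Complex.ext hre him)
      · apply extra_bound j hj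
        · rw [hre]; linarith
        · rw [hre]; linarith
        · rw [him, abs_le]; constructor <;> linarith)
  have hk0 : 0 ≤ κ ^ n := pow_nonneg hκ n
  have hL : 0 ≤ ‖S - 1‖ + ‖1 + Complex.I - S‖ := by positivity
  calc _ ≤ κ ^ n * 25 * (‖S - 1‖ + ‖1 + Complex.I - S‖) := hmain
    _ = 25 * (‖S - 1‖ + ‖1 + Complex.I - S‖) * κ ^ n := by ring
    _ ≤ (25 * (‖S - 1‖ + ‖1 + Complex.I - S‖) + 1) * κ ^ n := by
      apply mul_le_mul_of_nonneg_right (by linarith) hk0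

/-- nonvanishing on the two segments -/
theorem seg_ne_A {sx sy : ℝ} (h1 : 1 ≤ sx) (h3 : 0 < sy) (t : ℝ) (ht : 0 ≤ t) :
    (⟨1 + t * (sx - 1), 0 + t * sy⟩ : ℂ) ≠ 0 ∧ (⟨1 + t * (sx - 1), 0 + t * sy⟩ : ℂ) ^ 2 ≠ 2 := by
  have hpr : 0 ≤ t * (sx - 1) := mul_nonneg ht (by linarith)
  constructor
  · intro h
    have := congrArg Complex.re h
    simp at this
    linarith
  · apply sq_ne_two
    · change 0 < 1 + t * (sx - 1); linarith
    · intro h0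
      have h0' : 0 + t * sy = 0 := h0
      rw [zero_add] at h0'
      rcases mul_eq_zero.mp h0' with h | h
      · change 1 + t * (sx - 1) = 1; rw [h]; ring
      · exact absurd h h3.ne'

theorem seg_ne_B {sx sy : ℝ} (h1 : 1 ≤ sx) (h3 : 0 < sy) (t : ℝ) (ht : 0 ≤ t)
    (ht1 : t ≤ 1) :
    (⟨1 + t * (sx - 1), 1 + t * (sy - 1)⟩ : ℂ) ≠ 0 ∧
      (⟨1 + t * (sx - 1), 1 + t * (sy - 1)⟩ : ℂ) ^ 2 ≠ 2 := by
  have hpr : 0 ≤ t * (sx - 1) := mul_nonneg ht (by linarith)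
  have hpr3 : 0 < 1 + t * (sy - 1) := by
    rcases ht.eq_or_lt with h | h
    · rw [← h]; norm_num
    · have := mul_pos h h3
      nlinarith
  constructor
  · intro h
    have := congrArg Complex.re h
    simp at this
    linarith
  · apply sq_ne_two
    · change 0 < 1 + t * (sx - 1); linarith
    · intro h0
      have h0' : 1 + t * (sy - 1) = 0 := h0
      exact absurd h0' hpr3.ne'

end Vale.Agent.P021
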