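import Vale.Agent.Lib.P021.Defs

namespace Vale.Agent.P021

open Polynomial

theorem ePos_succ (k : ℕ) :
    (2 * k + 2) * ePos (k + 1) + 8 * (2 * k + 1) * ePos k = 4 * (-4 : ℚ) ^ k := by
  have h : (2 * (k : ℚ) + 2) ≠ 0 := by positivity
  rw [ePos]
  field_simp
  ring

theorem eNeg_succ (m : ℕ) :
    -(2 * m : ℚ) * eNeg m - 8 * (2 * m + 1) * eNeg (m + 1) = 4 * ((-4 : ℚ) ^ (m + 1))⁻¹ := by
  have h : (2 * (m : ℚ) + 1) ≠ 0 := by positivity
  rw [eNeg]
  field_simp
  ring

theorem eNeg_zero : eNeg 0 = 0 := rfl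

theorem ePos_zero : ePos 0 = 0 := rfl

theorem eSeq_natCast (n : ℕ) : eSeq (n : ℤ) = ePos n := rfl

theorem eSeq_neg_natCast (n : ℕ) : eSeq (-(n : ℤ)) = eNeg n := by
  cases n with
  | zero => rfl
  | succ n => rfl

theorem epsSeq_natCast (n : ℕ) : epsSeq (n : ℤ) = (-2) ^ n * (n.centralBinom : ℤ) := rfl

theorem epsSeq_neg_succ (n : ℕ) : epsSeq (-((n : ℤ) + 1)) = 0 := by
  have : (-((n : ℤ) + 1)) = Int.negSucc n := by rw [Int.negSucc_eq]
  rw [this]; rfl

/-- The basic recursion. -/
theorem eSeq_rec (k : ℤ) :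
    (2 * k + 2) * eSeq (k + 1) + 8 * (2 * k + 1) * eSeq k = 4 * (-4 : ℚ) ^ k := by
  obtain ⟨n, rfl | rfl⟩ := k.eq_nat_or_neg
  · have := ePos_succ n
    have h1 : eSeq ((n : ℤ) + 1) = ePos (n + 1) := by
      have := eSeq_natCast (n + 1); push_cast at this; exact this
    rw [h1, eSeq_natCast, zpow_natCast]
    push_cast
    exact this
  · cases n with
    | zero =>
      have := ePos_succ 0
      have h1 : eSeq 1 = ePos 1 := rfl
      have h0 : eSeq 0 = ePos 0 := rfl
      simpa [h1, h0] using this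
    | succ n =>
      have := eNeg_succ n
      have h1 : (-((n + 1 : ℕ) : ℤ) + 1) = -(n : ℤ) := by push_cast; ring
      rw [h1, eSeq_neg_natCast, eSeq_neg_natCast, zpow_neg, zpow_natCast, ← this]
      push_cast
      ring

theorem epsSeq_rec (k : ℤ) :
    (2 * k + 2) * epsSeq (k + 1) + 8 * (2 * k + 1) * epsSeq k = 0 := by
  obtain ⟨n, rfl | rfl⟩ := k.eq_nat_or_neg
  · have h1 : epsSeq ((n : ℤ) + 1) = (-2) ^ (n + 1) * ((n + 1).centralBinom : ℤ) := by
      have := epsSeq_natCast (n + 1); push_cast at this; exact this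
    rw [h1, epsSeq_natCast]
    have h := Nat.succ_mul_centralBinom_succ n
    have h' : ((n : ℤ) + 1) * ((n + 1).centralBinom : ℤ) = 2 * (2 * n + 1) * (n.centralBinom : ℤ) := by
      exact_mod_cast h
    have : (2 * (n : ℤ) + 2) * ((-2) ^ (n + 1) * ((n + 1).centralBinom : ℤ)) =
        2 * (-2) ^ (n + 1) * (((n : ℤ) + 1) * ((n + 1).centralBinom : ℤ)) := by ring
    rw [this, h']
    ring
  · cases n with
    | zero =>
      have h1 : epsSeq ((0 : ℤ) + 1) = (-2) ^ 1 * ((1 : ℕ).centralBinom : ℤ) := rfl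
      have h0 : epsSeq 0 = (-2) ^ 0 * ((0 : ℕ).centralBinom : ℤ) := rfl
      have c1 : (1 : ℕ).centralBinom = 2 := by decide
      have c0 : (0 : ℕ).centralBinom = 1 := by decide
      simp only [Nat.cast_zero, neg_zero]
      rw [h1, h0, c1, c0]; norm_num
    | succ n =>
      have h1 : (-((n + 1 : ℕ) : ℤ) + 1) = -(n : ℤ) := by push_cast; ring
      have h2 : epsSeq (-((n + 1 : ℕ) : ℤ)) = 0 := by
        have := epsSeq_neg_succ n; push_cast; exact this
      rw [h1, h2]
      cases n with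
      | zero => norm_num
      | succ m =>
        have h3 : epsSeq (-((m + 1 : ℕ) : ℤ)) = 0 := by
          have := epsSeq_neg_succ m; push_cast; exact this
        rw [h3]; ring

@[simp] theorem LA_monomial (H : ℤ) (k : ℕ) (c : ℚ) : LA H (monomial k c) = c * muA k H := by
  simp [LA]

@[simp] theorem LB_monomial (H : ℤ) (k : ℕ) (c : ℚ) : LB H (monomial k c) = c * muB k H := by
  simp [LB]

theorem LA_X_pow (H : ℤ) (k : ℕ) : LA H (X ^ k) = muA k H := by
  rw [← monomial_one_right_eq_X_pow, LA_monomial, one_mul]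

theorem LB_X_pow (H : ℤ) (k : ℕ) : LB H (X ^ k) = muB k H := by
  rw [← monomial_one_right_eq_X_pow, LB_monomial, one_mul]

theorem LA_W_mul (H : ℤ) (N : ℚ[X]) : LA H ((X ^ 2 - C 8) * N) = LA (H - 1) N := by
  induction N using Polynomial.induction_on' with
  | add p q hp hq => rw [mul_add, map_add, map_add, hp, hq]
  | monomial k c =>
    have : (X ^ 2 - C 8) * monomial k c = monomial (k + 2) c - monomial k (8 * c) := by
      rw [sub_mul, C_mul_monomial, X_pow_mul_monomial, add_comm]
      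
    rw [this, map_sub, LA_monomial, LA_monomial, LA_monomial, muA]
    ring

theorem LB_W_mul (H : ℤ) (N : ℚ[X]) : LB H ((X ^ 2 - C 8) * N) = LB (H - 1) N := by
  induction N using Polynomial.induction_on' with
  | add p q hp hq => rw [mul_add, map_add, map_add, hp, hq]
  | monomial k c =>
    have : (X ^ 2 - C 8) * monomial k c = monomial (k + 2) c - monomial k (8 * c) := by
      rw [sub_mul, C_mul_monomial, X_pow_mul_monomial, add_comm]
      
    rw [this, map_sub, LB_monomial, LB_monomial, LB_monomial, muB]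
    push_cast
    ring

/-- values on the adapted basis -/
theorem LA_W_pow (H : ℤ) (m : ℕ) : LA H ((X ^ 2 - C 8) ^ m) = eSeq (m - H) := by
  induction m generalizing H with
  | zero =>
    have := LA_X_pow H 0
    simpa [muA] using this
  | succ m ih =>
    rw [pow_succ', LA_W_mul, ih]
    congr 1; push_cast; ring

theorem LA_X_mul_W_pow (H : ℤ) (m : ℕ) : LA H (X * (X ^ 2 - C 8) ^ m) = oSeq (m - H) := by
  induction m generalizing H with
  | zero =>
    have := LA_X_pow H 1
    simpa [muA] using this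
  | succ m ih =>
    rw [pow_succ', mul_left_comm, LA_W_mul, ih]
    congr 1; push_cast; ring

theorem LB_W_pow (H : ℤ) (m : ℕ) : LB H ((X ^ 2 - C 8) ^ m) = epsSeq (m - H) := by
  induction m generalizing H with
  | zero =>
    have := LB_X_pow H 0
    simpa [muB] using this
  | succ m ih =>
    rw [pow_succ', LB_W_mul, ih]
    congr 2; push_cast; ring

theorem LB_X_mul_W_pow (H : ℤ) (m : ℕ) : LB H (X * (X ^ 2 - C 8) ^ m) = 0 := by
  induction m generalizing H with
  | zero =>
    have := LB_X_pow H 1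
    simpa [muB] using this
  | succ m ih =>
    rw [pow_succ', mul_left_comm, LB_W_mul, ih]

/-- every polynomial is in the span of `W^m`, `v W^m`. -/
theorem induction_W {P : ℚ[X] → Prop} (hadd : ∀ p q, P p → P q → P (p + q))
    (hev : ∀ (c : ℚ) (m : ℕ), P (C c * (X ^ 2 - C 8) ^ m))
    (hod : ∀ (c : ℚ) (m : ℕ), P (C c * (X * (X ^ 2 - C 8) ^ m))) (N : ℚ[X]) : P N := by
  have h0 : P 0 := by have := hev 0 0; simpa using this
  -- monomials by strong induction
  have key : ∀ k : ℕ, ∀ c : ℚ, ∀ m : ℕ, P (C c * (X ^ k * (X ^ 2 - C 8) ^ m)) := by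
    intro k
    induction k using Nat.strong_induction_on with
    | _ k ih =>
      intro c m
      match k, ih with
      | 0, _ => simpa using hev c m
      | 1, _ => simpa using hod c m
      | (k + 2), ih =>
        have h1 := ih k (by omega) c (m + 1)
        have h2 := ih k (by omega) (8 * c) m
        have : C c * (X ^ (k + 2) * (X ^ 2 - C 8) ^ m) =
            C c * (X ^ k * (X ^ 2 - C 8) ^ (m + 1)) + C (8 * c) * (X ^ k * (X ^ 2 - C 8) ^ m) := by
          rw [C_mul]; ring
        rw [this]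
        exact hadd _ _ h1 h2
  induction N using Polynomial.induction_on' with
  | add p q hp hq => exact hadd _ _ hp hq
  | monomial k c =>
    have := key k c 0
    rwa [pow_zero, mul_one, C_mul_X_pow_eq_monomial] at this

/-- the numerator of `d(g(v) w^(1-2H))`. -/
noncomputable def exNum (H : ℤ) (g : ℚ[X]) : ℚ[X] :=
  derivative g * (X ^ 2 - C 8) + C (1 - 2 * (H : ℚ)) * (X * g)

theorem exNum_add (H : ℤ) (p q : ℚ[X]) : exNum H (p + q) = exNum H p + exNum H q := by
  simp only [exNum, derivative_add]; ring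

theorem exNum_even (H : ℤ) (c : ℚ) (m : ℕ) : exNum H (C c * (X ^ 2 - C 8) ^ m) =
    C (c * (2 * m + 1 - 2 * H)) * (X * (X ^ 2 - C 8) ^ m) := by
  cases m with
  | zero =>
    simp only [exNum, pow_zero, mul_one, derivative_C, zero_mul, zero_add, C_mul, Nat.cast_zero,
      mul_zero]
    ring
  | succ m =>
    have h8 : (C (8 : ℚ)) = 8 := rfl
    have hd : derivative (8 : ℚ[X]) = 0 := by rw [← h8]; exact derivative_C
    simp only [exNum, derivative_C_mul, derivative_pow, derivative_sub, derivative_X, derivative_C,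
      h8, hd, C_mul, C_add, C_sub, C_1, mul_one, sub_zero, Nat.add_sub_cancel, Nat.cast_add, Nat.cast_one,
      map_natCast, map_intCast, Nat.cast_ofNat, pow_one, map_ofNat, map_one]
    ring

theorem exNum_odd (H : ℤ) (c : ℚ) (m : ℕ) : exNum H (C c * (X * (X ^ 2 - C 8) ^ m)) =
    C (c * (2 * m + 2 - 2 * H)) * (X ^ 2 - C 8) ^ (m + 1) +
      C (8 * c * (2 * m + 1 - 2 * H)) * (X ^ 2 - C 8) ^ m := by
  cases m with
  | zero =>
    simp only [exNum, pow_zero, mul_one, derivative_C_mul, derivative_X, C_mul, C_sub, C_add,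
      Nat.cast_zero, mul_zero, zero_add, map_one, map_ofNat, pow_one, map_intCast]
    ring
  | succ m =>
    have h8 : (C (8 : ℚ)) = 8 := rfl
    have hd : derivative (8 : ℚ[X]) = 0 := by rw [← h8]; exact derivative_C
    simp only [exNum, derivative_C_mul, derivative_mul, derivative_pow, derivative_sub,
      derivative_X, derivative_C, h8, hd,
      C_mul, C_add, C_sub, C_1, mul_one, sub_zero, Nat.add_sub_cancel, Nat.cast_add, Nat.cast_one,
      map_natCast, map_intCast, Nat.cast_ofNat, pow_one, map_ofNat, map_one, one_mul]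
    ring

theorem eval_W (x : ℚ) (m : ℕ) : ((X ^ 2 - C 8 : ℚ[X]) ^ m).eval x = (x ^ 2 - 8) ^ m := by
  simp

/-- Exact forms. -/
theorem LA_exact (H : ℤ) (g : ℚ[X]) : LA H (exNum H g) = 2 * g.eval 2 * (-4 : ℚ) ^ (-H) := by
  induction g using induction_W with
  | hadd p q hp hq => rw [exNum_add, map_add, hp, hq, eval_add]; ring
  | hev c m =>
    rw [exNum_even, ← smul_eq_C_mul, map_smul, LA_X_mul_W_pow, oSeq, smul_eq_mul]
    have h1 : (2 * ((m - H : ℤ) : ℚ) + 1) ≠ 0 := by
      have : (2 * (m - H : ℤ) + 1) ≠ 0 := by omega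
      exact_mod_cast this
    have h2 : (-4 : ℚ) ^ ((m : ℤ) - H) = (-4) ^ m * (-4 : ℚ) ^ (-H) := by
      rw [sub_eq_add_neg, zpow_add₀ (by norm_num), zpow_natCast]
    rw [h2]
    simp only [eval_mul, eval_C, eval_pow, eval_sub, eval_X]
    push_cast at h1 ⊢
    field_simp
    ring
  | hod c m =>
    rw [exNum_odd, map_add, ← smul_eq_C_mul, ← smul_eq_C_mul, map_smul, map_smul, LA_W_pow,
      LA_W_pow, smul_eq_mul, smul_eq_mul]
    have h := eSeq_rec (m - H)
    have h2 : (-4 : ℚ) ^ ((m : ℤ) - H) = (-4) ^ m * (-4 : ℚ) ^ (-H) := by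
      rw [sub_eq_add_neg, zpow_add₀ (by norm_num), zpow_natCast]
    rw [h2] at h
    have h3 : (((m + 1 : ℕ) : ℤ) - H) = (m - H : ℤ) + 1 := by push_cast; ring
    rw [h3]
    simp only [eval_mul, eval_C, eval_pow, eval_sub, eval_X]
    push_cast at h ⊢
    have h5 : ((2 : ℚ) ^ 2 - 8) = -4 := by norm_num
    rw [h5]
    linear_combination c * h

theorem LB_exact (H : ℤ) (g : ℚ[X]) : LB H (exNum H g) = 0 := by
  induction g using induction_W with
  | hadd p q hp hq => rw [exNum_add, map_add, hp, hq, add_zero]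
  | hev c m =>
    rw [exNum_even, ← smul_eq_C_mul, map_smul, LB_X_mul_W_pow, smul_zero]
  | hod c m =>
    rw [exNum_odd, map_add, ← smul_eq_C_mul, ← smul_eq_C_mul, map_smul, map_smul, LB_W_pow,
      LB_W_pow, smul_eq_mul, smul_eq_mul]
    have h := epsSeq_rec (m - H)
    have h3 : (((m + 1 : ℕ) : ℤ) - H) = (m - H : ℤ) + 1 := by push_cast; ring
    rw [h3]
    have h' : (2 * ((m - H : ℤ) : ℚ) + 2) * (epsSeq ((m - H : ℤ) + 1) : ℚ) +
        8 * (2 * ((m - H : ℤ) : ℚ) + 1) * (epsSeq (m - H : ℤ) : ℚ) = 0 := by exact_mod_cast h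
    push_cast at h' ⊢
    linear_combination c * h'

/-- integrality of the logarithmic part -/
theorem LB_int (H : ℤ) (N : ℤ[X]) :
    ∃ z : ℤ, LB H (N.map (Int.castRingHom ℚ)) = z := by
  induction N using Polynomial.induction_on' with
  | add p q hp hq =>
    obtain ⟨a, ha⟩ := hp
    obtain ⟨b, hb⟩ := hq
    exact ⟨a + b, by rw [Polynomial.map_add, map_add, ha, hb]; push_cast; ring⟩
  | monomial k c =>
    exact ⟨c * muB k H, by rw [map_monomial, LB_monomial]; push_cast; simp⟩

end Vale.Agent.P021
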