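import Vale.Agent.Lib.P021.Odd

/-!
Module C2.  Prime savings.

`p` odd prime, `α = p α' + r₁`, `β = p β' + r₂`, `2H + 2 r₃ + 1 = p (2γ+1)`.
Put `Hd = (X-2)^r₁ (X-3)^r₂ X^j (X²-8)^r₃` of degree `≤ p-2`, `H₁` = its primitive (p-integral
coefficients), `H̃ = H + r₃ + 1`, `G₀ = (X-2)^α' (X-3)^β'`.
With `g = G₀^p H₁` and weight `H̃`:
`exNum H̃ g = N (X²-8)^(r₃+1) + p * (p-integral polynomial)` because `2 H̃ - 1 = p (2γ+1)`.
Now `LA H N = LA H̃ (N (X²-8)^(r₃+1))` (LA_W_mul) `= LA H̃ (exNum H̃ g) - p LA H̃ (…)`, the first is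
`2 g(2) (-4)^(-H̃)`, p-integral, and `p * LA H̃ (p-integral)` is p-integral by `LA_odd_denom`
as long as `K < p²` (only one factor `p` in `lcm(1..K)`).
-/

namespace Vale.Agent.P021

open Polynomial
open scoped Nat

/-- Primitive of an integer polynomial of small degree, up to the factor `(p-1)!`. -/
theorem exists_primitive_savings (p : ℕ) (D : ℤ[X]) (hD : D.natDegree + 1 < p) :
    ∃ H₁ : ℤ[X], derivative H₁ = C (((p - 1)! : ℕ) : ℤ) * D ∧ H₁.natDegree ≤ D.natDegree + 1 := by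
  refine ⟨∑ i ∈ Finset.range (D.natDegree + 1),
    monomial (i + 1) ((((p - 1)! / (i + 1) : ℕ) : ℤ) * D.coeff i), ?_, ?_⟩
  · rw [derivative_sum]
    conv_rhs => rw [D.as_sum_range, Finset.mul_sum]
    refine Finset.sum_congr rfl fun i hi => ?_
    rw [derivative_monomial, C_mul_monomial, Nat.add_sub_cancel]
    congr 1
    have hi' := Finset.mem_range.1 hi
    have hdvd : (i + 1) ∣ (p - 1)! := Nat.dvd_factorial (Nat.succ_pos i) (by omega)
    have h1 : (((p - 1)! / (i + 1) : ℕ) : ℤ) * ((i + 1 : ℕ) : ℤ) = (((p - 1)! : ℕ) : ℤ) := by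
      rw [← Nat.cast_mul, Nat.div_mul_cancel hdvd]
    rw [← h1]
    ring
  · refine natDegree_sum_le_of_forall_le _ _ fun i hi => ?_
    have hi' := Finset.mem_range.1 hi
    exact (natDegree_monomial_le _).trans (by omega)

theorem LA_W_pow_mul (H : ℤ) (m : ℕ) (N : ℚ[X]) :
    LA (H + m) ((X ^ 2 - C 8) ^ m * N) = LA H N := by
  induction m generalizing H with
  | zero => simp
  | succ m ih =>
    rw [pow_succ', mul_assoc, LA_W_mul]
    have : H + ((m + 1 : ℕ) : ℤ) - 1 = H + m := by push_cast; ring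
    rw [this, ih]

/-- the integral version of the numerators -/
noncomputable def NZ (α β j : ℕ) : ℤ[X] := (X - C 2) ^ α * (X - C 3) ^ β * X ^ j

theorem map_X_sub_C (a : ℤ) : ((X - C a : ℤ[X])).map (Int.castRingHom ℚ) = X - C (a : ℚ) := by
  simp

theorem map_W : ((X ^ 2 - C 8 : ℤ[X])).map (Int.castRingHom ℚ) = X ^ 2 - C 8 := by
  rw [Polynomial.map_sub, Polynomial.map_pow, Polynomial.map_X, Polynomial.map_C]
  norm_num

theorem map_NZ (α β j : ℕ) : (NZ α β j).map (Int.castRingHom ℚ) = NQ α β j := by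
  unfold NZ NQ
  rw [Polynomial.map_mul, Polynomial.map_mul, Polynomial.map_pow, Polynomial.map_pow,
    Polynomial.map_pow, map_X_sub_C, map_X_sub_C, Polynomial.map_X]
  norm_num

theorem savings_identity (p : ℕ) (α' β' r₁ r₂ r₃ γ H j : ℕ)
    (hγ : 2 * H + 2 * r₃ + 1 = p * (2 * γ + 1)) (F : ℤ) (H₁ : ℤ[X])
    (hH₁ : derivative H₁ = C F * ((X - C 2) ^ r₁ * (X - C 3) ^ r₂ * X ^ j * (X ^ 2 - C 8) ^ r₃)) :
    exNum ((H : ℤ) + ((r₃ + 1 : ℕ) : ℤ))
      ((((X - C 2) ^ α' * (X - C 3) ^ β') ^ p * H₁ : ℤ[X]).map (Int.castRingHom ℚ))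
    = (F : ℚ) • ((X ^ 2 - C 8) ^ (r₃ + 1) * NQ (p * α' + r₁) (p * β' + r₂) j)
      + (p : ℚ) • ((((X - C 2) ^ α' * (X - C 3) ^ β') ^ (p - 1) *
          derivative ((X - C 2) ^ α' * (X - C 3) ^ β') * H₁ * (X ^ 2 - C 8)
          - C (2 * (γ : ℤ) + 1) * X * ((X - C 2) ^ α' * (X - C 3) ^ β') ^ p * H₁ : ℤ[X]).map
            (Int.castRingHom ℚ)) := by
  set G : ℤ[X] := (X - C 2) ^ α' * (X - C 3) ^ β' with hG
  set Gq : ℚ[X] := G.map (Int.castRingHom ℚ) with hGq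
  set Hq : ℚ[X] := H₁.map (Int.castRingHom ℚ) with hHq
  set W : ℚ[X] := X ^ 2 - C 8 with hW
  have hcoef : (1 - 2 * (((H : ℤ) + ((r₃ + 1 : ℕ) : ℤ) : ℤ) : ℚ)) = -(p * (2 * γ + 1)) := by
    have : ((2 * H + 2 * r₃ + 1 : ℕ) : ℚ) = ((p * (2 * γ + 1) : ℕ) : ℚ) := by rw [hγ]
    push_cast at this ⊢
    linarith
  have hmap : derivative Hq =
      C (F : ℚ) * ((X - C 2) ^ r₁ * (X - C 3) ^ r₂ * X ^ j * W ^ r₃) := by
    rw [hHq, derivative_map, hH₁]
    simp only [Polynomial.map_mul, Polynomial.map_pow, map_X_sub_C, map_W, Polynomial.map_X,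
      Polynomial.map_C]
    norm_num
    exact Or.inl (Or.inl rfl)
  have hG' : Gq = (X - C 2) ^ α' * (X - C 3) ^ β' := by
    rw [hGq, hG]
    simp only [Polynomial.map_mul, Polynomial.map_pow, map_X_sub_C]
    norm_num
  have hGp : Gq ^ p * ((X - C 2) ^ r₁ * (X - C 3) ^ r₂ * X ^ j * W ^ r₃)
      = W ^ r₃ * NQ (p * α' + r₁) (p * β' + r₂) j := by
    rw [hG']
    unfold NQ
    rw [mul_pow, ← pow_mul, ← pow_mul, mul_comm α' p, mul_comm β' p, pow_add, pow_add]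
    ring
  have hR : ((G ^ (p - 1) * derivative G * H₁ * (X ^ 2 - C 8)
          - C (2 * (γ : ℤ) + 1) * X * G ^ p * H₁ : ℤ[X]).map (Int.castRingHom ℚ))
      = Gq ^ (p - 1) * derivative Gq * Hq * W - C (2 * (γ : ℚ) + 1) * X * Gq ^ p * Hq := by
    simp only [Polynomial.map_sub, Polynomial.map_mul, Polynomial.map_pow, ← derivative_map,
      ← hGq, ← hHq, Polynomial.map_X, Polynomial.map_C]
    norm_num
    simp [hW]
  rw [hR, Polynomial.map_mul, Polynomial.map_pow, ← hGq, ← hHq]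
  unfold exNum
  rw [hcoef, derivative_mul, derivative_pow, hmap, ← hW, smul_eq_C_mul, smul_eq_C_mul]
  have e1 : C (-((p : ℚ) * (2 * γ + 1))) = -(C (p : ℚ) * C (2 * (γ : ℚ) + 1)) := by
    rw [← C_mul, ← C_neg]
  rw [e1]
  linear_combination (C (F : ℚ) * W) * hGp

theorem savings (p : ℕ) [Fact p.Prime] (hp2 : p ≠ 2) (α' β' r₁ r₂ r₃ γ H j : ℕ)
    (hγ : 2 * H + 2 * r₃ + 1 = p * (2 * γ + 1)) (hdeg : r₁ + r₂ + j + 2 * r₃ + 2 ≤ p)
    (hsize1 : 2 * H + 2 * p + 2 < p ^ 2)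
    (hsize2 : (p * α' + r₁) + (p * β' + r₂) + j + 4 < p ^ 2 + 2 * H) :
    padicNorm p (LA H (NQ (p * α' + r₁) (p * β' + r₂) j)) ≤ 1 := by
  have hp : p.Prime := Fact.out
  set D : ℤ[X] := (X - C 2) ^ r₁ * (X - C 3) ^ r₂ * X ^ j * (X ^ 2 - C 8) ^ r₃ with hD
  have hDdeg : D.natDegree ≤ r₁ + r₂ + j + 2 * r₃ := by
    have e1 : ((X - C 2 : ℤ[X]) ^ r₁).natDegree ≤ r₁ := by
      refine natDegree_pow_le.trans ?_
      rw [natDegree_X_sub_C, mul_one]
    have e2 : ((X - C 3 : ℤ[X]) ^ r₂).natDegree ≤ r₂ := by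
      refine natDegree_pow_le.trans ?_
      rw [natDegree_X_sub_C, mul_one]
    have e3 : ((X : ℤ[X]) ^ j).natDegree ≤ j := by simp
    have e4 : ((X ^ 2 - C 8 : ℤ[X]) ^ r₃).natDegree ≤ 2 * r₃ := by
      refine natDegree_pow_le.trans ?_
      rw [natDegree_X_pow_sub_C, mul_comm]
    refine natDegree_mul_le.trans ?_
    refine Nat.add_le_add ?_ e4
    refine natDegree_mul_le.trans ?_
    refine Nat.add_le_add ?_ e3
    exact natDegree_mul_le.trans (Nat.add_le_add e1 e2)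
  obtain ⟨H₁, hH₁, hH₁deg⟩ := exists_primitive_savings p D (by omega)
  set F : ℤ := (((p - 1)! : ℕ) : ℤ) with hF
  have hid := savings_identity p α' β' r₁ r₂ r₃ γ H j hγ F H₁ hH₁
  set G : ℤ[X] := (X - C 2) ^ α' * (X - C 3) ^ β' with hG
  set R : ℤ[X] := G ^ (p - 1) * derivative G * H₁ * (X ^ 2 - C 8)
          - C (2 * (γ : ℤ) + 1) * X * G ^ p * H₁ with hR
  set Ht : ℤ := (H : ℤ) + ((r₃ + 1 : ℕ) : ℤ) with hHt
  have happ := congrArg (LA Ht) hid
  rw [map_add, map_smul, map_smul, LA_exact, hHt, LA_W_pow_mul, ← hHt] at happ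
  simp only [smul_eq_mul] at happ
  -- degree of R
  have hGdeg : G.natDegree ≤ α' + β' := by
    have e1 : ((X - C 2 : ℤ[X]) ^ α').natDegree ≤ α' := by
      refine natDegree_pow_le.trans ?_
      rw [natDegree_X_sub_C, mul_one]
    have e2 : ((X - C 3 : ℤ[X]) ^ β').natDegree ≤ β' := by
      refine natDegree_pow_le.trans ?_
      rw [natDegree_X_sub_C, mul_one]
    exact natDegree_mul_le.trans (Nat.add_le_add e1 e2)
  have hRdeg : R.natDegree ≤ p * (α' + β') + (r₁ + r₂ + j + 2 * r₃ + 1) + 2 := by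
    have hp1 : 1 ≤ p := hp.one_lt.le
    have hpp : (p - 1) * (α' + β') + (α' + β') = p * (α' + β') := by
      obtain ⟨q, rfl⟩ : ∃ q, p = q + 1 := ⟨p - 1, by omega⟩
      rw [Nat.add_sub_cancel]; ring
    have e1 : (G ^ (p - 1)).natDegree ≤ (p - 1) * (α' + β') :=
      natDegree_pow_le.trans (Nat.mul_le_mul_left _ hGdeg)
    have e2 : (derivative G).natDegree ≤ α' + β' :=
      (natDegree_derivative_le G).trans (by omega)
    have e3 : (X ^ 2 - C 8 : ℤ[X]).natDegree ≤ 2 := by rw [natDegree_X_pow_sub_C]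
    have e4 : (G ^ p).natDegree ≤ p * (α' + β') :=
      natDegree_pow_le.trans (Nat.mul_le_mul_left _ hGdeg)
    have e5 : (C (2 * (γ : ℤ) + 1) * X : ℤ[X]).natDegree ≤ 1 :=
      (natDegree_C_mul_le _ _).trans natDegree_X_le
    rw [hR]
    refine (natDegree_sub_le _ _).trans (max_le ?_ ?_)
    · refine natDegree_mul_le.trans ?_
      refine Nat.add_le_add ?_ e3
      refine natDegree_mul_le.trans ?_
      refine Nat.add_le_add ?_ (hH₁deg.trans (by omega))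
      refine natDegree_mul_le.trans ?_
      exact (Nat.add_le_add e1 e2).trans hpp.le
    · refine natDegree_mul_le.trans ?_
      have h1 := natDegree_mul_le (p := (C (2 * (γ : ℤ) + 1) * X : ℤ[X])) (q := G ^ p)
      omega
  obtain ⟨s, z, hz⟩ := LA_odd_denom (H + (r₃ + 1)) (p ^ 2 - 1) R (by omega) (by
    refine hRdeg.trans ?_
    have : p * (α' + β') = p * α' + p * β' := by ring
    omega)
  have hHcast : (((H + (r₃ + 1) : ℕ) : ℤ)) = Ht := by rw [hHt]; push_cast; ring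
  rw [hHcast] at hz
  -- valuations
  have hFn : padicNorm p (F : ℚ) = 1 := by
    rw [hF]
    have : ((((p - 1)! : ℕ) : ℤ) : ℚ) = (((p - 1)! : ℕ) : ℚ) := by push_cast; rfl
    rw [this, padicNorm.nat_eq_one_iff]
    rw [hp.dvd_factorial]
    have := hp.one_lt
    omega
  have hcop2 : ∀ k : ℕ, padicNorm p ((2 : ℚ) ^ k) = 1 := by
    intro k
    have : ((2 : ℚ) ^ k) = ((2 ^ k : ℕ) : ℚ) := by push_cast; rfl
    rw [this, padicNorm.nat_eq_one_iff]
    intro hd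
    have := hp.dvd_of_dvd_pow hd
    exact hp2 ((Nat.prime_dvd_prime_iff_eq hp Nat.prime_two).1 this)
  have hlog : Nat.log p (p ^ 2 - 1) = 1 := by
    have h2 := hp.two_le
    rw [Nat.log_eq_iff (Or.inl one_ne_zero)]
    have h3 : p * 2 ≤ p ^ 2 := by nlinarith
    constructor
    · rw [pow_one]; omega
    · have : 0 < p ^ 2 := by positivity
      simp only [Nat.reduceAdd]
      omega
  have hlcm : padicNorm p (Nat.lcmUpto (p ^ 2 - 1) : ℚ) = (p : ℚ)⁻¹ := by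
    have h1 : (Nat.lcmUpto (p ^ 2 - 1) : ℚ) ≠ 0 := by
      exact_mod_cast Nat.lcmUpto_ne_zero _
    rw [padicNorm.eq_zpow_of_nonzero h1, padicValRat.of_nat, ← Nat.factorization_def _ hp,
      Nat.factorization_lcmUpto _ hp, hlog]
    simp
  have hRn : padicNorm p ((p : ℚ) * LA Ht (R.map (Int.castRingHom ℚ))) ≤ 1 := by
    have h1 := congrArg (padicNorm p) hz
    rw [padicNorm.mul, padicNorm.mul, hcop2, hlcm, one_mul] at h1
    have h2 := padicNorm.of_int (p := p) z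
    rw [padicNorm.mul, padicNorm.padicNorm_p_of_prime, h1]
    exact h2
  have hgn : padicNorm p (2 * ((G ^ p * H₁).map (Int.castRingHom ℚ)).eval 2 * (-4 : ℚ) ^ (-Ht)) ≤ 1 := by
    have h1 : ((G ^ p * H₁).map (Int.castRingHom ℚ)).eval 2 = (((G ^ p * H₁).eval 2 : ℤ) : ℚ) := by
      have := eval_intCast_map (Int.castRingHom ℚ) (G ^ p * H₁) 2
      simpa using this
    rw [h1]
    have h2 : (-4 : ℚ) ^ (-Ht) = ((((-4 : ℤ) ^ (H + (r₃ + 1)) : ℤ)) : ℚ)⁻¹ := by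
      rw [← hHcast, zpow_neg, zpow_natCast]
      push_cast
      rfl
    have h3 : padicNorm p ((((-4 : ℤ) ^ (H + (r₃ + 1)) : ℤ)) : ℚ) = 1 := by
      rw [padicNorm.int_eq_one_iff]
      intro hd
      have h4 : (p : ℤ) ∣ -4 := (Nat.prime_iff_prime_int.1 hp).dvd_of_dvd_pow hd
      have h5 : p ∣ 4 := by
        have : (p : ℤ) ∣ 4 := by rwa [← dvd_neg]
        exact_mod_cast this
      have h6 : p ∣ 2 ^ 2 := by simpa using h5
      exact hp2 ((Nat.prime_dvd_prime_iff_eq hp Nat.prime_two).1 (hp.dvd_of_dvd_pow h6))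
    rw [h2, ← div_eq_mul_inv, padicNorm.div, h3, div_one]
    have h4 : (2 * (((G ^ p * H₁).eval 2 : ℤ) : ℚ)) = ((2 * ((G ^ p * H₁).eval 2) : ℤ) : ℚ) := by
      push_cast; rfl
    rw [h4]
    exact padicNorm.of_int _
  have hfin : (F : ℚ) * LA H (NQ (p * α' + r₁) (p * β' + r₂) j)
      = 2 * ((G ^ p * H₁).map (Int.castRingHom ℚ)).eval 2 * (-4 : ℚ) ^ (-Ht)
        - (p : ℚ) * LA Ht (R.map (Int.castRingHom ℚ)) := by
    linarith
  have hfin2 := congrArg (padicNorm p) hfin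
  rw [padicNorm.mul, hFn, one_mul] at hfin2
  rw [hfin2]
  exact (padicNorm.sub).trans (max_le hgn hRn)

end Vale.Agent.P021
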