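import Vale.Agent.Lib.P021.TwoForm

/-!
Module B2.  2-adic size of `LA`.

Purely algebraic proof.  `TwoForm.exists_rep` gives a power series `E` in `y`
(`z = (1+i)(1+(1+i)y)`) which is a rational function with denominator a power of
`a b`, `a = 1+(1+i)y`, `b = 1+2y+(1+i)y^2`, whose value at `y = -1` minus its value at `0` is
`-2i LA`, and whose derivative is `(N(v) w^(-2H) - LB) dz/z`.  With `ρ^2 = 1+i`, the `n`-th
coefficient of all the factors lies in `ρ^n OD`, and `v - 2 = ρ^6 y (1+y) / a`,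
`w^(-2) = ρ^(-8) a^2 / b^2`.
-/

namespace Vale.Agent.P021.Two

open Complex PowerSeries

/-- `2 ^ s * φ_n / (n + 1)` is always in `OD`. -/
def TT (s : ℕ) (φ : ℂ⟦X⟧) : Prop := ∀ n : ℕ, 2 ^ s * coeff n φ / ((n + 1 : ℕ) : ℂ) ∈ OD

theorem TT.add {s : ℕ} {φ ψ : ℂ⟦X⟧} (hφ : TT s φ) (hψ : TT s ψ) : TT s (φ + ψ) := by
  intro n
  have := OD.add_mem (hφ n) (hψ n)
  have h : (2 : ℂ) ^ s * coeff n (φ + ψ) / ((n + 1 : ℕ) : ℂ) =
    2 ^ s * coeff n φ / ((n + 1 : ℕ) : ℂ) + 2 ^ s * coeff n ψ / ((n + 1 : ℕ) : ℂ) := by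
    rw [map_add]; ring
  rw [h]
  exact this

theorem TT.smul {s : ℕ} {φ : ℂ⟦X⟧} {c : ℂ} (hc : c ∈ OD) (hφ : TT s φ) : TT s (C c * φ) := by
  intro n
  have := OD.mul_mem hc (hφ n)
  have h : (2 : ℂ) ^ s * coeff n (C c * φ) / ((n + 1 : ℕ) : ℂ) =
    c * (2 ^ s * coeff n φ / ((n + 1 : ℕ) : ℂ)) := by
    rw [coeff_C_mul]; ring
  rw [h]
  exact this

theorem TT.zero (s : ℕ) : TT s 0 := by
  intro n
  simp [OD.zero_mem]

theorem TT.sum {ι : Type*} {s : ℕ} (S : Finset ι) {φ : ι → ℂ⟦X⟧} (h : ∀ i ∈ S, TT s (φ i)) :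
    TT s (∑ i ∈ S, φ i) := by
  classical
  induction S using Finset.induction_on with
  | empty => simpa using TT.zero s
  | insert i S hi ih =>
    rw [Finset.sum_insert hi]
    exact (h i (Finset.mem_insert_self i S)).add
      (ih (fun j hj => h j (Finset.mem_insert_of_mem hj)))

variable {ρ : ℂ}

theorem rho_pow4 (hρ : ρ ^ 2 = 1 + I) : ρ ^ 4 = 2 * I := by
  have : ρ ^ 4 = (ρ ^ 2) ^ 2 := by ring
  rw [this, hρ]
  linear_combination I_mul_I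

theorem rho_ne (hρ : ρ ^ 2 = 1 + I) : ρ ≠ 0 := by
  rintro rfl
  have := congrArg Complex.re hρ
  simp at this

theorem one_mem' : (1 : ℂ) ∈ OD := OD.one_mem

theorem two_mem : (2 : ℂ) ∈ OD := by exact_mod_cast natCast_mem OD 2

theorem one_add_I_mem : (1 + I : ℂ) ∈ OD := OD.add_mem OD.one_mem I_mem

theorem one_sub_I_mem : (1 - I : ℂ) ∈ OD := OD.sub_mem OD.one_mem I_mem

theorem rho_mem (hρ : ρ ^ 2 = 1 + I) : ρ ∈ OD := by
  refine OD_of_integral (IsIntegral.of_pow (n := 2) (by norm_num) ?_)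
  rw [hρ]
  refine isIntegral_one.add (IsIntegral.of_pow (n := 4) (by norm_num) ?_)
  rw [I_pow_four]
  exact isIntegral_one

theorem as_mem (hρ : ρ ^ 2 = 1 + I) : as ∈ WW ρ := by
  rw [as_eq]
  refine (WW ρ).add_mem (WW ρ).one_mem (CX_mem_WW ?_)
  rw [← hρ, pow_two, ← mul_assoc, inv_mul_cancel₀ (rho_ne hρ), one_mul]
  exact rho_mem hρ

theorem bs_mem (hρ : ρ ^ 2 = 1 + I) : bs ∈ WW ρ := by
  have h : bs = 1 + C 2 * X + (C ρ * X) * (C ρ * X) := by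
    rw [bs_eq, ← hρ, map_pow]; ring
  rw [h]
  refine (WW ρ).add_mem ((WW ρ).add_mem (WW ρ).one_mem (CX_mem_WW ?_))
    ((WW ρ).mul_mem (CX_mem_WW ?_) (CX_mem_WW ?_))
  · have h2 : ρ⁻¹ * 2 = -(I * ρ ^ 3) := by
      rw [inv_mul_eq_iff_eq_mul₀ (rho_ne hρ)]
      linear_combination I * rho_pow4 hρ + 2 * I_mul_I
    rw [h2]
    exact OD.neg_mem (OD.mul_mem I_mem (OD.pow_mem (rho_mem hρ) 3))
  all_goals
    rw [inv_mul_cancel₀ (rho_ne hρ)]
    exact OD.one_mem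

theorem asinv_mem (hρ : ρ ^ 2 = 1 + I) : as⁻¹ ∈ WW ρ := inv_mem_WW (as_mem hρ) as_cc

theorem bsinv_mem (hρ : ρ ^ 2 = 1 + I) : bs⁻¹ ∈ WW ρ := inv_mem_WW (bs_mem hρ) bs_cc

theorem vs_mem (hρ : ρ ^ 2 = 1 + I) : vs ∈ WW ρ :=
  (WW ρ).add_mem ((WW ρ).mul_mem (C_mem_WW one_add_I_mem) (as_mem hρ))
    ((WW ρ).mul_mem (C_mem_WW one_sub_I_mem) (asinv_mem hρ))

theorem lam_mem (hρ : ρ ^ 2 = 1 + I) : lam ∈ WW ρ :=
  (WW ρ).mul_mem (C_mem_WW one_add_I_mem) (asinv_mem hρ)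

theorem evs_int_mem (hρ : ρ ^ 2 = 1 + I) (M : Polynomial ℤ) :
    evs (M.map (Int.castRingHom ℚ)) ∈ WW ρ := by
  induction M using Polynomial.induction_on' with
  | add p q hp hq => rw [Polynomial.map_add, map_add]; exact (WW ρ).add_mem hp hq
  | monomial k c =>
    rw [Polynomial.map_monomial, ← Polynomial.C_mul_X_pow_eq_monomial, map_mul, map_pow, evs_X,
      evs_C]
    refine (WW ρ).mul_mem (C_mem_WW ?_) ((WW ρ).pow_mem (vs_mem hρ) k)
    simp [intCast_mem]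

theorem vs_sub_two (hρ : ρ ^ 2 = 1 + I) : vs - 2 = C (ρ ^ 6) * X * (1 + X) * as⁻¹ := by
  have h6 : ρ ^ 6 = 2 * I * (1 + I) := by rw [← rho_pow4 hρ, ← hρ]; ring
  have key : C (1 + I) * as * as - 2 * as + C (1 - I) = C (ρ ^ 6) * X * (1 + X) := by
    rw [h6, as_eq, map_mul, map_mul, map_ofNat, C_one_add_I, C_one_sub_I]
    linear_combination (X ^ 2 + C I * X ^ 2) * C_I_mul
  rw [← key, vs]
  linear_combination (2 - C (1 + I) * as) * as_inv

theorem wsi_sq (hρ : ρ ^ 2 = 1 + I) : C (ρ ^ 8) * wsi ^ 2 = as ^ 2 * bs⁻¹ ^ 2 := by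
  have h8 : ρ ^ 8 * (-I / 2) ^ 2 = 1 := by
    have : ρ ^ 8 = (ρ ^ 4) ^ 2 := by ring
    rw [this, rho_pow4 hρ]
    linear_combination (I * I - 1) * I_mul_I
  rw [wsi, mul_pow, mul_pow, ← map_pow, ← mul_assoc, ← mul_assoc, ← map_mul, h8, map_one]
  ring

/-- the basic estimate -/
theorem TT_of_mem (hρ : ρ ^ 2 = 1 + I) {u : ℂ⟦X⟧} (hu : u ∈ WW ρ) {s t α : ℕ}
    (hs : 4 * (2 * α + 1) ≤ 2 ^ s) (ht : t ≤ 2 * α) : TT s (X ^ t * u) := by
  intro n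
  by_cases hn : n < t
  · rw [coeff_X_pow_mul', if_neg (by omega)]
    simp [OD.zero_mem]
  · obtain ⟨j, rfl⟩ := Nat.exists_eq_add_of_le (not_lt.1 hn)
    rw [coeff_X_pow_mul', if_pos (by omega), Nat.add_sub_cancel_left]
    obtain ⟨d, hd, h1⟩ := coeff_of_mem_WW (rho_ne hρ) hu j
    have h2 : coeff j u = 2 ^ (j / 4) * (I ^ (j / 4) * ρ ^ (j % 4) * d) := by
      rw [h1]
      have h3 : ρ ^ j = (ρ ^ 4) ^ (j / 4) * ρ ^ (j % 4) := by
        rw [← pow_mul, ← pow_add, Nat.div_add_mod]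
      rw [h3, rho_pow4 hρ, mul_pow]
      ring
    rw [h2]
    refine div_mem (OD.mul_mem (OD.mul_mem (OD.pow_mem I_mem _) (OD.pow_mem (rho_mem hρ) _)) hd)
      (by omega) ?_
    have h4 : j / 4 + 1 ≤ 2 ^ (j / 4) := Nat.lt_two_pow_self
    have h5 : t + j + 1 ≤ (2 * α + 1) * (j + 1) := by nlinarith
    have h6 : j + 1 ≤ 4 * (j / 4 + 1) := by omega
    calc t + j + 1 ≤ (2 * α + 1) * (j + 1) := h5
      _ ≤ (2 * α + 1) * (4 * 2 ^ (j / 4)) := by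
          apply Nat.mul_le_mul_left
          omega
      _ = (4 * (2 * α + 1)) * 2 ^ (j / 4) := by ring
      _ ≤ 2 ^ s * 2 ^ (j / 4) := Nat.mul_le_mul_right _ hs
      _ = 2 ^ (s + j / 4) := by rw [pow_add]

theorem TT_main (hρ : ρ ^ 2 = 1 + I) {s α H : ℕ} (hs : 4 * (2 * α + 1) ≤ 2 ^ s)
    (hH : 4 * H ≤ 3 * α) (M : Polynomial ℤ) (B : ℤ) :
    TT s (lam * (evs (((Polynomial.X - Polynomial.C 2) ^ α * M).map (Int.castRingHom ℚ)) *
      wz (-(2 * (H : ℤ))) - C ((B : ℤ) : ℂ))) := by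
  obtain ⟨r, hr⟩ : ∃ r, 6 * α = 8 * H + r := ⟨6 * α - 8 * H, by omega⟩
  have hρ0 := rho_ne hρ
  set u : ℂ⟦X⟧ := lam * (as⁻¹ ^ α * evs (M.map (Int.castRingHom ℚ)) * (as ^ 2 * bs⁻¹ ^ 2) ^ H)
    with hu_def
  have hu : u ∈ WW ρ := by
    refine (WW ρ).mul_mem (lam_mem hρ) ((WW ρ).mul_mem ((WW ρ).mul_mem
      ((WW ρ).pow_mem (asinv_mem hρ) _) (evs_int_mem hρ M)) ((WW ρ).pow_mem ((WW ρ).mul_mem
      ((WW ρ).pow_mem (as_mem hρ) _) ((WW ρ).pow_mem (bsinv_mem hρ) _)) _))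
  have h1 : evs (((Polynomial.X - Polynomial.C 2) ^ α * M).map (Int.castRingHom ℚ)) =
      (vs - 2) ^ α * evs (M.map (Int.castRingHom ℚ)) := by
    rw [Polynomial.map_mul, Polynomial.map_pow, Polynomial.map_sub, Polynomial.map_X,
      Polynomial.map_C, map_mul, map_pow, map_sub, evs_X, evs_C]
    have h2C : (C (2 : ℂ) : ℂ⟦X⟧) = 2 := map_ofNat C 2
    simp [h2C]
  have h2 : wz (-(2 * (H : ℤ))) = (wsi ^ 2) ^ H := by
    rw [← pow_mul, ← wz_neg_nat]; push_cast; rfl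
  have h3 : (C (ρ ^ 8) : ℂ⟦X⟧) ^ H * (wsi ^ 2) ^ H = (as ^ 2 * bs⁻¹ ^ 2) ^ H := by
    rw [← mul_pow, wsi_sq hρ]
  have h4 : (C (ρ ^ 6) : ℂ⟦X⟧) ^ α = C (ρ ^ r) * (C (ρ ^ 8)) ^ H := by
    rw [← map_pow, ← map_pow, ← map_mul, ← pow_mul, ← pow_mul, ← pow_add, hr, add_comm]
  have h5 : lam * (evs (((Polynomial.X - Polynomial.C 2) ^ α * M).map (Int.castRingHom ℚ)) *
      wz (-(2 * (H : ℤ)))) = C (ρ ^ r) * ((X ^ α * (1 + X) ^ α) * u) := by
    rw [h1, h2, vs_sub_two hρ, mul_pow, mul_pow, mul_pow, h4, hu_def, ← h3]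
    ring
  have h6 : (X ^ α * (1 + X) ^ α) * u =
      ∑ m ∈ Finset.range (α + 1), C ((α.choose m : ℕ) : ℂ) * (X ^ (α + (α - m)) * u) := by
    rw [add_pow, Finset.mul_sum, Finset.sum_mul]
    refine Finset.sum_congr rfl fun m _ => ?_
    rw [one_pow, pow_add, map_natCast]
    ring
  have h7 : lam * (evs (((Polynomial.X - Polynomial.C 2) ^ α * M).map (Int.castRingHom ℚ)) *
      wz (-(2 * (H : ℤ))) - C ((B : ℤ) : ℂ)) =
      C (ρ ^ r) * (∑ m ∈ Finset.range (α + 1),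
        C ((α.choose m : ℕ) : ℂ) * (X ^ (α + (α - m)) * u)) +
      C (-(B : ℂ)) * (X ^ 0 * lam) := by
    rw [mul_sub, h5, h6, map_neg]
    ring
  rw [h7]
  refine (TT.smul (OD.pow_mem (rho_mem hρ) _) (TT.sum _ fun m hm => ?_)).add
    (TT.smul (OD.neg_mem (intCast_mem OD B)) (TT_of_mem hρ (lam_mem hρ) hs (by omega)))
  exact TT.smul (natCast_mem OD _) (TT_of_mem hρ hu hs (by omega))

theorem as_mem_SS : as ∈ SS := by
  rw [mem_SS]
  intro n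
  rw [as_eq, map_add, coeff_one, coeff_C_mul, coeff_X]
  refine OD.add_mem ?_ (OD.mul_mem one_add_I_mem ?_)
  · split_ifs
    · exact OD.one_mem
    · exact OD.zero_mem
  · split_ifs
    · exact OD.one_mem
    · exact OD.zero_mem

theorem bs_mem_SS : bs ∈ SS := by
  rw [mem_SS]
  intro n
  rw [bs_eq, map_add, map_add, coeff_one, coeff_C_mul, coeff_X, coeff_C_mul, coeff_X_pow]
  refine OD.add_mem (OD.add_mem ?_ (OD.mul_mem two_mem ?_)) (OD.mul_mem one_add_I_mem ?_)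
  all_goals
    split_ifs
    · exact OD.one_mem
    · exact OD.zero_mem

/-- evaluation at `y = -1`. -/
theorem value_mem {E : ℂ⟦X⟧} {z c : ℂ} (hE : RatAt E z) (hc : C c * (E - C (constantCoeff E)) ∈ SS) :
    c * (z - constantCoeff E) ∈ OD := by
  obtain ⟨U, n, hU, hz⟩ := hE
  set e := constantCoeff E with he
  set V : Polynomial ℂ := Polynomial.C c * (U - Polynomial.C e * (aP * bP) ^ n) with hV
  have h1 : (V : ℂ⟦X⟧) = (C c * (E - C e)) * ((aP * bP : Polynomial ℂ) : ℂ⟦X⟧) ^ n := by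
    rw [hV, Polynomial.coe_mul, Polynomial.coe_sub, Polynomial.coe_mul (Polynomial.C e),
      Polynomial.coe_pow, ← hU, Polynomial.coe_C, Polynomial.coe_C]
    ring
  have h2 : (V : ℂ⟦X⟧) ∈ SS := by
    rw [h1]
    refine SS.mul_mem hc (SS.pow_mem ?_ n)
    rw [Polynomial.coe_mul]
    exact SS.mul_mem as_mem_SS bs_mem_SS
  have h3 : V.eval (-1) ∈ OD := by
    rw [Polynomial.eval_eq_sum_range]
    refine OD.sum_mem fun i _ => OD.mul_mem ?_ (OD.pow_mem (OD.neg_mem OD.one_mem) _)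
    have := (mem_SS.1 h2) i
    rwa [Polynomial.coeff_coe] at this
  have h4 : V.eval (-1) = c * (z - e) := by
    rw [hV, Polynomial.eval_mul, Polynomial.eval_sub, Polynomial.eval_mul, Polynomial.eval_pow,
      ph_eval, hz]
    simp
  rwa [h4] at h3

end Vale.Agent.P021.Two

namespace Vale.Agent.P021

open Polynomial

theorem LA_two_adic : ∃ c : ℕ, ∀ (α H : ℕ) (M : ℤ[X]), 4 * H ≤ 3 * α →
    padicNorm 2 (LA H (((X - C 2) ^ α * M).map (Int.castRingHom ℚ))) ≤ c * (α + 1) := by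
  refine ⟨32, ?_⟩
  intro α H M hH
  obtain ⟨ρ, hρ⟩ : ∃ ρ : ℂ, ρ ^ 2 = 1 + Complex.I :=
    IsAlgClosed.exists_pow_nat_eq _ (by norm_num)
  obtain ⟨B, hB⟩ := LB_int H ((X - C 2) ^ α * M)
  obtain ⟨E, z, hE, hd, hv⟩ := Two.exists_rep H (((X - C 2) ^ α * M).map (Int.castRingHom ℚ))
  rw [hB] at hd
  set s := Nat.log 2 (4 * (2 * α + 1)) + 1 with hs_def
  have hs : 4 * (2 * α + 1) ≤ 2 ^ s := (Nat.lt_pow_succ_log_self (by norm_num) _).le
  have hs' : 2 ^ s ≤ 8 * (2 * α + 1) := by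
    rw [hs_def, pow_succ]
    have := Nat.pow_log_le_self 2 (x := 4 * (2 * α + 1)) (by omega)
    omega
  have hT := Two.TT_main hρ hs hH M B
  have hcoef : PowerSeries.C ((2 : ℂ) ^ s) * (E - PowerSeries.C (PowerSeries.constantCoeff E)) ∈
      Two.SS := by
    rw [Two.mem_SS]
    intro n
    rw [PowerSeries.coeff_C_mul, map_sub]
    cases n with
    | zero => simp [Two.OD.zero_mem]
    | succ n =>
      have h1 := hT n
      have h2 := congrArg (PowerSeries.coeff n) hd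
      rw [PowerSeries.coeff_derivative] at h2
      rw [PowerSeries.coeff_C, if_neg (by omega), sub_zero]
      have h3 : ((n : ℂ) + 1) ≠ 0 := by exact_mod_cast Nat.succ_ne_zero n
      have h4 : ((B : ℚ) : ℂ) = ((B : ℤ) : ℂ) := by simp
      rw [h4] at h2
      rw [← h2] at h1
      convert h1 using 1
      push_cast
      field_simp
  have hfin := Two.value_mem hE hcoef
  rw [hv] at hfin
  have hfin2 : (2 : ℂ) ^ (s + 1) *
      ((LA H (((X - C 2) ^ α * M).map (Int.castRingHom ℚ)) : ℚ) : ℂ) ∈ Two.OD := by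
    have := Two.OD.mul_mem Two.I_mem hfin
    convert this using 1
    rw [pow_succ]
    linear_combination (2 * (2 : ℂ) ^ s *
      ((LA H (((X - C 2) ^ α * M).map (Int.castRingHom ℚ)) : ℚ) : ℂ)) * Complex.I_mul_I
  have hle := Two.padicNorm_le_of_mem hfin2
  refine hle.trans ?_
  have h5 : (2 : ℚ) ^ s ≤ 8 * (2 * α + 1) := by exact_mod_cast hs'
  rw [pow_succ]
  push_cast
  nlinarith

end Vale.Agent.P021
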