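import Mathlib

/-!
# P021, 2-adic part: complex numbers which are integral over `ℤ` up to an odd denominator
-/

namespace Vale.Agent.P021.Two

open Complex

/-- complex numbers `x` such that `m * x` is an algebraic integer for some odd `m`. -/
def OD : Subring ℂ where
  carrier := {x | ∃ m : ℕ, Odd m ∧ IsIntegral ℤ ((m : ℂ) * x)}
  mul_mem' := by
    rintro x y ⟨m, hm, hx⟩ ⟨k, hk, hy⟩
    refine ⟨m * k, hm.mul hk, ?_⟩
    have h3 := hx.mul hy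
    have h4 : ((m * k : ℕ) : ℂ) * (x * y) = m * x * (k * y) := by push_cast; ring
    rw [h4]
    exact h3
  one_mem' := ⟨1, odd_one, by simpa using isIntegral_one⟩
  add_mem' := by
    rintro x y ⟨m, hm, hx⟩ ⟨k, hk, hy⟩
    refine ⟨m * k, hm.mul hk, ?_⟩
    have h1 : IsIntegral ℤ ((k : ℂ)) := by
      have := isIntegral_algebraMap (R := ℤ) (A := ℂ) (x := (k : ℤ)); simpa using this
    have h2 : IsIntegral ℤ ((m : ℂ)) := by
      have := isIntegral_algebraMap (R := ℤ) (A := ℂ) (x := (m : ℤ)); simpa using this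
    have h3 := (h1.mul hx).add (h2.mul hy)
    have h4 : ((m * k : ℕ) : ℂ) * (x + y) = k * (m * x) + m * (k * y) := by push_cast; ring
    rw [h4]
    exact h3
  zero_mem' := ⟨1, odd_one, by simpa using isIntegral_zero⟩
  neg_mem' := by
    rintro x ⟨m, hm, hx⟩
    refine ⟨m, hm, ?_⟩
    have h3 := hx.neg
    rwa [← mul_neg] at h3

theorem mem_OD {x : ℂ} : x ∈ OD ↔ ∃ m : ℕ, Odd m ∧ IsIntegral ℤ ((m : ℂ) * x) := Iff.rfl

theorem OD_of_integral {x : ℂ} (h : IsIntegral ℤ x) : x ∈ OD :=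
  ⟨1, odd_one, by simpa using h⟩

theorem I_mem : I ∈ OD := by
  refine OD_of_integral (IsIntegral.of_pow (n := 4) (by norm_num) ?_)
  rw [I_pow_four]
  exact isIntegral_one

theorem div_odd_mem {x : ℂ} (hx : x ∈ OD) {k : ℕ} (hk : Odd k) : x / k ∈ OD := by
  obtain ⟨m, hm, hx⟩ := hx
  refine ⟨m * k, hm.mul hk, ?_⟩
  have hk0 : (k : ℂ) ≠ 0 := by exact_mod_cast hk.pos.ne'
  convert hx using 1
  push_cast
  field_simp

theorem div_mem {d : ℂ} (hd : d ∈ OD) {q s k : ℕ} (hk : 1 ≤ k) (hks : k ≤ 2 ^ (s + q)) :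
    2 ^ s * (2 ^ q * d) / k ∈ OD := by
  obtain ⟨e, k', hk', rfl⟩ := Nat.exists_eq_two_pow_mul_odd (n := k) (by omega)
  have he : e ≤ s + q := by
    by_contra hcon
    have h1 : 2 ^ (s + q) < 2 ^ e := Nat.pow_lt_pow_right (by norm_num) (by omega)
    have h2 : 2 ^ e ≤ 2 ^ e * k' := Nat.le_mul_of_pos_right _ hk'.pos
    omega
  obtain ⟨r, hr⟩ := Nat.exists_eq_add_of_le he
  have h1 : 2 ^ s * (2 ^ q * d) / ((2 ^ e * k' : ℕ) : ℂ) = 2 ^ r * (d / k') := by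
    have hk0 : (k' : ℂ) ≠ 0 := by exact_mod_cast hk'.pos.ne'
    have : (2 : ℂ) ^ s * 2 ^ q = 2 ^ e * 2 ^ r := by rw [← pow_add, ← pow_add, hr]
    push_cast
    rw [← mul_assoc, this]
    field_simp
  rw [h1]
  refine OD.mul_mem (OD.pow_mem ?_ r) (div_odd_mem hd hk')
  exact_mod_cast natCast_mem OD 2

theorem padicNorm_two_pow (s : ℕ) : padicNorm 2 ((2 : ℚ) ^ s) = ((2 : ℚ) ^ s)⁻¹ := by
  have h5 := padicNorm.padicNorm_p (p := 2) (by norm_num)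
  have h6 : padicNorm 2 (2 : ℚ) = (2 : ℚ)⁻¹ := by exact_mod_cast h5
  induction s with
  | zero => simp
  | succ s ih => rw [pow_succ, padicNorm.mul, h6, mul_inv, ih]

theorem padicNorm_le_of_mem {q : ℚ} {s : ℕ} (h : (2 : ℂ) ^ s * (q : ℂ) ∈ OD) :
    padicNorm 2 q ≤ 2 ^ s := by
  obtain ⟨m, hm, hi⟩ := h
  have h1 : ((m : ℂ) * (2 ^ s * (q : ℂ))) = algebraMap ℚ ℂ (m * (2 ^ s * q)) := by
    push_cast [eq_ratCast]
    rfl
  rw [h1, isIntegral_algebraMap_iff (algebraMap ℚ ℂ).injective,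
    IsIntegrallyClosed.isIntegral_iff] at hi
  obtain ⟨z, hz⟩ := hi
  have hz' : (m : ℚ) * (2 ^ s * q) = z := by rw [← hz]; simp
  have h2 : padicNorm 2 ((m : ℚ) * (2 ^ s * q)) ≤ 1 := by
    rw [hz']
    exact padicNorm.of_int z
  have h3 : padicNorm 2 (m : ℚ) = 1 := by
    rw [padicNorm.nat_eq_one_iff]
    rw [Nat.odd_iff] at hm
    omega
  have h4 : padicNorm 2 ((2 : ℚ) ^ s) = ((2 : ℚ) ^ s)⁻¹ := padicNorm_two_pow s
  rw [padicNorm.mul, padicNorm.mul, h3, h4, one_mul] at h2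
  have h5 : (0 : ℚ) < 2 ^ s := by positivity
  rwa [inv_mul_le_iff₀ h5, mul_one] at h2

/-! ### power series -/

open PowerSeries

/-- power series with coefficients in `OD`. -/
noncomputable def SS : Subring ℂ⟦X⟧ := (PowerSeries.map OD.subtype).range

theorem mem_SS {φ : ℂ⟦X⟧} : φ ∈ SS ↔ ∀ n, coeff n φ ∈ OD := by
  constructor
  · rintro ⟨ψ, rfl⟩ n
    rw [coeff_map]
    exact (coeff n ψ).2
  · intro h
    refine ⟨PowerSeries.mk fun n => ⟨coeff n φ, h n⟩, ?_⟩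
    ext n
    rw [coeff_map, coeff_mk]
    rfl

theorem inv_mem_SS {φ : ℂ⟦X⟧} (h : φ ∈ SS) (h1 : constantCoeff φ = 1) : φ⁻¹ ∈ SS := by
  obtain ⟨ψ, rfl⟩ := h
  have hψ : constantCoeff ψ = ((1 : (OD : Subring ℂ)ˣ) : OD) := by
    apply Subtype.ext
    have h2 : constantCoeff (PowerSeries.map OD.subtype ψ) = OD.subtype (constantCoeff ψ) := by
      rw [← coeff_zero_eq_constantCoeff_apply, coeff_map, coeff_zero_eq_constantCoeff_apply]
    rw [h2] at h1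
    exact h1
  refine ⟨invOfUnit ψ 1, ?_⟩
  symm
  rw [PowerSeries.inv_eq_iff_mul_eq_one (by rw [h1]; exact one_ne_zero), ← map_mul,
    invOfUnit_mul ψ 1 hψ, map_one]

/-- power series whose `n`-th coefficient is in `ρ ^ n * OD`. -/
noncomputable def WW (ρ : ℂ) : Subring ℂ⟦X⟧ := SS.comap (PowerSeries.rescale ρ⁻¹)

theorem inv_mem_WW {ρ : ℂ} {φ : ℂ⟦X⟧} (h : φ ∈ WW ρ) (h1 : constantCoeff φ = 1) :
    φ⁻¹ ∈ WW ρ := by
  have h2 : constantCoeff (PowerSeries.rescale ρ⁻¹ φ) = 1 := by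
    rw [← coeff_zero_eq_constantCoeff_apply, coeff_rescale, coeff_zero_eq_constantCoeff_apply, h1]
    simp
  have h3 := inv_mem_SS (φ := PowerSeries.rescale ρ⁻¹ φ) h h2
  have h4 : PowerSeries.rescale ρ⁻¹ φ⁻¹ = (PowerSeries.rescale ρ⁻¹ φ)⁻¹ := by
    rw [PowerSeries.eq_inv_iff_mul_eq_one (by rw [h2]; exact one_ne_zero), ← map_mul,
      PowerSeries.inv_mul_cancel _ (by rw [h1]; exact one_ne_zero), map_one]
  show PowerSeries.rescale ρ⁻¹ φ⁻¹ ∈ SS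
  rw [h4]
  exact h3

theorem C_mem_WW {ρ c : ℂ} (hc : c ∈ OD) : C c ∈ WW ρ := by
  show PowerSeries.rescale ρ⁻¹ (C c) ∈ SS
  rw [mem_SS]
  intro n
  rw [coeff_rescale, coeff_C]
  split_ifs with h
  · subst h; simpa using hc
  · simp

theorem CX_mem_WW {ρ c : ℂ} (hc : ρ⁻¹ * c ∈ OD) : C c * X ∈ WW ρ := by
  show PowerSeries.rescale ρ⁻¹ (C c * X) ∈ SS
  rw [mem_SS]
  intro n
  rw [coeff_rescale]
  cases n with
  | zero => simp
  | succ n =>
    rw [coeff_succ_mul_X, coeff_C]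
    split_ifs with h
    · subst h; simpa using hc
    · simp

theorem coeff_of_mem_WW {ρ : ℂ} (hρ : ρ ≠ 0) {φ : ℂ⟦X⟧} (h : φ ∈ WW ρ) (n : ℕ) :
    ∃ d ∈ OD, coeff n φ = ρ ^ n * d := by
  have h1 : PowerSeries.rescale ρ⁻¹ φ ∈ SS := h
  rw [mem_SS] at h1
  refine ⟨_, h1 n, ?_⟩
  rw [coeff_rescale, inv_pow]
  field_simp

end Vale.Agent.P021.Two
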