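import Vale.Agent.Lib.P021.Rec
import Vale.Agent.Lib.P021.TwoInt

/-!
# P021, 2-adic part: the primitive as a power series around `z = 1 + i`

`z = (1+i) (1 + (1+i) y)`, `y = 0` is `z = 1+i`, `y = -1` is `z = 1-i`.
`a = 1 + (1+i) y`, `b = 1 + 2y + (1+i) y^2`, `z = (1+i) a`, `w = 2 i b / a`, `dz/z = (1+i)/a dy`.
-/

namespace Vale.Agent.P021.Two

open Complex PowerSeries

/-- polynomial `1 + (1+i) y` -/
noncomputable def aP : Polynomial ℂ := 1 + Polynomial.C (1 + I) * Polynomial.X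

/-- polynomial `1 + 2 y + (1+i) y^2` -/
noncomputable def bP : Polynomial ℂ :=
  1 + Polynomial.C 2 * Polynomial.X + Polynomial.C (1 + I) * Polynomial.X ^ 2

/-- the same as a power series -/
noncomputable def as : ℂ⟦X⟧ := (aP : ℂ⟦X⟧)

/-- the same as a power series -/
noncomputable def bs : ℂ⟦X⟧ := (bP : ℂ⟦X⟧)

theorem as_eq : as = 1 + C (1 + I) * X := by
  simp [as, aP]

theorem bs_eq : bs = 1 + C 2 * X + C (1 + I) * X ^ 2 := by
  simp [bs, bP]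

theorem as_cc : constantCoeff as = 1 := by simp [as_eq]

theorem bs_cc : constantCoeff bs = 1 := by simp [bs_eq]

theorem as_inv : as * as⁻¹ = 1 := PowerSeries.mul_inv_cancel _ (by rw [as_cc]; exact one_ne_zero)

theorem bs_inv : bs * bs⁻¹ = 1 := PowerSeries.mul_inv_cancel _ (by rw [bs_cc]; exact one_ne_zero)

/-- `F` is a rational function of `y` with denominator a power of `a b`, with value `z`
at `y = -1` (where `a b = 1`). -/
def RatAt (F : ℂ⟦X⟧) (z : ℂ) : Prop :=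
  ∃ (U : Polynomial ℂ) (n : ℕ), F * ((aP * bP : Polynomial ℂ) : ℂ⟦X⟧) ^ n = (U : ℂ⟦X⟧) ∧
    U.eval (-1) = z

theorem ph_eval : (aP * bP).eval (-1) = 1 := by
  simp only [aP, bP, Polynomial.eval_mul, Polynomial.eval_add, Polynomial.eval_one,
    Polynomial.eval_C, Polynomial.eval_X, Polynomial.eval_pow]
  linear_combination -I_mul_I

theorem RatAt.poly (U : Polynomial ℂ) : RatAt (U : ℂ⟦X⟧) (U.eval (-1)) :=
  ⟨U, 0, by simp, rfl⟩

theorem RatAt.const (c : ℂ) : RatAt (C c) c := by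
  have := RatAt.poly (Polynomial.C c)
  simpa using this

theorem RatAt.add {F G : ℂ⟦X⟧} {z y : ℂ} (hF : RatAt F z) (hG : RatAt G y) :
    RatAt (F + G) (z + y) := by
  obtain ⟨U, n, hU, rfl⟩ := hF
  obtain ⟨V, m, hV, rfl⟩ := hG
  refine ⟨U * (aP * bP) ^ m + V * (aP * bP) ^ n, n + m, ?_, ?_⟩
  · rw [Polynomial.coe_add, Polynomial.coe_mul U, Polynomial.coe_mul V, Polynomial.coe_pow,
      Polynomial.coe_pow, ← hU, ← hV, pow_add]
    ring
  · simp only [Polynomial.eval_add, Polynomial.eval_mul (p := U), Polynomial.eval_mul (p := V),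
      Polynomial.eval_pow, ph_eval, one_pow, mul_one]

theorem RatAt.mul {F G : ℂ⟦X⟧} {z y : ℂ} (hF : RatAt F z) (hG : RatAt G y) :
    RatAt (F * G) (z * y) := by
  obtain ⟨U, n, hU, rfl⟩ := hF
  obtain ⟨V, m, hV, rfl⟩ := hG
  refine ⟨U * V, n + m, ?_, ?_⟩
  · rw [Polynomial.coe_mul U, ← hU, ← hV, pow_add]
    ring
  · rw [Polynomial.eval_mul]

theorem RatAt.val {F : ℂ⟦X⟧} {z y : ℂ} (hF : RatAt F z) (h : z = y) : RatAt F y := h ▸ hF

theorem RatAt.smul {F : ℂ⟦X⟧} {z : ℂ} (c : ℂ) (hF : RatAt F z) : RatAt (C c * F) (c * z) :=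
  (RatAt.const c).mul hF

theorem RatAt.pow {F : ℂ⟦X⟧} {z : ℂ} (hF : RatAt F z) (n : ℕ) : RatAt (F ^ n) (z ^ n) := by
  induction n with
  | zero => simpa using RatAt.const 1
  | succ n ih => rw [pow_succ, pow_succ]; exact ih.mul hF

theorem RatAt.a : RatAt as (-I) := (RatAt.poly aP).val (by simp [aP])

theorem RatAt.b : RatAt bs I := (RatAt.poly bP).val (by simp [bP]; ring)

theorem RatAt.ainv : RatAt as⁻¹ I := by
  refine ⟨bP, 1, ?_, ?_⟩
  · rw [pow_one, Polynomial.coe_mul]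
    change as⁻¹ * (as * bs) = bs
    linear_combination bs * as_inv
  · simp [bP]
    ring

theorem RatAt.binv : RatAt bs⁻¹ (-I) := by
  refine ⟨aP, 1, ?_, ?_⟩
  · rw [pow_one, Polynomial.coe_mul]
    change bs⁻¹ * (as * bs) = as
    linear_combination as * bs_inv
  · simp [aP]

/-- `v` -/
noncomputable def vs : ℂ⟦X⟧ := C (1 + I) * as + C (1 - I) * as⁻¹

/-- `w` -/
noncomputable def ws : ℂ⟦X⟧ := C (2 * I) * bs * as⁻¹

/-- `1/w` -/
noncomputable def wsi : ℂ⟦X⟧ := C (-I / 2) * as * bs⁻¹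

/-- `(dz/dy) / z` -/
noncomputable def lam : ℂ⟦X⟧ := C (1 + I) * as⁻¹

theorem ws_mul_wsi : ws * wsi = 1 := by
  have h : (C (2 * I) * C (-I / 2) : ℂ⟦X⟧) = 1 := by
    rw [← map_mul, ← map_one C]
    congr 1
    linear_combination -I_mul_I
  unfold ws wsi
  linear_combination h * (bs * bs⁻¹) * (as * as⁻¹) + (as * as⁻¹) * bs_inv + as_inv

theorem C_one_add_I : (C (1 + I) : ℂ⟦X⟧) = 1 + C I := by simp

theorem C_one_sub_I : (C (1 - I) : ℂ⟦X⟧) = 1 - C I := by simp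

theorem C_I_mul : (C I * C I : ℂ⟦X⟧) = -1 := by
  rw [← map_mul, I_mul_I]; simp

theorem ws_eq : ws = C (1 + I) * as - C (1 - I) * as⁻¹ := by
  have key : C (2 * I) * bs = C (1 + I) * as * as - C (1 - I) := by
    rw [bs_eq, as_eq, map_mul, C_one_add_I, C_one_sub_I, map_ofNat]
    linear_combination (-(2 : ℂ⟦X⟧) * X - X ^ 2 - C I * X ^ 2) * C_I_mul
  unfold ws
  rw [key]
  linear_combination (C (1 + I) * as) * as_inv

theorem vs_sq : vs ^ 2 = ws ^ 2 + 8 := by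
  rw [ws_eq, vs, C_one_add_I, C_one_sub_I]
  linear_combination (4 - 4 * C I * C I) * as_inv - 4 * C_I_mul

theorem d_as : d⁄dX ℂ as = C (1 + I) := by
  rw [as_eq]
  simp [Derivation.leibniz]

theorem d_asinv : d⁄dX ℂ as⁻¹ = -(as⁻¹) ^ 2 * C (1 + I) := by
  rw [derivative_inv', d_as]

theorem d_vs : d⁄dX ℂ vs = lam * ws := by
  rw [ws_eq, vs, lam, map_add, Derivation.leibniz, Derivation.leibniz, d_as, d_asinv,
    derivative_C, derivative_C, smul_eq_mul, smul_eq_mul, smul_eq_mul, smul_eq_mul]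
  linear_combination (-C (1 + I) * C (1 + I)) * as_inv

theorem d_ws : d⁄dX ℂ ws = lam * vs := by
  rw [ws_eq, vs, lam, map_sub, Derivation.leibniz, Derivation.leibniz, d_as, d_asinv,
    derivative_C, derivative_C, smul_eq_mul, smul_eq_mul, smul_eq_mul, smul_eq_mul]
  linear_combination (-C (1 + I) * C (1 + I)) * as_inv

theorem RatAt.v : RatAt vs 2 :=
  ((RatAt.a.smul (1 + I)).add (RatAt.ainv.smul (1 - I))).val (by linear_combination -2 * I_mul_I)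

theorem RatAt.w : RatAt ws (-(2 * I)) :=
  ((RatAt.b.smul (2 * I)).mul RatAt.ainv).val (by linear_combination 2 * I * I_mul_I)

theorem RatAt.wi : RatAt wsi (-(2 * I))⁻¹ :=
  ((RatAt.a.smul (-I / 2)).mul RatAt.binv).val (by
    refine eq_inv_of_mul_eq_one_left ?_
    linear_combination (I * I - 1) * I_mul_I)

theorem vs_cc : constantCoeff vs = 2 := by
  simp [vs, as_cc]
  ring

theorem ws_cc : constantCoeff ws = 2 * I := by
  simp [ws, as_cc, bs_cc]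

/-- `w` as a unit -/
noncomputable def wu : ℂ⟦X⟧ˣ := ⟨ws, wsi, ws_mul_wsi, by rw [mul_comm]; exact ws_mul_wsi⟩

/-- integer powers of `w` -/
noncomputable def wz (k : ℤ) : ℂ⟦X⟧ := ((wu ^ k : ℂ⟦X⟧ˣ) : ℂ⟦X⟧)

theorem wz_zero : wz 0 = 1 := by simp [wz]

theorem wz_one : wz 1 = ws := by simp [wz, wu]

theorem wz_neg_one : wz (-1) = wsi := by simp [wz, wu]

theorem wz_add (k l : ℤ) : wz (k + l) = wz k * wz l := by
  simp [wz, zpow_add]

theorem wz_nat (n : ℕ) : wz n = ws ^ n := by simp [wz, wu]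

theorem wz_neg_nat (n : ℕ) : wz (-(n : ℤ)) = wsi ^ n := by
  simp [wz, wu]

theorem wz_cc (k : ℤ) : constantCoeff (wz k) = (2 * I) ^ k := by
  obtain ⟨n, rfl | rfl⟩ := k.eq_nat_or_neg
  · rw [wz_nat, map_pow, ws_cc, zpow_natCast]
  · rw [wz_neg_nat, map_pow, zpow_neg, zpow_natCast, ← inv_pow]
    congr 1
    have h := congrArg (constantCoeff (R := ℂ)) ws_mul_wsi
    rw [map_mul, ws_cc, map_one] at h
    exact eq_inv_of_mul_eq_one_right h

theorem RatAt.wz (k : ℤ) : RatAt (wz k) ((-(2 * I)) ^ k) := by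
  obtain ⟨n, rfl | rfl⟩ := k.eq_nat_or_neg
  · rw [wz_nat, zpow_natCast]; exact RatAt.w.pow n
  · rw [wz_neg_nat, zpow_neg, zpow_natCast, ← inv_pow]
    exact RatAt.wi.pow n

theorem d_wsi : d⁄dX ℂ wsi = -(wsi) ^ 2 * (lam * vs) := by
  have h := congrArg (d⁄dX ℂ) ws_mul_wsi
  rw [Derivation.leibniz, d_ws, smul_eq_mul, smul_eq_mul] at h
  have h1 : d⁄dX ℂ (1 : ℂ⟦X⟧) = 0 := derivative_one
  rw [h1] at h
  linear_combination wsi * h - (d⁄dX ℂ wsi) * ws_mul_wsi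

theorem d_wz (k : ℤ) : d⁄dX ℂ (wz k) = (k : ℂ⟦X⟧) * wz (k - 1) * (lam * vs) := by
  induction k using Int.induction_on with
  | zero => rw [wz_zero]; simp
  | succ k ih =>
    rw [wz_add, wz_one, Derivation.leibniz, ih, d_ws, smul_eq_mul, smul_eq_mul]
    have h : wz (k : ℤ) = wz (k - 1) * ws := by rw [← wz_one, ← wz_add]; congr 1; ring
    rw [add_sub_cancel_right, h]
    push_cast
    ring
  | pred k ih =>
    have h1 : wz (-(k : ℤ) - 1) = wz (-k) * wsi := by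
      rw [← wz_neg_one, ← wz_add]; congr 1
    have h2 : wz (-(k : ℤ) - 1 - 1) = wz (-(k : ℤ) - 1) * wsi := by
      rw [← wz_neg_one, ← wz_add]; congr 1
    rw [h2, h1, Derivation.leibniz, ih, d_wsi, h1, smul_eq_mul, smul_eq_mul]
    push_cast
    ring

theorem d_vw (k : ℤ) : d⁄dX ℂ (vs * wz (2 * k + 1)) =
    lam * (((2 * k + 2 : ℤ) : ℂ⟦X⟧) * wz (2 * (k + 1)) +
      ((8 * (2 * k + 1) : ℤ) : ℂ⟦X⟧) * wz (2 * k)) := by
  have h1 : wz (2 * k + 1) = wz (2 * k) * ws := by rw [← wz_one, ← wz_add]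
  have h2 : wz (2 * (k + 1)) = wz (2 * k) * ws * ws := by
    rw [← wz_one, ← wz_add, ← wz_add]; congr 1; ring
  rw [Derivation.leibniz, d_wz, d_vs, smul_eq_mul, smul_eq_mul, add_sub_cancel_right, h1, h2]
  push_cast
  linear_combination (2 * (k : ℂ⟦X⟧) + 1) * wz (2 * k) * lam * vs_sq

theorem val_vw (k : ℤ) : (2 : ℂ) * (-(2 * I)) ^ (2 * k + 1) - 2 * (2 * I) ^ (2 * k + 1) =
    -(2 * I) * (4 * (-4) ^ k) := by
  have h2 : (2 * I : ℂ) ≠ 0 := by simp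
  have h3 : (-(2 * I) : ℂ) ≠ 0 := by simp
  rw [zpow_add₀ h2, zpow_add₀ h3, zpow_mul, zpow_mul, zpow_one, zpow_one]
  have h4 : ((2 * I : ℂ)) ^ (2 : ℤ) = -4 := by
    rw [zpow_ofNat]; linear_combination 4 * I_mul_I
  have h5 : (-(2 * I : ℂ)) ^ (2 : ℤ) = -4 := by
    rw [zpow_ofNat]; linear_combination 4 * I_mul_I
  rw [h4, h5]
  ring

/-- `E` is a primitive of `w^(2k) dz/z`. -/
def EP (k : ℤ) : Prop := ∃ (E : ℂ⟦X⟧) (z : ℂ), RatAt E z ∧
  d⁄dX ℂ E = lam * (wz (2 * k) - ((epsSeq k : ℤ) : ℂ⟦X⟧)) ∧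
  z - constantCoeff E = -(2 * I) * ((eSeq k : ℚ) : ℂ)

theorem cc_vw (k : ℤ) : constantCoeff (vs * wz (2 * k + 1)) = 2 * (2 * I) ^ (2 * k + 1) := by
  rw [map_mul, vs_cc, wz_cc]

theorem Cinv_mul {n : ℤ} (hn : n ≠ 0) : (C ((n : ℂ)⁻¹) : ℂ⟦X⟧) * (n : ℂ⟦X⟧) = 1 := by
  have hn' : (n : ℂ) ≠ 0 := by exact_mod_cast hn
  rw [← map_intCast (C : ℂ →+* ℂ⟦X⟧) n, ← map_mul, inv_mul_cancel₀ hn', map_one]

/-- a general step -/
theorem EP_step {n m : ℤ} (hn : n ≠ 0) {V E R S lm : ℂ⟦X⟧} {y z e f g : ℂ} {p q : ℤ}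
    (hV : RatAt V y) (hE : RatAt E z)
    (hdV : d⁄dX ℂ V = lm * ((n : ℂ⟦X⟧) * R + (m : ℂ⟦X⟧) * S))
    (hdE : d⁄dX ℂ E = lm * (S - (q : ℂ⟦X⟧)))
    (hpq : n * p + m * q = 0)
    (hyV : y - constantCoeff V = -(2 * I) * g)
    (hzE : z - constantCoeff E = -(2 * I) * f)
    (hef : n * e + m * f = g) :
    ∃ (F : ℂ⟦X⟧) (x : ℂ), RatAt F x ∧ d⁄dX ℂ F = lm * (R - (p : ℂ⟦X⟧)) ∧
      x - constantCoeff F = -(2 * I) * e := by
  have hn' : (n : ℂ) ≠ 0 := by exact_mod_cast hn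
  have hC := Cinv_mul hn
  have hpq' : (n : ℂ⟦X⟧) * (p : ℂ⟦X⟧) + (m : ℂ⟦X⟧) * (q : ℂ⟦X⟧) = 0 := by
    have := congrArg (fun t : ℤ => (t : ℂ⟦X⟧)) hpq
    simpa using this
  have hm : (C (-(m : ℂ)) : ℂ⟦X⟧) = -(m : ℂ⟦X⟧) := by rw [map_neg, map_intCast]
  refine ⟨C ((n : ℂ)⁻¹) * (V + C (-(m : ℂ)) * E), (n : ℂ)⁻¹ * (y + -(m : ℂ) * z),
    (hV.add (hE.smul _)).smul _, ?_, ?_⟩
  · have h1 : d⁄dX ℂ (C ((n : ℂ)⁻¹) * (V + C (-(m : ℂ)) * E)) =
        C ((n : ℂ)⁻¹) * (d⁄dX ℂ V + C (-(m : ℂ)) * d⁄dX ℂ E) := by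
      rw [Derivation.leibniz, derivative_C, map_add, Derivation.leibniz, derivative_C,
        smul_zero, smul_zero, add_zero, add_zero, smul_eq_mul, smul_eq_mul]
    rw [h1, hdV, hdE, hm]
    linear_combination lm * (R - (p : ℂ⟦X⟧)) * hC + C ((n : ℂ)⁻¹) * lm * hpq'
  · rw [map_mul, map_add, map_mul, constantCoeff_C, constantCoeff_C]
    have h2 : (n : ℂ)⁻¹ * (y + -(m : ℂ) * z) -
        (n : ℂ)⁻¹ * (constantCoeff V + -(m : ℂ) * constantCoeff E) =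
        (n : ℂ)⁻¹ * ((y - constantCoeff V) - m * (z - constantCoeff E)) := by ring
    rw [h2, hyV, hzE, ← hef]
    field_simp
    ring

theorem EP_up {k : ℤ} (hk : 2 * k + 2 ≠ 0) (h : EP k) : EP (k + 1) := by
  obtain ⟨E, z, hE, hd, hv⟩ := h
  have h1 := congrArg (fun t : ℚ => (t : ℂ)) (eSeq_rec k)
  have h2 : (((2 * k + 2 : ℤ) : ℂ)) * ((eSeq (k + 1) : ℚ) : ℂ) +
    ((8 * (2 * k + 1) : ℤ) : ℂ) * ((eSeq k : ℚ) : ℂ) = 4 * (-4) ^ k := by
    push_cast at h1 ⊢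
    exact h1
  have h3 := val_vw k
  exact EP_step hk (RatAt.v.mul (RatAt.wz (2 * k + 1))) hE (d_vw k) hd (epsSeq_rec k)
    (by rw [cc_vw]; exact h3) hv h2

theorem EP_down {k : ℤ} (h : EP (k + 1)) : EP k := by
  obtain ⟨E, z, hE, hd, hv⟩ := h
  have h1 := congrArg (fun t : ℚ => (t : ℂ)) (eSeq_rec k)
  have h2 : ((8 * (2 * k + 1) : ℤ) : ℂ) * ((eSeq k : ℚ) : ℂ) +
    (((2 * k + 2 : ℤ) : ℂ)) * ((eSeq (k + 1) : ℚ) : ℂ) = 4 * (-4) ^ k := by
    rw [add_comm]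
    push_cast at h1 ⊢
    exact h1
  have h3 := val_vw k
  refine EP_step (by omega) (RatAt.v.mul (RatAt.wz (2 * k + 1))) hE (m := 2 * k + 2) ?_ hd
    (by rw [add_comm]; exact epsSeq_rec k)
    (by rw [cc_vw]; exact h3) hv h2
  rw [d_vw k, add_comm]

theorem EP_all (k : ℤ) : EP k := by
  induction k using Int.induction_on with
  | zero =>
    refine ⟨0, 0, by simpa using RatAt.const 0, ?_, ?_⟩
    · have h0 : epsSeq 0 = 1 := by decide
      rw [mul_zero, wz_zero, h0, map_zero]; simp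
    · have h0 : eSeq 0 = 0 := rfl
      rw [h0]; simp
  | succ k ih => exact EP_up (by omega) ih
  | pred k ih =>
    refine EP_down (k := -(k : ℤ) - 1) ?_
    rwa [sub_add_cancel]

/-- `E` is a primitive of `v w^(2k) dz/z`. -/
def OP (k : ℤ) : Prop := ∃ (E : ℂ⟦X⟧) (z : ℂ), RatAt E z ∧
  d⁄dX ℂ E = lam * (vs * wz (2 * k)) ∧
  z - constantCoeff E = -(2 * I) * ((oSeq k : ℚ) : ℂ)

theorem OP_all (k : ℤ) : OP k := by
  have hk0 : (2 * k + 1) ≠ 0 := by omega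
  have hk' : (((2 * k + 1 : ℤ)) : ℂ) ≠ 0 := by exact_mod_cast hk0
  have hC := Cinv_mul hk0
  refine ⟨C (((2 * k + 1 : ℤ) : ℂ)⁻¹) * wz (2 * k + 1),
    (((2 * k + 1 : ℤ)) : ℂ)⁻¹ * (-(2 * I)) ^ (2 * k + 1), (RatAt.wz _).smul _, ?_, ?_⟩
  · rw [Derivation.leibniz, derivative_C, d_wz, smul_zero, add_zero, smul_eq_mul,
      add_sub_cancel_right]
    linear_combination wz (2 * k) * (lam * vs) * hC
  · rw [map_mul, wz_cc, constantCoeff_C, oSeq]
    have h3 := val_vw k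
    push_cast at hk' ⊢
    field_simp
    linear_combination h3 / 2

/-- evaluation of rational polynomials at `v`. -/
noncomputable def evs : Polynomial ℚ →+* ℂ⟦X⟧ :=
  Polynomial.eval₂RingHom ((C : ℂ →+* ℂ⟦X⟧).comp (algebraMap ℚ ℂ)) vs

theorem evs_X : evs Polynomial.X = vs := by simp [evs]

theorem evs_C (c : ℚ) : evs (Polynomial.C c) = C (c : ℂ) := by simp [evs]

theorem evs_W : evs (Polynomial.X ^ 2 - Polynomial.C 8) = ws ^ 2 := by
  rw [map_sub, map_pow, evs_X, evs_C, vs_sq, Rat.cast_ofNat, map_ofNat]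
  ring

/-- the primitive of `N(v) w^(-2H) dz/z` -/
theorem exists_rep (H : ℤ) (N : Polynomial ℚ) : ∃ (E : ℂ⟦X⟧) (z : ℂ), RatAt E z ∧
    d⁄dX ℂ E = lam * (evs N * wz (-(2 * H)) - C ((LB H N : ℚ) : ℂ)) ∧
    z - constantCoeff E = -(2 * I) * ((LA H N : ℚ) : ℂ) := by
  induction N using induction_W with
  | hadd p q hp hq =>
    obtain ⟨E, z, hE, hd, hv⟩ := hp
    obtain ⟨F, y, hF, hd', hv'⟩ := hq
    refine ⟨E + F, z + y, hE.add hF, ?_, ?_⟩
    · rw [map_add, hd, hd', map_add, map_add, Rat.cast_add, map_add]; ring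
    · rw [map_add, map_add, Rat.cast_add]; linear_combination hv + hv'
  | hev c m =>
    obtain ⟨E, z, hE, hd, hv⟩ := EP_all (m - H)
    refine ⟨C (c : ℂ) * E, c * z, hE.smul _, ?_, ?_⟩
    · rw [Derivation.leibniz, derivative_C, hd, smul_zero, add_zero, smul_eq_mul, map_mul,
        map_pow, evs_W, evs_C, ← Polynomial.smul_eq_C_mul, map_smul, LB_W_pow, smul_eq_mul]
      have h1 : wz (2 * (m - H)) = (ws ^ 2) ^ m * wz (-(2 * H)) := by
        rw [← pow_mul, ← wz_nat, ← wz_add]; congr 1; push_cast; ring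
      rw [h1]
      push_cast
      rw [map_mul]
      simp only [map_intCast]
      ring
    · rw [map_mul, constantCoeff_C, ← Polynomial.smul_eq_C_mul, map_smul, LA_W_pow, smul_eq_mul]
      push_cast
      linear_combination (c : ℂ) * hv
  | hod c m =>
    obtain ⟨E, z, hE, hd, hv⟩ := OP_all (m - H)
    refine ⟨C (c : ℂ) * E, c * z, hE.smul _, ?_, ?_⟩
    · rw [Derivation.leibniz, derivative_C, hd, smul_zero, add_zero, smul_eq_mul, map_mul, map_mul,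
        map_pow, evs_W, evs_C, evs_X, ← Polynomial.smul_eq_C_mul, map_smul, LB_X_mul_W_pow,
        smul_zero]
      have h1 : wz (2 * (m - H)) = (ws ^ 2) ^ m * wz (-(2 * H)) := by
        rw [← pow_mul, ← wz_nat, ← wz_add]; congr 1; push_cast; ring
      rw [h1]
      simp
      ring
    · rw [map_mul, constantCoeff_C, ← Polynomial.smul_eq_C_mul, map_smul, LA_X_mul_W_pow,
        smul_eq_mul]
      push_cast
      linear_combination (c : ℂ) * hv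

end Vale.Agent.P021.Two
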